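import Claimed.Agent.R286.Top.Glue

/-!
# Row 286 (S0533), folder Top, file Compl : removal of the completion      (helper4; prefix `sk_cp_`)

`SkMomC β` = LL Theorem 1.2 VERBATIM: the completed free energy `F_n - n log 2 + ζ`, `ζ ~ N(0, β²/2)` independent of the
couplings, centred, divided by `n^(1/6)`: all moments converge, `a 2 > 0`, uniform exponential moment.
`sk_cp_main : SkMomC β → SkMom β` (binomial induction for the moments, Gaussian mgf for the exponential moment), hence
`sk_cp_top : SkMomC β → statement of S0533`.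
-/

set_option autoImplicit false

namespace Claimed.Agent.R286

open MeasureTheory ProbabilityTheory Filter Topology BoundedContinuousFunction
open Claims.C0461
open scoped NNReal

/-- the variance `β²/2` of the completion variable -/
noncomputable def skcVar (β : ℝ) : ℝ≥0 := ⟨β ^ 2 / 2, by positivity⟩

/-- couplings and the independent completion variable -/
noncomputable def skcDisorder (β : ℝ) (n : ℕ) : Measure ((SKPair n → ℝ) × ℝ) :=
  (skDisorder n).prod (gaussianReal 0 (skcVar β))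

/-- the completed free energy with the uniform spin prior (LL (1.3)) -/
noncomputable def skcFree (β : ℝ) (n : ℕ) (ω : (SKPair n → ℝ) × ℝ) : ℝ :=
  skLogPartition β n ω.1 - n * Real.log 2 + ω.2

/-- `Y_n` of LL (1.3) -/
noncomputable def skcY (β : ℝ) (n : ℕ) (ω : (SKPair n → ℝ) × ℝ) : ℝ :=
  (skcFree β n ω - ∫ ω', skcFree β n ω' ∂skcDisorder β n) / (n : ℝ) ^ ((1 : ℝ) / 6)

/-- **LL Theorem 1.2** (moment convergence at the fluctuation scale, completed model) -/
def SkMomC (β : ℝ) : Prop :=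
  ∃ a : ℕ → ℝ, 0 < a 2 ∧ (∀ k : ℕ, Tendsto (fun n => ∫ ω, skcY β n ω ^ k ∂skcDisorder β n) atTop (𝓝 (a k))) ∧
    ∃ t0 C : ℝ, 0 < t0 ∧ ∀ n : ℕ, 2 ≤ n → Integrable (fun ω => Real.exp (t0 * |skcY β n ω|)) (skcDisorder β n) ∧
      ∫ ω, Real.exp (t0 * |skcY β n ω|) ∂skcDisorder β n ≤ C

theorem sk_cp_eqns_cite : True := by
  have := @skcVar.eq_1
  have := @skcDisorder.eq_1
  have := @skcFree.eq_1
  have := @skcY.eq_1
  have := @SkMomC.eq_1
  trivial

section abstract

variable {Ω : Type} [MeasurableSpace Ω] (P : Measure Ω) [IsProbabilityMeasure P] (v : ℝ≥0)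

/-- integrability of `F` from an exponential moment of the completed variable -/
theorem sk_cp_intF (F : Ω → ℝ) (hF : Measurable F) (c d t0 : ℝ) (hd : 0 < d) (ht0 : 0 < t0)
    (h : Integrable (fun ω : Ω × ℝ => Real.exp (t0 * |(F ω.1 + ω.2 - c) / d|)) (P.prod (gaussianReal 0 v))) :
    Integrable F P := by
  obtain ⟨y, hy⟩ := h.prod_left_ae.exists
  refine Integrable.mono' ((hy.const_mul (d / t0)).add (integrable_const |y - c|)) hF.aestronglyMeasurable
    (Eventually.of_forall fun x => ?_)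
  simp only [Pi.add_apply]
  rw [Real.norm_eq_abs]
  have h1 : t0 * |(F x + y - c) / d| ≤ Real.exp (t0 * |(F x + y - c) / d|) := by
    linarith [Real.add_one_le_exp (t0 * |(F x + y - c) / d|)]
  have h2 : |F x + y - c| = d * |(F x + y - c) / d| := by
    rw [abs_div, abs_of_pos hd]
    field_simp
  have h3 : d * |(F x + y - c) / d| ≤ d / t0 * Real.exp (t0 * |(F x + y - c) / d|) := by
    rw [div_mul_eq_mul_div, le_div_iff₀ ht0]
    nlinarith
  have h4 : |F x| ≤ |F x + y - c| + |y - c| := by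
    have : F x = (F x + y - c) - (y - c) := by ring
    calc |F x| = |(F x + y - c) - (y - c)| := by rw [← this]
      _ ≤ _ := abs_sub _ _
  linarith

/-- the mean of the completed variable -/
theorem sk_cp_mean (F : Ω → ℝ) (hF : Integrable F P) (κ : ℝ) :
    ∫ ω : Ω × ℝ, (F ω.1 - κ + ω.2) ∂(P.prod (gaussianReal 0 v)) = ∫ x, F x ∂P - κ := by
  have h1 : Integrable (fun ω : Ω × ℝ => F ω.1) (P.prod (gaussianReal 0 v)) := hF.comp_fst _
  have h2 : Integrable (fun ω : Ω × ℝ => ω.2) (P.prod (gaussianReal 0 v)) :=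
    Integrable.comp_snd (f := fun y : ℝ => y)
      ((memLp_id_gaussianReal (μ := 0) (v := v) 1).integrable (by simp)) P
  have h3 : Integrable (fun ω : Ω × ℝ => F ω.1 - κ) (P.prod (gaussianReal 0 v)) := h1.sub (integrable_const κ)
  rw [integral_add h3 h2, integral_sub h1 (integrable_const κ),
    integral_fun_fst, integral_fun_snd (fun y : ℝ => y), integral_id_gaussianReal]
  simp

/-- one-sided Gaussian smoothing increases the exponential -/
theorem sk_cp_exp_le (a s : ℝ) :
    Real.exp a ≤ ∫ y, Real.exp (a + s * y) ∂(gaussianReal 0 v) := by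
  have h1 : ∫ y, Real.exp (a + s * y) ∂(gaussianReal 0 v) = Real.exp a * mgf id (gaussianReal 0 v) s := by
    simp only [mgf, id_eq, Real.exp_add]
    rw [integral_const_mul]
  rw [h1, mgf_id_gaussianReal]
  have h2 : (1 : ℝ) ≤ Real.exp (0 * s + (v : ℝ) * s ^ 2 / 2) := by
    apply Real.one_le_exp
    have hv : (0 : ℝ) ≤ v := v.2
    have : 0 ≤ (v : ℝ) * s ^ 2 / 2 := by positivity
    linarith
  nlinarith [Real.exp_pos a]

theorem sk_cp_int_abs (a s t : ℝ) :
    Integrable (fun y : ℝ => Real.exp (t * |a + s * y|)) (gaussianReal 0 v) := by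
  have h1 : Integrable (fun y : ℝ => Real.exp (t * a) * Real.exp ((t * s) * y)) (gaussianReal 0 v) :=
    (integrable_exp_mul_gaussianReal (t * s)).const_mul _
  have h2 : Integrable (fun y : ℝ => Real.exp (-(t * a)) * Real.exp ((-(t * s)) * y)) (gaussianReal 0 v) :=
    (integrable_exp_mul_gaussianReal (-(t * s))).const_mul _
  refine (h1.add h2).mono' (by fun_prop) (Eventually.of_forall fun y => ?_)
  simp only [Pi.add_apply]
  rw [Real.norm_eq_abs, abs_of_pos (Real.exp_pos _), ← Real.exp_add, ← Real.exp_add]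
  rcases abs_cases (a + s * y) with ⟨h, -⟩ | ⟨h, -⟩
  · rw [h]
    have : t * (a + s * y) = t * a + t * s * y := by ring
    rw [this]
    linarith [Real.exp_pos (-(t * a) + -(t * s) * y)]
  · rw [h]
    have : t * -(a + s * y) = -(t * a) + -(t * s) * y := by ring
    rw [this]
    linarith [Real.exp_pos (t * a + t * s * y)]

/-- Gaussian smoothing increases `exp (t |.|)` -/
theorem sk_cp_abs_le (a s t : ℝ) (ht : 0 ≤ t) :
    Real.exp (t * |a|) ≤ ∫ y, Real.exp (t * |a + s * y|) ∂(gaussianReal 0 v) := by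
  have hI := sk_cp_int_abs v a s t
  rcases abs_cases a with ⟨h, -⟩ | ⟨h, -⟩
  · rw [h]
    refine (sk_cp_exp_le v (t * a) (t * s)).trans ?_
    refine integral_mono ?_ hI fun y => ?_
    · simp only [Real.exp_add]
      exact (integrable_exp_mul_gaussianReal (t * s)).const_mul _
    · apply Real.exp_le_exp.2
      calc t * a + t * s * y = t * (a + s * y) := by ring
        _ ≤ t * |a + s * y| := mul_le_mul_of_nonneg_left (le_abs_self _) ht
  · rw [h]
    refine (sk_cp_exp_le v (t * -a) (-(t * s))).trans ?_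
    refine integral_mono ?_ hI fun y => ?_
    · simp only [Real.exp_add]
      exact (integrable_exp_mul_gaussianReal (-(t * s))).const_mul _
    · apply Real.exp_le_exp.2
      calc t * -a + -(t * s) * y = t * (-(a + s * y)) := by ring
        _ ≤ t * |a + s * y| := mul_le_mul_of_nonneg_left (neg_le_abs _) ht

/-- the exponential moment of `A` is dominated by that of `A + s ζ` -/
theorem sk_cp_expmom (A : Ω → ℝ) (hA : Measurable A) (s t : ℝ) (ht : 0 ≤ t)
    (h : Integrable (fun ω : Ω × ℝ => Real.exp (t * |A ω.1 + s * ω.2|)) (P.prod (gaussianReal 0 v))) :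
    Integrable (fun x => Real.exp (t * |A x|)) P ∧
      ∫ x, Real.exp (t * |A x|) ∂P ≤ ∫ ω : Ω × ℝ, Real.exp (t * |A ω.1 + s * ω.2|) ∂(P.prod (gaussianReal 0 v)) := by
  have h1 := h.integral_prod_left
  have hi : Integrable (fun x => Real.exp (t * |A x|)) P := by
    refine h1.mono' (by fun_prop) (Eventually.of_forall fun x => ?_)
    rw [Real.norm_eq_abs, abs_of_pos (Real.exp_pos _)]
    exact sk_cp_abs_le v (A x) s t ht
  refine ⟨hi, ?_⟩
  rw [integral_prod _ h]
  exact integral_mono hi h1 fun x => sk_cp_abs_le v (A x) s t ht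

/-- integrability of powers from an exponential moment -/
theorem sk_cp_int_pow {Ω' : Type} [MeasurableSpace Ω'] (Q : Measure Ω') (A : Ω' → ℝ) (hA : Measurable A) {t : ℝ} (ht : 0 < t)
    (h : Integrable (fun x => Real.exp (t * |A x|)) Q) (k : ℕ) : Integrable (fun x => A x ^ k) Q := by
  refine (h.const_mul ((k.factorial : ℝ) / t ^ k)).mono' (by fun_prop) (Eventually.of_forall fun x => ?_)
  rw [Real.norm_eq_abs, abs_pow]
  exact sk_mm_pow_le k ht (A x)

theorem sk_cp_int_gpow (k : ℕ) : Integrable (fun y : ℝ => y ^ k) (gaussianReal 0 v) := by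
  have := integrable_pow_of_mem_interior_integrableExpSet (X := id) (μ := gaussianReal 0 v)
    (by rw [integrableExpSet_id_gaussianReal]; simp) k
  simpa using this

/-- binomial expansion of the moments of `A + s ζ` -/
theorem sk_cp_binom (A : Ω → ℝ) (hA : ∀ k : ℕ, Integrable (fun x => A x ^ k) P) (s : ℝ) (k : ℕ) :
    ∫ ω : Ω × ℝ, (A ω.1 + s * ω.2) ^ k ∂(P.prod (gaussianReal 0 v)) =
      ∑ m ∈ Finset.range (k + 1), (∫ x, A x ^ m ∂P) * (s ^ (k - m) * ∫ y, y ^ (k - m) ∂(gaussianReal 0 v)) * (k.choose m : ℝ) := by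
  simp only [add_pow]
  rw [integral_finsetSum]
  · refine Finset.sum_congr rfl fun m _ => ?_
    rw [integral_mul_const]
    congr 1
    rw [integral_prod_mul (fun x => A x ^ m) (fun y : ℝ => (s * y) ^ (k - m))]
    congr 1
    simp only [mul_pow]
    rw [integral_const_mul]
  · intro m _
    refine Integrable.mul_const ?_ _
    refine Integrable.mul_prod (f := fun x => A x ^ m) (g := fun y : ℝ => (s * y) ^ (k - m)) (hA m) ?_
    simp only [mul_pow]
    exact (sk_cp_int_gpow v (k - m)).const_mul _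

end abstract

/-- the analytic induction: moments of `A_n + s_n ζ` converge and `s_n → 0` imply that the moments of `A_n` converge -/
theorem sk_cp_induct (M y : ℕ → ℕ → ℝ) (G a : ℕ → ℝ) (s : ℕ → ℝ) (hG : G 0 = 1) (hs : Tendsto s atTop (𝓝 0))
    (hy : ∀ k, Tendsto (y k) atTop (𝓝 (a k)))
    (hrel : ∀ k, ∀ᶠ n in atTop, y k n = ∑ m ∈ Finset.range (k + 1), M m n * (s n ^ (k - m) * G (k - m)) * (k.choose m : ℝ))
    (k : ℕ) : Tendsto (M k) atTop (𝓝 (a k)) := by
  induction k using Nat.strong_induction_on with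
  | _ k ih =>
    have hsum : Tendsto (fun n => ∑ m ∈ Finset.range k, M m n * (s n ^ (k - m) * G (k - m)) * (k.choose m : ℝ)) atTop
        (𝓝 (∑ m ∈ Finset.range k, a m * (0 * G (k - m)) * (k.choose m : ℝ))) := by
      refine tendsto_finsetSum _ fun m hm => ?_
      have hm' : m < k := Finset.mem_range.1 hm
      have h0 : Tendsto (fun n => s n ^ (k - m)) atTop (𝓝 0) := by
        have := hs.pow (k - m)
        rwa [zero_pow (by omega)] at this
      exact ((ih m hm').mul (h0.mul_const _)).mul_const _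
    have hlim : Tendsto (fun n => y k n - ∑ m ∈ Finset.range k, M m n * (s n ^ (k - m) * G (k - m)) * (k.choose m : ℝ)) atTop
        (𝓝 (a k)) := by
      have := (hy k).sub hsum
      simpa using this
    refine hlim.congr' ?_
    filter_upwards [hrel k] with n hn
    rw [hn, Finset.sum_range_succ]
    simp [hG]

/-- integrability of the log partition function, from the exponential moment of `Y_n` -/
theorem sk_cp_intLog (β : ℝ) (n : ℕ) (hn : 1 ≤ n) {t0 : ℝ} (ht0 : 0 < t0)
    (h : Integrable (fun ω => Real.exp (t0 * |skcY β n ω|)) (skcDisorder β n)) :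
    Integrable (skLogPartition β n) (skDisorder n) := by
  have hd : 0 < (n : ℝ) ^ ((1 : ℝ) / 6) := Real.rpow_pos_of_pos (by exact_mod_cast hn) _
  refine sk_cp_intF (skDisorder n) (skcVar β) (skLogPartition β n) (sk_top_meas β n)
    (n * Real.log 2 + ∫ ω', skcFree β n ω' ∂skcDisorder β n) _ t0 hd ht0 ?_
  refine h.congr (Eventually.of_forall fun ω => ?_)
  simp only [skcY, skcFree]
  congr 4
  ring

/-- `Y_n = A_n + n^(-1/6) ζ` -/
theorem sk_cp_Y (β : ℝ) (n : ℕ) (hF : Integrable (skLogPartition β n) (skDisorder n)) (ω : (SKPair n → ℝ) × ℝ) :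
    skcY β n ω = skA β n ω.1 + 1 / (n : ℝ) ^ ((1 : ℝ) / 6) * ω.2 := by
  have hm : ∫ ω', skcFree β n ω' ∂skcDisorder β n = ∫ g, skLogPartition β n g ∂skDisorder n - n * Real.log 2 :=
    sk_cp_mean (skDisorder n) (skcVar β) (skLogPartition β n) hF (n * Real.log 2)
  unfold skcY
  rw [hm]
  simp only [skA, skcFree]
  ring

/-- **removal of the completion** : LL Theorem 1.2 implies the moment theorem for the frozen objects -/
theorem sk_cp_main (β : ℝ) (h : SkMomC β) : SkMom β := by
  obtain ⟨a, ha2, hm, t0, C, ht0, hE⟩ := h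
  have hF : ∀ n : ℕ, 2 ≤ n → Integrable (skLogPartition β n) (skDisorder n) := fun n hn =>
    sk_cp_intLog β n (by omega) ht0 (hE n hn).1
  have hE' : ∀ n : ℕ, 2 ≤ n → Integrable (fun ω : (SKPair n → ℝ) × ℝ =>
      Real.exp (t0 * |skA β n ω.1 + 1 / (n : ℝ) ^ ((1 : ℝ) / 6) * ω.2|)) ((skDisorder n).prod (gaussianReal 0 (skcVar β))) := by
    intro n hn
    refine (hE n hn).1.congr (Eventually.of_forall fun ω => ?_)
    simp only [sk_cp_Y β n (hF n hn) ω]
  have hX : ∀ n : ℕ, 2 ≤ n → Integrable (fun g => Real.exp (t0 * |skA β n g|)) (skDisorder n) ∧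
      ∫ g, Real.exp (t0 * |skA β n g|) ∂skDisorder n ≤ C := by
    intro n hn
    obtain ⟨h1, h2⟩ := sk_cp_expmom (skDisorder n) (skcVar β) (skA β n) (sk_top_measA β n) _ t0 ht0.le (hE' n hn)
    refine ⟨h1, h2.trans (le_trans (le_of_eq ?_) (hE n hn).2)⟩
    refine integral_congr_ae (Eventually.of_forall fun ω => ?_)
    simp only [sk_cp_Y β n (hF n hn) ω]
  refine ⟨a, ha2, fun k => ?_, t0, C, ht0, hX⟩
  refine sk_cp_induct (fun k n => ∫ g, skA β n g ^ k ∂skDisorder n) (fun k n => ∫ ω, skcY β n ω ^ k ∂skcDisorder β n)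
    (fun j => ∫ y, y ^ j ∂(gaussianReal 0 (skcVar β))) a (fun n => 1 / (n : ℝ) ^ ((1 : ℝ) / 6)) (by simp) ?_ hm ?_ k
  · simp only [one_div]
    exact tendsto_inv_atTop_zero.comp ((tendsto_rpow_atTop (by norm_num)).comp tendsto_natCast_atTop_atTop)
  · intro k
    filter_upwards [eventually_ge_atTop 2] with n hn
    rw [← sk_cp_binom (skDisorder n) (skcVar β) (skA β n)
      (fun j => sk_cp_int_pow (skDisorder n) (skA β n) (sk_top_measA β n) ht0 (hX n hn).1 j) _ k]
    refine integral_congr_ae (Eventually.of_forall fun ω => ?_)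
    simp only [sk_cp_Y β n (hF n hn) ω]

/-- LL Theorem 1.2 implies the statement of S0533 -/
theorem sk_cp_top (β : ℝ) (h : SkMomC β) :
    (∃ c : ℝ, 0 < c ∧ Tendsto (fun n : ℕ => skVariance β n / (n : ℝ) ^ ((1 : ℝ) / 3)) atTop (𝓝 c)) ∧
    ∃ ν : Measure ℝ, IsProbabilityMeasure ν ∧ ∫ x, x ∂ν = 0 ∧ ∫ x, x ^ 2 ∂ν = 1 ∧
      (∃ t : ℝ, 0 < t ∧ Integrable (fun x => Real.exp (t * |x|)) ν) ∧
      ∀ f : ℝ →ᵇ ℝ, Tendsto (fun n : ℕ => ∫ g, f (skStandardized β n g) ∂skDisorder n) atTop (𝓝 (∫ x, f x ∂ν)) :=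
  sk_top_main β (sk_cp_main β h)

end Claimed.Agent.R286
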