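import Claimed.Agent.R286.Top.Glue

/-!
# Row 286 (S0533), folder Top, file Fix : facts at FIXED `n`      (helper127; prefix `sk_fix_`)

B02 leaf T0: `skLogPartition β n` is continuous, Lipschitz for the `ℓ¹` distance of the disorder,
has all exponential moments and all moments under `skDisorder n`; the same for the centred
rescaled variable `skA β n`.   No concentration inequality, no paper input.
-/

set_option autoImplicit false

namespace Claimed.Agent.R286

open MeasureTheory ProbabilityTheory Filter Topology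
open Claims.C0461

/-- the Hamiltonian of the frozen statement -/
noncomputable def skFixHam (β : ℝ) (n : ℕ) (g : SKPair n → ℝ) (σ : Fin n → Bool) : ℝ :=
  β / Real.sqrt n * ∑ p : SKPair n, g p * pmSpin (σ p.1.1) * pmSpin (σ p.1.2)

theorem sk_fix_log_eq (β : ℝ) (n : ℕ) (g : SKPair n → ℝ) :
    skLogPartition β n g = Real.log (∑ σ : Fin n → Bool, Real.exp (skFixHam β n g σ)) := rfl

theorem sk_fix_abs_spin (b : Bool) : |pmSpin b| = 1 := by
  cases b <;> simp [pmSpin]

theorem sk_fix_sum_pos (β : ℝ) (n : ℕ) (g : SKPair n → ℝ) :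
    0 < ∑ σ : Fin n → Bool, Real.exp (skFixHam β n g σ) :=
  Finset.sum_pos (fun _ _ => Real.exp_pos _) Finset.univ_nonempty

theorem sk_fix_continuous (β : ℝ) (n : ℕ) : Continuous (skLogPartition β n) := by
  have h : Continuous fun g : SKPair n → ℝ => ∑ σ : Fin n → Bool, Real.exp (skFixHam β n g σ) := by
    unfold skFixHam
    fun_prop
  exact h.log fun g => (sk_fix_sum_pos β n g).ne'

/-- the Lipschitz constant -/
noncomputable def skFixLip (β : ℝ) (n : ℕ) : ℝ := |β| / Real.sqrt n

theorem sk_fix_lip_nonneg (β : ℝ) (n : ℕ) : 0 ≤ skFixLip β n := by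
  unfold skFixLip; positivity

theorem sk_fix_ham_sub (β : ℝ) (n : ℕ) (g g' : SKPair n → ℝ) (σ : Fin n → Bool) :
    skFixHam β n g σ ≤ skFixHam β n g' σ + skFixLip β n * ∑ p, |g p - g' p| := by
  have h1 : skFixHam β n g σ - skFixHam β n g' σ
      = β / Real.sqrt n * ∑ p : SKPair n, (g p - g' p) * pmSpin (σ p.1.1) * pmSpin (σ p.1.2) := by
    unfold skFixHam
    rw [← mul_sub, ← Finset.sum_sub_distrib]
    congr 1
    exact Finset.sum_congr rfl fun p _ => by ring
  have h2 : |∑ p : SKPair n, (g p - g' p) * pmSpin (σ p.1.1) * pmSpin (σ p.1.2)|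
      ≤ ∑ p, |g p - g' p| := by
    refine (Finset.abs_sum_le_sum_abs _ _).trans (le_of_eq ?_)
    exact Finset.sum_congr rfl fun p _ => by
      rw [abs_mul, abs_mul, sk_fix_abs_spin, sk_fix_abs_spin, mul_one, mul_one]
  have h3 : skFixHam β n g σ - skFixHam β n g' σ ≤ skFixLip β n * ∑ p, |g p - g' p| := by
    rw [h1]
    calc _ ≤ |β / Real.sqrt n * ∑ p : SKPair n, (g p - g' p) * pmSpin (σ p.1.1) * pmSpin (σ p.1.2)| :=
          le_abs_self _
      _ = skFixLip β n * |∑ p : SKPair n, (g p - g' p) * pmSpin (σ p.1.1) * pmSpin (σ p.1.2)| := by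
          rw [abs_mul, abs_div, abs_of_nonneg (Real.sqrt_nonneg _)]; rfl
      _ ≤ _ := mul_le_mul_of_nonneg_left h2 (sk_fix_lip_nonneg β n)
  linarith

theorem sk_fix_le (β : ℝ) (n : ℕ) (g g' : SKPair n → ℝ) :
    skLogPartition β n g ≤ skLogPartition β n g' + skFixLip β n * ∑ p, |g p - g' p| := by
  rw [sk_fix_log_eq, sk_fix_log_eq, ← Real.log_exp (skFixLip β n * ∑ p, |g p - g' p|),
    ← Real.log_mul (sk_fix_sum_pos β n g').ne' (Real.exp_pos _).ne']
  refine Real.log_le_log (sk_fix_sum_pos β n g) ?_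
  rw [Finset.sum_mul]
  refine Finset.sum_le_sum fun σ _ => ?_
  rw [← Real.exp_add]
  exact Real.exp_le_exp.2 (sk_fix_ham_sub β n g g' σ)

/-- **Lipschitz bound** (log-sum-exp is `1`-Lipschitz for the sup norm). -/
theorem sk_fix_lip (β : ℝ) (n : ℕ) (g g' : SKPair n → ℝ) :
    |skLogPartition β n g - skLogPartition β n g'| ≤ skFixLip β n * ∑ p, |g p - g' p| := by
  have h1 := sk_fix_le β n g g'
  have h2 := sk_fix_le β n g' g
  have e : ∑ p, |g' p - g p| = ∑ p, |g p - g' p| :=
    Finset.sum_congr rfl fun p _ => abs_sub_comm _ _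
  rw [e] at h2
  rw [abs_le]
  constructor <;> linarith

theorem sk_fix_zero (β : ℝ) (n : ℕ) : skLogPartition β n 0 = n * Real.log 2 := by
  rw [sk_fix_log_eq]
  simp [skFixHam]

theorem sk_fix_abs_le (β : ℝ) (n : ℕ) (g : SKPair n → ℝ) :
    |skLogPartition β n g| ≤ n * Real.log 2 + skFixLip β n * ∑ p, |g p| := by
  have h := sk_fix_lip β n g 0
  rw [sk_fix_zero] at h
  simp only [Pi.zero_apply, sub_zero] at h
  have h2 : 0 ≤ (n : ℝ) * Real.log 2 := mul_nonneg (Nat.cast_nonneg n) (Real.log_nonneg (by norm_num))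
  have := abs_le.1 h
  rw [abs_le]
  constructor <;> linarith

theorem sk_fix_gauss_exp_abs (s : ℝ) :
    Integrable (fun x : ℝ => Real.exp (s * |x|)) (gaussianReal 0 1) := by
  refine ((integrable_exp_mul_gaussianReal (μ := 0) (v := 1) s).add
    (integrable_exp_mul_gaussianReal (μ := 0) (v := 1) (-s))).mono' (by fun_prop)
    (Eventually.of_forall fun x => ?_)
  rw [Real.norm_eq_abs, abs_of_pos (Real.exp_pos _)]
  simp only [Pi.add_apply]
  rcases abs_cases x with ⟨h, _⟩ | ⟨h, _⟩
  · rw [h]; linarith [Real.exp_pos (-s * x)]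
  · rw [h, mul_neg, ← neg_mul]; linarith [Real.exp_pos (s * x)]

/-- exponential moments of the `ℓ¹` norm of the disorder -/
theorem sk_fix_exp_l1 (n : ℕ) (s : ℝ) :
    Integrable (fun g : SKPair n → ℝ => Real.exp (s * ∑ p, |g p|)) (skDisorder n) := by
  have h := Integrable.fintype_prod (ι := SKPair n) (f := fun _ (x : ℝ) => Real.exp (s * |x|))
    (μ := fun _ => gaussianReal 0 1) (fun _ => sk_fix_gauss_exp_abs s)
  refine h.congr (Eventually.of_forall fun g => ?_)
  simp only
  rw [← Real.exp_sum, Finset.mul_sum]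

/-- **all exponential moments** at fixed `n`. -/
theorem sk_fix_exp (β : ℝ) (n : ℕ) (t : ℝ) :
    Integrable (fun g => Real.exp (t * |skLogPartition β n g|)) (skDisorder n) := by
  have hc : Continuous fun g => Real.exp (t * |skLogPartition β n g|) := by
    have := sk_fix_continuous β n
    fun_prop
  refine ((sk_fix_exp_l1 n (|t| * skFixLip β n)).const_mul
    (Real.exp (|t| * (n * Real.log 2)))).mono' hc.aestronglyMeasurable
    (Eventually.of_forall fun g => ?_)
  rw [Real.norm_eq_abs, abs_of_pos (Real.exp_pos _), ← Real.exp_add]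
  apply Real.exp_le_exp.2
  calc t * |skLogPartition β n g| ≤ |t| * |skLogPartition β n g| :=
        mul_le_mul_of_nonneg_right (le_abs_self t) (abs_nonneg _)
    _ ≤ |t| * (n * Real.log 2 + skFixLip β n * ∑ p, |g p|) :=
        mul_le_mul_of_nonneg_left (sk_fix_abs_le β n g) (abs_nonneg t)
    _ = _ := by ring

/-- a measurable function with an exponential moment is in every `L^p`. -/
theorem sk_fix_memLp_of_exp {Ω : Type*} {m : MeasurableSpace Ω} {P : Measure Ω} {X : Ω → ℝ}
    (h : ∀ t : ℝ, Integrable (fun ω => Real.exp (t * |X ω|)) P) (hX : AEStronglyMeasurable X P)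
    (p : NNReal) : MemLp X p P := by
  refine memLp_of_mem_interior_integrableExpSet ?_ p
  have : integrableExpSet X P = Set.univ := by
    ext t
    simp only [integrableExpSet, Set.mem_ofPred_eq, Set.mem_univ, iff_true]
    refine (h |t|).mono' (by fun_prop) (Eventually.of_forall fun ω => ?_)
    rw [Real.norm_eq_abs, abs_of_pos (Real.exp_pos _)]
    apply Real.exp_le_exp.2
    calc t * X ω ≤ |t * X ω| := le_abs_self _
      _ = |t| * |X ω| := abs_mul _ _
  rw [this]
  simp

theorem sk_fix_memLp (β : ℝ) (n : ℕ) (p : NNReal) :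
    MemLp (skLogPartition β n) p (skDisorder n) :=
  sk_fix_memLp_of_exp (sk_fix_exp β n) (sk_fix_continuous β n).aestronglyMeasurable p

theorem sk_fix_integrable (β : ℝ) (n : ℕ) : Integrable (skLogPartition β n) (skDisorder n) :=
  memLp_one_iff_integrable.1 (by simpa using sk_fix_memLp β n 1)

theorem sk_fix_continuousA (β : ℝ) (n : ℕ) : Continuous (skA β n) := by
  unfold skA
  exact ((sk_fix_continuous β n).sub continuous_const).div_const _

/-- all exponential moments of the rescaled centred variable at fixed `n`. -/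
theorem sk_fix_expA (β : ℝ) (n : ℕ) (t : ℝ) :
    Integrable (fun g => Real.exp (t * |skA β n g|)) (skDisorder n) := by
  have hc : Continuous fun g => Real.exp (t * |skA β n g|) := by
    have := sk_fix_continuousA β n
    fun_prop
  set d : ℝ := (n : ℝ) ^ ((1 : ℝ) / 6) with hd
  have hd0 : 0 ≤ d := Real.rpow_nonneg (Nat.cast_nonneg n) _
  set e : ℝ := ∫ h, skLogPartition β n h ∂skDisorder n with he
  refine ((sk_fix_exp β n (|t| / d)).const_mul (Real.exp (|t| / d * |e|))).mono'
    hc.aestronglyMeasurable (Eventually.of_forall fun g => ?_)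
  rw [Real.norm_eq_abs, abs_of_pos (Real.exp_pos _), ← Real.exp_add]
  apply Real.exp_le_exp.2
  have h1 : |skA β n g| = |skLogPartition β n g - e| / d := by
    unfold skA
    rw [abs_div, abs_of_nonneg hd0]
  have h2 : |skLogPartition β n g - e| ≤ |skLogPartition β n g| + |e| := abs_sub _ _
  calc t * |skA β n g| ≤ |t| * |skA β n g| :=
        mul_le_mul_of_nonneg_right (le_abs_self t) (abs_nonneg _)
    _ = |t| / d * |skLogPartition β n g - e| := by rw [h1]; ring
    _ ≤ |t| / d * (|skLogPartition β n g| + |e|) :=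
        mul_le_mul_of_nonneg_left h2 (by positivity)
    _ = _ := by ring

theorem sk_fix_memLpA (β : ℝ) (n : ℕ) (p : NNReal) : MemLp (skA β n) p (skDisorder n) :=
  sk_fix_memLp_of_exp (sk_fix_expA β n) (sk_fix_continuousA β n).aestronglyMeasurable p

/-- all moments exist. -/
theorem sk_fix_integrable_powA (β : ℝ) (n : ℕ) (k : ℕ) :
    Integrable (fun g => skA β n g ^ k) (skDisorder n) := by
  rcases Nat.eq_zero_or_pos k with rfl | hk
  · simp
  · have := (sk_fix_memLpA β n k).integrable_norm_pow (by omega)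
    refine this.mono' ((sk_fix_continuousA β n).pow k).aestronglyMeasurable
      (Eventually.of_forall fun g => ?_)
    rw [norm_pow]

theorem sk_fix_integrable_pow (β : ℝ) (n : ℕ) (k : ℕ) :
    Integrable (fun g => skLogPartition β n g ^ k) (skDisorder n) := by
  rcases Nat.eq_zero_or_pos k with rfl | hk
  · simp
  · have := (sk_fix_memLp β n k).integrable_norm_pow (by omega)
    refine this.mono' ((sk_fix_continuous β n).pow k).aestronglyMeasurable
      (Eventually.of_forall fun g => ?_)
    rw [norm_pow]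

/-- `skA` is centred (every `n`; for `n = 0` it is `0 / 0 = 0`). -/
theorem sk_fix_meanA (β : ℝ) (n : ℕ) : ∫ g, skA β n g ∂skDisorder n = 0 := by
  unfold skA
  rw [integral_div, integral_sub (sk_fix_integrable β n) (integrable_const _), integral_const]
  simp

end Claimed.Agent.R286
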