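import Claimed.Prelude.Def_0461

/-!
# Row 286 (S0533), unit TOP, file LAM: THE NUMBERS OF THE TOP LAYER      (helper220; prefix `sk_`, `Sk`)

Vocabulary of LL Sec. 4 (04-reduction.tex) in terms of the frozen definitions only (`Claims.C0461`); no hierarchy.
* `skCen β n g = F_n(g) - E F_n`
* `skLam β n t = log E exp(t Y_n)`, `Y_n = n^(-1/6) (F_n^c - E F_n^c)` the COMPLETED scaled free energy (LL (1.3)): the completion `ζ_n ~ N(0, β²/2)` contributes `t² n^(-1/3) β² / 4` exactly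
* `SkDyadic β`   = LL Prop. 4.4 (`red:prop-dyadic`), for EVERY large `N` (not only powers of two) and every integer `N' ∈ [N, 2N]`
* `SkSmall β`    = "at the bare endpoint `K_N(s) = o(x^ε)`" (LL l.330-336: PE Thm 1.1 + augmented log-concave estimate)
-/

set_option autoImplicit false

namespace Claimed.Agent.R286

open MeasureTheory ProbabilityTheory Claims.C0461

/-- the centred free energy -/
noncomputable def skCen (β : ℝ) (n : ℕ) (g : SKPair n → ℝ) : ℝ :=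
  skLogPartition β n g - ∫ h, skLogPartition β n h ∂skDisorder n

/-- `log E exp(t Y_n)` for the completed scaled centred free energy `Y_n` -/
noncomputable def skLam (β : ℝ) (n : ℕ) (t : ℝ) : ℝ :=
  Real.log (∫ g, Real.exp (t * (n : ℝ) ^ (-(1 / 6 : ℝ)) * skCen β n g) ∂skDisorder n) + t ^ 2 * (n : ℝ) ^ (-(1 / 3 : ℝ)) * β ^ 2 / 4

/-- the scale `x = N^(-1/6)` -/
noncomputable def skX (N : ℕ) : ℝ := (N : ℝ) ^ (-(1 / 6 : ℝ))

/-- **LL Prop. 4.4** dyadic transform comparison -/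
def SkDyadic (β : ℝ) : Prop :=
  ∃ c' : ℝ, 0 < c' ∧ ∃ ε0 : ℝ, 0 < ε0 ∧ ∀ ε : ℝ, 0 < ε → ε < ε0 → ∀ q : ℝ, 0 < q → ∃ (C : ℝ) (N0 : ℕ), ∀ N : ℕ, N0 ≤ N → ∀ N' : ℕ, N ≤ N' → N' ≤ 2 * N →
    |skLam β N' (q * skX N ^ ε) - skLam β N (q * skX N ^ ε)| ≤ C * skX N ^ (ε + c')

/-- the transform is `o(x^ε)` at the bare endpoint -/
def SkSmall (β : ℝ) : Prop :=
  ∀ ε : ℝ, 0 < ε → ∀ q : ℝ, 0 < q → ∃ N0 : ℕ, ∀ N : ℕ, N0 ≤ N → skLam β N (q * skX N ^ ε) ≤ skX N ^ ε / 4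

theorem sk_lam_eqns_cite : True := by
  have := @skCen.eq_1
  have := @skLam.eq_1
  have := @skX.eq_1
  have := @SkDyadic.eq_1
  have := @SkSmall.eq_1
  trivial

end Claimed.Agent.R286
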