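import Claimed.Agent.R286.Top.Lam

/-!
# Row 286 (S0533), unit TOP, file NUM: THE POWERS OF `x = N^(-1/6)` IN LL Prop. 4.4      (owner: helper61 of platoon B, statement helper220; prefix `sk_nm_`)      sorry free

`x = skX N = N^(-1/6)`, so `N = x^(-6)`, `x ≤ 1`, `x → 0`.   `s = q x^(1+ε)`, `L = x^ε`, `D = x^(-1/2)`.
  E1 = s N C x^(5+c0)              = q C x^(ε+c0)
  E2 = s C x^(-1/4) D              = q C x^(ε+1/4)
  E3 = s N (N (A D⁻¹^(r+2)) (N C)) = q A C x^(ε + (r+2)/2 - 17) ≤ q A C x^(ε+1/4)      (r ≥ 34)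
-/

set_option autoImplicit false

namespace Claimed.Agent.R286

open Filter Topology

theorem sk_nm_x_pos {N : ℕ} (hN : 1 ≤ N) : 0 < skX N :=
  Real.rpow_pos_of_pos (by exact_mod_cast hN) _

theorem sk_nm_x_le_one {N : ℕ} (hN : 1 ≤ N) : skX N ≤ 1 :=
  Real.rpow_le_one_of_one_le_of_nonpos (by exact_mod_cast hN) (by norm_num)

theorem sk_nm_N_eq (N : ℕ) : (N : ℝ) = skX N ^ (-(6 : ℝ)) := by
  rw [skX, ← Real.rpow_mul (Nat.cast_nonneg N)]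
  norm_num

/-- `K x^δ → 0` -/
theorem sk_nm_small {K δ η : ℝ} (hδ : 0 < δ) (hη : 0 < η) : ∃ N0 : ℕ, ∀ N : ℕ, N0 ≤ N → K * skX N ^ δ ≤ η := by
  have h1 : Tendsto (fun N : ℕ => K * ((N : ℝ) ^ (-(δ / 6)))) atTop (𝓝 (K * 0)) :=
    ((tendsto_rpow_neg_atTop (by positivity : 0 < δ / 6)).comp tendsto_natCast_atTop_atTop).const_mul K
  rw [mul_zero] at h1
  obtain ⟨N0, hN0⟩ := eventually_atTop.1 (h1.eventually (eventually_le_nhds hη))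
  refine ⟨N0, fun N hN => ?_⟩
  have := hN0 N hN
  rwa [show -(δ / 6) = -(1 / 6 : ℝ) * δ by ring, Real.rpow_mul (Nat.cast_nonneg N)] at this

/-- the three products as powers of `x` -/
theorem sk_nm_alg {x : ℝ} (hx : 0 < x) (q C A ε c0 : ℝ) (r : ℕ) :
    q * x ^ (1 + ε) * x ^ (-(6 : ℝ)) * (C * x ^ (5 + c0)) = q * C * x ^ (ε + c0) ∧
    q * x ^ (1 + ε) * (C * x ^ (-(1 / 4 : ℝ))) * x ^ (-(1 / 2 : ℝ)) = q * C * x ^ (ε + 1 / 4) ∧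
    q * x ^ (1 + ε) * x ^ (-(6 : ℝ)) * (x ^ (-(6 : ℝ)) * (A * (x ^ (-(1 / 2 : ℝ)))⁻¹ ^ (r + 2)) * (x ^ (-(6 : ℝ)) * C)) =
      q * A * C * x ^ (ε + (((r : ℝ) + 2) / 2 - 17)) := by
  refine ⟨?_, ?_, ?_⟩
  · have : x ^ (ε + c0) = x ^ (1 + ε) * x ^ (-(6 : ℝ)) * x ^ (5 + c0) := by
      rw [← Real.rpow_add hx, ← Real.rpow_add hx]; congr 1; ring
    rw [this]; ring
  · have : x ^ (ε + 1 / 4) = x ^ (1 + ε) * x ^ (-(1 / 4 : ℝ)) * x ^ (-(1 / 2 : ℝ)) := by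
      rw [← Real.rpow_add hx, ← Real.rpow_add hx]; congr 1; ring
    rw [this]; ring
  · have e1 : (x ^ (-(1 / 2 : ℝ)))⁻¹ ^ (r + 2) = x ^ (((r : ℝ) + 2) / 2) := by
      rw [← Real.rpow_neg hx.le, ← Real.rpow_natCast, ← Real.rpow_mul hx.le]
      congr 1
      push_cast
      ring
    have : x ^ (ε + (((r : ℝ) + 2) / 2 - 17)) =
        x ^ (1 + ε) * x ^ (-(6 : ℝ)) * x ^ (-(6 : ℝ)) * x ^ (((r : ℝ) + 2) / 2) * x ^ (-(6 : ℝ)) := by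
      rw [← Real.rpow_add hx, ← Real.rpow_add hx, ← Real.rpow_add hx, ← Real.rpow_add hx]; congr 1; ring
    rw [e1, this]; ring

theorem sk_nm_main {c0 ε q C A a1 a2 a3 : ℝ} (hc0 : 0 < c0) (hε : 0 < ε) (hq : 0 < q) (hC : 0 ≤ C) (hA : 0 ≤ A) (ha1 : 0 ≤ a1) (ha2 : 0 ≤ a2) (ha3 : 0 ≤ a3)
    {r : ℕ} (hr : 34 ≤ r) :
    ∃ (C' : ℝ) (N0 : ℕ), 1 ≤ N0 ∧ ∀ N : ℕ, N0 ≤ N →
      1 ≤ skX N ^ (-(1 / 2 : ℝ)) ∧
      2 * (N : ℝ) + skX N ^ (-(1 / 2 : ℝ)) + r ≤ 3 * N + 1 ∧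
      q * skX N ^ (1 + ε) * (C * skX N ^ (-(1 / 4 : ℝ))) * (skX N ^ (-(1 / 2 : ℝ)) + r + 1) ≤ 2 * skX N ^ ε ∧
      a1 * (q * skX N ^ (1 + ε) * N * (C * skX N ^ (5 + c0))) + a2 * (q * skX N ^ (1 + ε) * (C * skX N ^ (-(1 / 4 : ℝ))) * skX N ^ (-(1 / 2 : ℝ)))
        + a3 * (q * skX N ^ (1 + ε) * N * (N * (A * (skX N ^ (-(1 / 2 : ℝ)))⁻¹ ^ (r + 2)) * (N * C))) ≤ C' * skX N ^ (ε + min c0 (1 / 4)) ∧
      C' * skX N ^ (ε + min c0 (1 / 4)) ≤ skX N ^ ε / 2 := by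
  set μ : ℝ := min c0 (1 / 4) with hμ
  have hμ0 : 0 < μ := lt_min hc0 (by norm_num)
  set C' : ℝ := a1 * (q * C) + a2 * (q * C) + a3 * (q * A * C) with hC'
  have hC'0 : 0 ≤ C' := by positivity
  obtain ⟨N1, hN1⟩ := sk_nm_small (K := q * C * ((r : ℝ) + 2)) (δ := 1 / 4) (η := 2) (by norm_num) (by norm_num)
  obtain ⟨N2, hN2⟩ := sk_nm_small (K := C') (δ := μ) (η := 1 / 2) hμ0 (by norm_num)
  refine ⟨C', max (max N1 N2) (2 * r + 1), le_trans (by omega) (le_max_right _ _), fun N hN => ?_⟩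
  have hNa : N1 ≤ N := le_trans (le_trans (le_max_left _ _) (le_max_left _ _)) hN
  have hNb : N2 ≤ N := le_trans (le_trans (le_max_right _ _) (le_max_left _ _)) hN
  have hNc : 2 * r + 1 ≤ N := le_trans (le_max_right _ _) hN
  have hN1' : 1 ≤ N := by omega
  have hx := sk_nm_x_pos hN1'
  have hx1 := sk_nm_x_le_one hN1'
  have hNeq := sk_nm_N_eq N
  set x : ℝ := skX N with hxdef
  have hNr : (1 : ℝ) ≤ N := by exact_mod_cast hN1'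
  have hanti : ∀ {u v : ℝ}, u ≤ v → x ^ v ≤ x ^ u := fun h => Real.rpow_le_rpow_of_exponent_ge hx hx1 h
  have hxε : 0 < x ^ ε := Real.rpow_pos_of_pos hx _
  obtain ⟨A1, A2, A3⟩ := sk_nm_alg hx q C A ε c0 r
  refine ⟨?_, ?_, ?_, ?_, ?_⟩
  · exact Real.one_le_rpow_of_pos_of_le_one_of_nonpos hx hx1 (by norm_num)
  · -- `x^(-1/2) = N^(1/12) ≤ sqrt N ≤ (N + 1) / 2`
    have e1 : x ^ (-(1 / 2 : ℝ)) = (N : ℝ) ^ (1 / 12 : ℝ) := by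
      rw [hxdef, skX, ← Real.rpow_mul (Nat.cast_nonneg N)]; norm_num
    have e2 : (N : ℝ) ^ (1 / 12 : ℝ) ≤ (N : ℝ) ^ (1 / 2 : ℝ) :=
      Real.rpow_le_rpow_of_exponent_le hNr (by norm_num)
    have e3 : (N : ℝ) ^ (1 / 2 : ℝ) ≤ ((N : ℝ) + 1) / 2 := by
      rw [← Real.sqrt_eq_rpow]
      have h4 := Real.sq_sqrt (Nat.cast_nonneg N : (0 : ℝ) ≤ N)
      nlinarith [sq_nonneg (Real.sqrt (N : ℝ) - 1)]
    have e4 : 2 * (r : ℝ) + 1 ≤ N := by exact_mod_cast hNc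
    linarith
  · have h1 := hN1 N hNa
    have e1 : q * x ^ (1 + ε) * (C * x ^ (-(1 / 4 : ℝ))) * (x ^ (-(1 / 2 : ℝ)) + r + 1) =
        q * C * x ^ ε * (x ^ (1 / 4 : ℝ) + ((r : ℝ) + 1) * x ^ (3 / 4 : ℝ)) := by
      have f1 : x ^ (1 + ε) = x ^ ε * x ^ (1 : ℝ) := by rw [← Real.rpow_add hx]; congr 1; ring
      have f2 : x ^ (1 / 4 : ℝ) = x ^ (1 : ℝ) * x ^ (-(1 / 4 : ℝ)) * x ^ (-(1 / 2 : ℝ)) := by
        rw [← Real.rpow_add hx, ← Real.rpow_add hx]; congr 1; norm_num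
      have f3 : x ^ (3 / 4 : ℝ) = x ^ (1 : ℝ) * x ^ (-(1 / 4 : ℝ)) := by
        rw [← Real.rpow_add hx]; congr 1; norm_num
      rw [f1, f2, f3]; ring
    have e2 : x ^ (3 / 4 : ℝ) ≤ x ^ (1 / 4 : ℝ) := hanti (by norm_num)
    have hr0 : (0 : ℝ) ≤ r := Nat.cast_nonneg r
    have hx4 : 0 < x ^ (1 / 4 : ℝ) := Real.rpow_pos_of_pos hx _
    have e3 : x ^ (1 / 4 : ℝ) + ((r : ℝ) + 1) * x ^ (3 / 4 : ℝ) ≤ ((r : ℝ) + 2) * x ^ (1 / 4 : ℝ) := by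
      have := mul_le_mul_of_nonneg_left e2 (by linarith : 0 ≤ (r : ℝ) + 1)
      linarith
    rw [e1]
    calc q * C * x ^ ε * (x ^ (1 / 4 : ℝ) + ((r : ℝ) + 1) * x ^ (3 / 4 : ℝ))
        ≤ q * C * x ^ ε * (((r : ℝ) + 2) * x ^ (1 / 4 : ℝ)) := mul_le_mul_of_nonneg_left e3 (by positivity)
      _ = (q * C * ((r : ℝ) + 2) * x ^ (1 / 4 : ℝ)) * x ^ ε := by ring
      _ ≤ 2 * x ^ ε := mul_le_mul_of_nonneg_right h1 hxε.le
  · rw [hNeq, A1, A2, A3]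
    have hr34 : (34 : ℝ) ≤ r := by exact_mod_cast hr
    have b1 : x ^ (ε + c0) ≤ x ^ (ε + μ) := hanti (by have := min_le_left c0 (1 / 4 : ℝ); linarith)
    have b2 : x ^ (ε + 1 / 4) ≤ x ^ (ε + μ) := hanti (by have := min_le_right c0 (1 / 4 : ℝ); linarith)
    have b3 : x ^ (ε + (((r : ℝ) + 2) / 2 - 17)) ≤ x ^ (ε + μ) :=
      hanti (by have := min_le_right c0 (1 / 4 : ℝ); linarith)
    have c1 := mul_le_mul_of_nonneg_left b1 (by positivity : 0 ≤ a1 * (q * C))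
    have c2 := mul_le_mul_of_nonneg_left b2 (by positivity : 0 ≤ a2 * (q * C))
    have c3 := mul_le_mul_of_nonneg_left b3 (by positivity : 0 ≤ a3 * (q * A * C))
    calc a1 * (q * C * x ^ (ε + c0)) + a2 * (q * C * x ^ (ε + 1 / 4)) + a3 * (q * A * C * x ^ (ε + (((r : ℝ) + 2) / 2 - 17)))
        = a1 * (q * C) * x ^ (ε + c0) + a2 * (q * C) * x ^ (ε + 1 / 4) + a3 * (q * A * C) * x ^ (ε + (((r : ℝ) + 2) / 2 - 17)) := by ring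
      _ ≤ a1 * (q * C) * x ^ (ε + μ) + a2 * (q * C) * x ^ (ε + μ) + a3 * (q * A * C) * x ^ (ε + μ) := by linarith
      _ = C' * x ^ (ε + μ) := by rw [hC']; ring
  · have h2 := hN2 N hNb
    rw [Real.rpow_add hx]
    calc C' * (x ^ ε * x ^ μ) = (C' * x ^ μ) * x ^ ε := by ring
      _ ≤ 1 / 2 * x ^ ε := mul_le_mul_of_nonneg_right h2 hxε.le
      _ = x ^ ε / 2 := by ring

end Claimed.Agent.R286
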