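import Claimed.Agent.R286.Top.Lam

/-!
# Row 286 (S0533), unit TOP, file PATH: THE CONTRACT BETWEEN LL Sec. 4 AND THE DEEP PART      (helper220; prefix `sk_`, `Sk`)

NUMBERS ONLY: no hierarchy, no clocks.   One dyad comparison `N → N' ∈ [N, 2N]` at the test `s = q x^(1+ε)`, `x = N^(-1/6)`, stop level `L = x^ε`, is the data `SkPath`:
* `Fin k → ℝ`, `μ`      the path parameters `γ` and their law (LL (P3): independent uniform coordinates on `[1/3, 2/3]`)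
* `dir e i γ τ m`       the number `ψ_m(s)` (LL (A4)) on the DIRECT segment `i` at the end `e` (`e = 0`: `ℓ = 1`, centre `N`;  `e = 1`: `ℓ = (N'/N)^(1/6)`, centre `N'`), each segment re-parametrised by `τ ∈ [0,1]`
                        (`i = 0` strength sweep `λ : x^12 → x^(p_*)` at `(χ_lin, χ_e) = (0,1)`;   `i = 1`: `(0,1) → (1,1)`;   `i = 2`: `(1,1) → (1,0)`);      `∫ |ψ̇| |dϑ|` does not see the re-parametrisation
* `siz γ θ m`           `ψ_m(s)` on the SMOOTHED size segment, `θ ∈ [0, log (N'/N)]`, `ℓ = e^(θ/6)`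
`SkPath.Ok` lists what LL Prop. 4.4 uses:
  `ac_*` absolute continuity in the path parameter at fixed `m` (LL (A1), (A9), (P2b));   `join*`;   `sw*` = (P11);   `bare*` = bare endpoints (LL l.262-266, l.345-352);   `nb_*` = (4.1) `red:eq-neighbor` (weakened: `C (1 + M) ≤ C x^(-1/4)`);
  `bd_siz`, `mid` = crude bounds from (A1) and the dotted-clock `L¹` bounds (weakened to `x^(-1/4)`);   `inc_dir`, `inc_siz` = **LL Prop. 4.1** (`prop:increment`) parts 1, 2 (part 2 in the form "averaged with probability weights depending on `θ`").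
`SkIncr β` = the deep part delivers such data.      EXIT of the unit: `sk_dyadic : SkIncr β → SkSmall β → SkDyadic β` (`Top/Dyad.lean`).
-/

set_option autoImplicit false

namespace Claimed.Agent.R286

open MeasureTheory Set

/-- the interpolation-differentiation stencil of order `r` (LL Sec. 4, first display) -/
def SkStencil (r : ℕ) (c : ℕ → ℝ) : Prop :=
  ∀ P : Polynomial ℝ, P.natDegree ≤ r → ∑ j ∈ Finset.range (r + 1), c j * P.eval (j : ℝ) = P.derivative.eval 0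

/-- the numbers of one dyad comparison -/
structure SkPath where
  k : ℕ
  μ : Measure (Fin k → ℝ)
  dir : Fin 2 → Fin 3 → (Fin k → ℝ) → ℝ → ℕ → ℝ
  siz : (Fin k → ℝ) → ℝ → ℕ → ℝ

open Classical in
/-- the stopped speed on a direct segment -/
noncomputable def SkPath.aD (P : SkPath) (s L : ℝ) (e : Fin 2) (i : Fin 3) (m : ℕ) (p : (Fin P.k → ℝ) × ℝ) : ℝ :=
  if s * m * P.dir e i p.1 p.2 m ≤ 3 * L then |deriv (fun τ => P.dir e i p.1 τ m) p.2| else 0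

open Classical in
/-- the stopped combination (I) on the size segment -/
noncomputable def SkPath.aS (P : SkPath) (s L : ℝ) (r : ℕ) (c : ℕ → ℝ) (m : ℕ) (p : (Fin P.k → ℝ) × ℝ) : ℝ :=
  if ∀ j ∈ Finset.range (r + 1), s * ((m + j : ℕ) : ℝ) * P.siz p.1 p.2 (m + j) ≤ 3 * L then
    |deriv (fun θ => P.siz p.1 θ m) p.2 + ∑ j ∈ Finset.range (r + 1), c j * (((m + j : ℕ) : ℝ) * P.siz p.1 p.2 (m + j))| else 0

/-- what LL Prop. 4.4 uses of the paths -/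
structure SkPath.Ok (P : SkPath) (β : ℝ) (N N' : ℕ) (s L : ℝ) (r : ℕ) (c : ℕ → ℝ) (C c0 : ℝ) : Prop where
  prob : IsProbabilityMeasure P.μ
  ac_dir : ∀ e i γ m, N ≤ 2 * m → m ≤ 3 * N → AbsolutelyContinuousOnInterval (fun τ => P.dir e i γ τ m) 0 1
  ac_siz : ∀ γ m, N ≤ 2 * m → m ≤ 3 * N → AbsolutelyContinuousOnInterval (fun θ => P.siz γ θ m) 0 (Real.log (N' / N))
  join1 : ∀ e γ m, N ≤ 2 * m → m ≤ 3 * N → P.dir e 0 γ 1 m = P.dir e 1 γ 0 m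
  join2 : ∀ e γ m, N ≤ 2 * m → m ≤ 3 * N → P.dir e 1 γ 1 m = P.dir e 2 γ 0 m
  sw0 : ∀ γ m, N ≤ 2 * m → m ≤ 3 * N → |P.siz γ 0 m - P.dir 0 2 γ 1 m| ≤ C * skX N ^ (5 + c0)
  sw1 : ∀ γ m, N ≤ 2 * m → m ≤ 3 * N → |P.siz γ (Real.log (N' / N)) m - P.dir 1 2 γ 1 m| ≤ C * skX N ^ (5 + c0)
  bare0 : ∀ γ, |s * N * P.dir 0 0 γ 0 N - skLam β N (s / skX N)| ≤ s * N * (C * skX N ^ (5 + c0))
  bare1 : ∀ γ, |s * N' * P.dir 1 0 γ 0 N' - skLam β N' (s / skX N)| ≤ s * N * (C * skX N ^ (5 + c0))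
  nb_dir : ∀ e i γ τ m, τ ∈ Icc (0 : ℝ) 1 → N ≤ 2 * m → m + 1 ≤ 3 * N →
    |((m + 1 : ℕ) : ℝ) * P.dir e i γ τ (m + 1) - m * P.dir e i γ τ m| ≤ C * skX N ^ (-(1 / 4 : ℝ))
  nb_siz : ∀ γ θ m, θ ∈ Icc (0 : ℝ) (Real.log (N' / N)) → N ≤ 2 * m → m + 1 ≤ 3 * N →
    |((m + 1 : ℕ) : ℝ) * P.siz γ θ (m + 1) - m * P.siz γ θ m| ≤ C * skX N ^ (-(1 / 4 : ℝ))
  bd_siz : ∀ γ θ m, θ ∈ Icc (0 : ℝ) (Real.log (N' / N)) → N ≤ 2 * m → m ≤ 3 * N → |P.siz γ θ m| ≤ C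
  mid : ∀ γ, ∃ g : ℝ → ℝ, IntervalIntegrable g volume 0 (Real.log (N' / N)) ∧ ∫ θ in (0 : ℝ)..(Real.log (N' / N)), g θ ≤ C * skX N ^ (-(1 / 4 : ℝ)) ∧
    ∀ m, N ≤ 2 * m → m ≤ 3 * N → ∀ᵐ θ, θ ∈ Icc (0 : ℝ) (Real.log (N' / N)) → |deriv (fun θ => P.siz γ θ m) θ| ≤ g θ
  int_dir : ∀ e i m, N ≤ 2 * m → m ≤ 3 * N → Integrable (P.aD s L e i m) (P.μ.prod (volume.restrict (Icc (0 : ℝ) 1)))
  inc_dir : ∀ e i m, N ≤ 2 * m → m ≤ 3 * N → ∫ p, P.aD s L e i m p ∂(P.μ.prod (volume.restrict (Icc (0 : ℝ) 1))) ≤ C * skX N ^ (5 + c0)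
  int_siz : ∀ m, N ≤ 2 * m → m + r ≤ 3 * N → Integrable (P.aS s L r c m) (P.μ.prod (volume.restrict (Icc (0 : ℝ) (Real.log (N' / N)))))
  inc_siz : ∀ W : ℕ → ℝ → ℝ, (∀ m, Continuous (W m)) → (∀ m θ, 0 ≤ W m θ) → (∀ θ, ∑ m ∈ Finset.range (3 * N + 1), W m θ ≤ 1) →
    (∀ m θ, W m θ ≠ 0 → N ≤ 2 * m ∧ m + r ≤ 3 * N) →
    ∫ p, ∑ m ∈ Finset.range (3 * N + 1), W m p.2 * P.aS s L r c m p ∂(P.μ.prod (volume.restrict (Icc (0 : ℝ) (Real.log (N' / N))))) ≤ C * skX N ^ (5 + c0)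

/-- **the deep part** (LL Prop. 4.1 + (P11) + (4.1) + endpoints) -/
def SkIncr (β : ℝ) : Prop :=
  ∃ c0 : ℝ, 0 < c0 ∧ ∃ ε0 : ℝ, 0 < ε0 ∧ ∀ ε : ℝ, 0 < ε → ε < ε0 → ∀ q : ℝ, 0 < q → ∃ r0 : ℕ, ∀ r : ℕ, r0 ≤ r → ∀ c : ℕ → ℝ, SkStencil r c →
    ∃ (C : ℝ) (N0 : ℕ), ∀ N : ℕ, N0 ≤ N → ∀ N' : ℕ, N ≤ N' → N' ≤ 2 * N →
      ∃ P : SkPath, P.Ok β N N' (q * skX N ^ (1 + ε)) (skX N ^ ε) r c C c0

theorem sk_path_eqns_cite : True := by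
  have := @SkStencil.eq_1
  have := @SkPath.aD.eq_1
  have := @SkPath.aS.eq_1
  have := @SkIncr.eq_1
  trivial

end Claimed.Agent.R286
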