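import Claimed.Agent.R286.Top.Seg

/-!
# Row 286 (S0533), unit TOP, file SEGD: THE SITE AVERAGE ALONG A DIRECT SEGMENT      (owner: helper4, statement helper220; prefix `sk_sd_`)      Mathlib only

Frozen weights `w`.   `Kb t = ∑_{m ∈ S} w m * K m t`.   If `Kb t ≤ L` then (`sk_dc_conv` + `hosc`) every contributing `K m t ≤ 3 L`, so `|Kb'| ≤ ∑ w m * A m t`; conclude with `sk_bt_boot`.
-/

set_option autoImplicit false

namespace Claimed.Agent.R286

open MeasureTheory Set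

theorem sk_sd_dir {S : Finset ℕ} {w : ℕ → ℝ} {K A : ℕ → ℝ → ℝ} {a b t0 L δ : ℝ} (hab : a ≤ b) (hw : ∀ m ∈ S, 0 ≤ w m) (h1 : ∑ m ∈ S, w m = 1)
    (hac : ∀ m ∈ S, AbsolutelyContinuousOnInterval (K m) a b)
    (hosc : ∀ t ∈ Icc a b, ∀ m ∈ S, ∀ m' ∈ S, w m ≠ 0 → w m' ≠ 0 → K m t ≤ K m' t + 2 * L)
    (hA0 : ∀ m t, 0 ≤ A m t) (hAi : ∀ m ∈ S, IntervalIntegrable (A m) volume a b)
    (hA : ∀ m ∈ S, ∀ t, K m t ≤ 3 * L → |deriv (K m) t| ≤ A m t)
    (hδ : ∑ m ∈ S, w m * ∫ t in a..b, A m t ≤ δ) (ht0 : t0 ∈ Icc a b) (h0 : ∑ m ∈ S, w m * K m t0 + δ < L) :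
    ∀ t ∈ Icc a b, |∑ m ∈ S, w m * K m t - ∑ m ∈ S, w m * K m t0| ≤ δ := by
  have hf : AbsolutelyContinuousOnInterval (fun t => ∑ m ∈ S, w m * K m t) a b :=
    sk_sg_ac_sum S fun m hm => (hac m hm).const_mul (w m)
  have hGi : IntervalIntegrable (fun t => ∑ m ∈ S, w m * A m t) volume a b := by
    have := IntervalIntegrable.sum S fun m hm => (hAi m hm).const_mul (w m)
    have e : (∑ i ∈ S, fun x => w i * A i x) = fun t => ∑ m ∈ S, w m * A m t := by
      funext t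
      simp
    rwa [e] at this
  have hG0 : ∀ t, 0 ≤ ∑ m ∈ S, w m * A m t := fun t => Finset.sum_nonneg fun m hm => mul_nonneg (hw m hm) (hA0 m t)
  have hGδ : ∫ t in a..b, ∑ m ∈ S, w m * A m t ≤ δ := by
    rw [intervalIntegral.integral_finsetSum fun m hm => (hAi m hm).const_mul (w m)]
    simp only [intervalIntegral.integral_const_mul]
    exact hδ
  refine sk_bt_boot (f := fun t => ∑ m ∈ S, w m * K m t) (G := fun t => ∑ m ∈ S, w m * A m t) hab hf ht0 hGi hG0 hGδ ?_ h0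
  filter_upwards [sk_sg_ae_all S hab hac] with t hdiff htI hL
  have hd := hdiff htI
  obtain ⟨m0, hm0, hw0, hK0⟩ := sk_dc_conv (K := fun m => K m t) hw h1 hL
  have hder : deriv (fun t => ∑ m ∈ S, w m * K m t) t = ∑ m ∈ S, w m * deriv (K m) t := by
    have h2 : HasDerivAt (fun t => ∑ m ∈ S, w m * K m t) (∑ m ∈ S, w m * deriv (K m) t) t :=
      HasDerivAt.fun_sum fun m hm => ((hd m hm).hasDerivAt).const_mul (w m)
    exact h2.deriv
  rw [hder]
  refine (Finset.abs_sum_le_sum_abs _ _).trans (Finset.sum_le_sum fun m hm => ?_)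
  rw [abs_mul, abs_of_nonneg (hw m hm)]
  by_cases hwm : w m = 0
  · rw [hwm, zero_mul, zero_mul]
  · refine mul_le_mul_of_nonneg_left (hA m hm t ?_) (hw m hm)
    have := hosc t htI m hm m0 hm0 hwm hw0
    linarith

end Claimed.Agent.R286
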