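import Claimed.Agent.R286.Top.DyDef
import Claimed.Agent.R286.Top.SegD

/-!
# Row 286 (S0533), unit TOP, file DYDIR: ONE DIRECT SEGMENT OF ONE DYAD COMPARISON      (helper220; prefix `sk_dd_`)      sorry free

`sk_sd_dir` with `S = Icc N (3N - r)`, `w m = skW D (m - skCtr N N' e)`, `K m τ = s * m * P.dir e i γ τ m`, `A m τ = s * m * P.aD s L e i m (γ, τ)`.
`hosc`: `sk_dc_tel'` (`a = N`, `b = 3N`, `Z m = m * P.dir e i γ τ m`, `nb_dir`) + `sk_st_w_supp` (two contributing sites differ by `< D + 1`);   `hA`: `deriv_const_mul_field` + `if_pos`;   `hδ`: `m ≤ 3N`, `∫ aD ≥ 0`.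
-/

set_option autoImplicit false

namespace Claimed.Agent.R286

open MeasureTheory Set

theorem sk_dd_dir {P : SkPath} {β : ℝ} {N N' : ℕ} {s L : ℝ} {r : ℕ} {c : ℕ → ℝ} {C c0 D : ℝ} (h : P.Ok β N N' s L r c C c0)
    (hN : 1 ≤ N) (hNN : N ≤ N') (hN2 : N' ≤ 2 * N) (hD : 1 ≤ D) (hr : 2 * (N : ℝ) + D + r ≤ 3 * N + 1) (hs : 0 ≤ s) (hC : 0 ≤ C)
    (hosc : s * (C * skX N ^ (-(1 / 4 : ℝ))) * (D + r + 1) ≤ 2 * L) (γ : Fin P.k → ℝ) (e : Fin 2) (i : Fin 3)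
    (hint : ∀ m ∈ Finset.Icc N (3 * N - r), IntervalIntegrable (fun τ => P.aD s L e i m (γ, τ)) volume 0 1) {J : ℝ}
    (hJ : ∑ m ∈ Finset.Icc N (3 * N - r), skW D ((m : ℝ) - skCtr N N' e) * ∫ τ in (0 : ℝ)..1, P.aD s L e i m (γ, τ) ≤ J)
    {t0 : ℝ} (ht0 : t0 ∈ Icc (0 : ℝ) 1) (h0 : P.Kd N N' r s D γ e i t0 + s * (3 * N) * J < L) :
    ∀ t ∈ Icc (0 : ℝ) 1, |P.Kd N N' r s D γ e i t - P.Kd N N' r s D γ e i t0| ≤ s * (3 * N) * J := by
  have hD0 : 0 < D := lt_of_lt_of_le one_pos hD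
  have hN0 : (0 : ℝ) ≤ N := Nat.cast_nonneg N
  have hx0 : 0 ≤ skX N ^ (-(1 / 4 : ℝ)) := Real.rpow_nonneg (Real.rpow_nonneg hN0 _) _
  have hw0 : ∀ y, 0 ≤ skW D y := sk_st_w_nonneg hD0
  unfold SkPath.Kd at h0 ⊢
  refine sk_sd_dir (S := Finset.Icc N (3 * N - r)) (w := fun m : ℕ => skW D ((m : ℝ) - skCtr N N' e)) (K := fun (m : ℕ) τ => s * m * P.dir e i γ τ m)
    (A := fun (m : ℕ) τ => s * m * P.aD s L e i m (γ, τ)) zero_le_one (fun m _ => hw0 _) (sk_dy_sum_one hN2 hD hr (sk_dy_ctr_lo hNN e) (sk_dy_ctr_hi hNN e))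
    ?_ ?_ ?_ ?_ ?_ ?_ ht0 h0
  · intro m hm
    rw [Finset.mem_Icc] at hm
    exact (h.ac_dir e i γ m (by omega) (by omega)).const_mul (s * m)
  · intro t ht m hm m' hm' hw hw'
    rw [Finset.mem_Icc] at hm hm'
    have s1 := sk_st_w_supp hD0 hw
    have s2 := sk_st_w_supp hD0 hw'
    have h1 := sk_dc_tel' (Z := fun m : ℕ => (m : ℝ) * P.dir e i γ t m) (a := N) (b := 3 * N) (c := C * skX N ^ (-(1 / 4 : ℝ)))
      (fun m hm1 hm2 => h.nb_dir e i γ t m ht (by omega) hm2) m' m ⟨hm'.1, by omega⟩ ⟨hm.1, by omega⟩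
    have hr0 : (0 : ℝ) ≤ r := Nat.cast_nonneg r
    have h2 : |(m : ℝ) - m'| ≤ D + r + 1 := abs_le.2 ⟨by linarith [s1.1, s2.2], by linarith [s1.2, s2.1]⟩
    have h3 := (abs_le.1 (h1.trans (mul_le_mul_of_nonneg_left h2 (mul_nonneg hC hx0)))).2
    have h4 := mul_le_mul_of_nonneg_left h3 hs
    calc s * m * P.dir e i γ t m = s * m' * P.dir e i γ t m' + s * ((m : ℝ) * P.dir e i γ t m - m' * P.dir e i γ t m') := by ring
      _ ≤ s * m' * P.dir e i γ t m' + s * (C * skX N ^ (-(1 / 4 : ℝ)) * (D + r + 1)) := by linarith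
      _ ≤ s * m' * P.dir e i γ t m' + 2 * L := by linarith
  · intro m t
    exact mul_nonneg (mul_nonneg hs (Nat.cast_nonneg m)) (sk_dy_aD_nonneg P s L e i m _)
  · intro m hm
    exact (hint m hm).const_mul (s * m)
  · intro m hm t hK
    have e1 : deriv (fun τ => s * m * P.dir e i γ τ m) t = s * m * deriv (fun τ => P.dir e i γ τ m) t := deriv_const_mul_field _
    rw [e1, abs_mul, abs_of_nonneg (mul_nonneg hs (Nat.cast_nonneg m)), SkPath.aD, if_pos hK]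
  · refine le_trans ?_ (mul_le_mul_of_nonneg_left hJ (by positivity : 0 ≤ s * (3 * (N : ℝ))))
    rw [Finset.mul_sum]
    refine Finset.sum_le_sum fun m hm => ?_
    rw [Finset.mem_Icc] at hm
    rw [intervalIntegral.integral_const_mul]
    have h1 : (m : ℝ) ≤ 3 * N := by exact_mod_cast (by omega : m ≤ 3 * N)
    have h2 : 0 ≤ ∫ τ in (0 : ℝ)..1, P.aD s L e i m (γ, τ) := intervalIntegral.integral_nonneg zero_le_one fun τ _ => sk_dy_aD_nonneg P s L e i m _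
    have h3 : s * m ≤ s * (3 * N) := mul_le_mul_of_nonneg_left h1 hs
    calc skW D ((m : ℝ) - skCtr N N' e) * (s * m * ∫ τ in (0 : ℝ)..1, P.aD s L e i m (γ, τ))
        ≤ skW D ((m : ℝ) - skCtr N N' e) * (s * (3 * N) * ∫ τ in (0 : ℝ)..1, P.aD s L e i m (γ, τ)) :=
          mul_le_mul_of_nonneg_left (mul_le_mul_of_nonneg_right h3 h2) (hw0 _)
      _ = s * (3 * N) * (skW D ((m : ℝ) - skCtr N N' e) * ∫ τ in (0 : ℝ)..1, P.aD s L e i m (γ, τ)) := by ring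

end Claimed.Agent.R286
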