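import Claimed.Agent.R286.Top.DySel
import Claimed.Agent.R286.Top.DyDir
import Claimed.Agent.R286.Top.Num

/-!
# Row 286 (S0533), unit TOP, file DYAD: **LL Prop. 4.4** (`red:prop-dyadic`)      (helper220; prefix `sk_dz_`)

EXIT: `sk_dyadic : SkIncr β → SkSmall β → SkDyadic β`.
* `sk_dz_siz`     the size segment of one dyad comparison (`sk_ss_siz` on `SkPath.Ok`)
* `sk_dz_avg`     removing the site average at a bare endpoint
* `sk_dz_sw`      the switches (P11);   `sk_dz_join`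
* `sk_dz_chain`   the fourteen steps
-/

set_option autoImplicit false

namespace Claimed.Agent.R286

open MeasureTheory Set

theorem sk_dz_siz {P : SkPath} {β : ℝ} {N N' : ℕ} {s L : ℝ} {r : ℕ} {c : ℕ → ℝ} {C c0 D E : ℝ} (h : P.Ok β N N' s L r c C c0)
    (hN : 1 ≤ N) (hNN : N ≤ N') (hN2 : N' ≤ 2 * N) (hD : 1 ≤ D) (hr : 2 * (N : ℝ) + D + r ≤ 3 * N + 1) (hs : 0 ≤ s) (hC : 0 ≤ C)
    (hE : ∀ u, |∑ j ∈ Finset.range (r + 1), c j * skW D (u - j) + deriv (skW D) u| ≤ E)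
    (hosc : s * (C * skX N ^ (-(1 / 4 : ℝ))) * (D + r + 1) ≤ 2 * L) (γ : Fin P.k → ℝ)
    (hint : IntervalIntegrable (fun θ => ∑ m ∈ Finset.Icc N (3 * N - r), skW D ((m : ℝ) - N * Real.exp θ) * P.aS s L r c m (γ, θ)) volume 0 (Real.log (N' / N)))
    {J : ℝ} (hJ0 : 0 ≤ J)
    (hJ : ∫ θ in (0 : ℝ)..(Real.log (N' / N)), ∑ m ∈ Finset.Icc N (3 * N - r), skW D ((m : ℝ) - N * Real.exp θ) * P.aS s L r c m (γ, θ) ≤ J)
    (h0 : P.Ks N r s D γ 0 + (s * (2 * N) * J + s * (C * skX N ^ (-(1 / 4 : ℝ))) * D + s * (2 * N) * ((3 * N + 1) * E * (3 * N * C))) < L) :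
    ∀ θ ∈ Icc (0 : ℝ) (Real.log (N' / N)), |P.Ks N r s D γ θ - P.Ks N r s D γ 0|
      ≤ s * (2 * N) * J + s * (C * skX N ^ (-(1 / 4 : ℝ))) * D + s * (2 * N) * ((3 * N + 1) * E * (3 * N * C)) := by
  obtain ⟨g, hg, hgI, hgd⟩ := h.mid γ
  have hΘ0 := sk_dy_log_nonneg hN hNN
  have hΘ1 := sk_dy_log_le hN hNN hN2
  have hexp := sk_dy_exp_log hN hNN
  obtain ⟨hr3, htop⟩ := sk_dy_top hD hr
  have hbr : 3 * N - r + r = 3 * N := Nat.sub_add_cancel hr3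
  have hN0 : (0 : ℝ) ≤ N := Nat.cast_nonneg N
  have hN'2 : (N' : ℝ) ≤ 2 * N := by exact_mod_cast hN2
  have hE0 : 0 ≤ E := (abs_nonneg _).trans (hE 0)
  have hx0 : 0 ≤ skX N ^ (-(1 / 4 : ℝ)) := Real.rpow_nonneg (Real.rpow_nonneg hN0 _) _
  have hgabs : ∫ θ in (0 : ℝ)..(Real.log (N' / N)), |g θ| = ∫ θ in (0 : ℝ)..(Real.log (N' / N)), g θ := by
    refine intervalIntegral.integral_congr_ae ?_
    filter_upwards [hgd N (by omega) (by omega)] with θ hθ hθI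
    rw [uIoc_of_le hΘ0] at hθI
    exact abs_of_nonneg ((abs_nonneg _).trans (hθ ⟨hθI.1.le, hθI.2⟩))
  refine sk_ss_siz (r := r) (c := c) (D := D) (E := E) hD hE (a := N) (b := 3 * N - r) (n0 := N) hΘ0 le_rfl ?_ (ψ := fun θ m => P.siz γ θ m) ?_ (s := s) (L := L)
    (Cn := C * skX N ^ (-(1 / 4 : ℝ))) (Cb := 3 * N * C) hs (mul_nonneg hC hx0) (by positivity) ?_ hosc ?_ (g := fun θ => |g θ|) (fun θ => abs_nonneg _) hg.abs ?_
    (A := fun m θ => P.aS s L r c m (γ, θ)) (fun m θ => sk_dy_aS_nonneg P s L r c m _) hint ?_ ?_ h0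
  · rw [hexp, htop]
    linarith
  · intro m hm
    rw [Finset.mem_Icc] at hm
    exact h.ac_siz γ m (by omega) (by omega)
  · intro θ hθ m hm1 hm2
    exact h.nb_siz γ θ m hθ (by omega) (by omega)
  · intro θ hθ m hm
    rw [Finset.mem_Icc] at hm
    rw [abs_mul, abs_of_nonneg (Nat.cast_nonneg m)]
    have h1 : (m : ℝ) ≤ 3 * N := by exact_mod_cast (by omega : m ≤ 3 * N)
    exact mul_le_mul h1 (h.bd_siz γ θ m hθ (by omega) (by omega)) (abs_nonneg _) (by positivity)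
  · intro m hm
    rw [Finset.mem_Icc] at hm
    filter_upwards [hgd m (by omega) (by omega)] with θ hθ hθI
    exact (hθ hθI).trans (le_abs_self _)
  · intro m hm θ hstop
    rw [SkPath.aS, if_pos hstop]
  · rw [hexp, hgabs, hbr]
    have hN'0 : (0 : ℝ) ≤ N' := Nat.cast_nonneg N'
    have t1 : s * N' * (∫ θ in (0 : ℝ)..(Real.log (N' / N)), ∑ m ∈ Finset.Icc N (3 * N - r), skW D ((m : ℝ) - N * Real.exp θ) * P.aS s L r c m (γ, θ)) ≤ s * (2 * N) * J :=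
      (mul_le_mul_of_nonneg_left hJ (mul_nonneg hs hN'0)).trans (mul_le_mul_of_nonneg_right (mul_le_mul_of_nonneg_left hN'2 hs) hJ0)
    have t2 : s * D * (∫ θ in (0 : ℝ)..(Real.log (N' / N)), g θ) ≤ s * (C * skX N ^ (-(1 / 4 : ℝ))) * D := by
      have := mul_le_mul_of_nonneg_left hgI (mul_nonneg hs (le_trans zero_le_one hD))
      linarith
    have t3 : s * N' * (((3 * N + 1 : ℕ) : ℝ) * E * (3 * N * C)) * Real.log (N' / N) ≤ s * (2 * N) * ((3 * N + 1) * E * (3 * N * C)) := by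
      have hX : 0 ≤ ((3 * N + 1 : ℕ) : ℝ) * E * (3 * N * C) := by positivity
      have e1 : ((3 * N + 1 : ℕ) : ℝ) = 3 * N + 1 := by push_cast; ring
      calc s * N' * (((3 * N + 1 : ℕ) : ℝ) * E * (3 * N * C)) * Real.log (N' / N) ≤ s * N' * (((3 * N + 1 : ℕ) : ℝ) * E * (3 * N * C)) * 1 :=
            mul_le_mul_of_nonneg_left hΘ1 (mul_nonneg (mul_nonneg hs hN'0) hX)
        _ = s * N' * (((3 * N + 1 : ℕ) : ℝ) * E * (3 * N * C)) := mul_one _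
        _ ≤ s * (2 * N) * (((3 * N + 1 : ℕ) : ℝ) * E * (3 * N * C)) := mul_le_mul_of_nonneg_right (mul_le_mul_of_nonneg_left hN'2 hs) hX
        _ = s * (2 * N) * ((3 * N + 1) * E * (3 * N * C)) := by rw [e1]
    linarith

/-- removing the site average at a bare endpoint -/
theorem sk_dz_avg {P : SkPath} {β : ℝ} {N N' : ℕ} {s L : ℝ} {r : ℕ} {c : ℕ → ℝ} {C c0 D : ℝ} (h : P.Ok β N N' s L r c C c0)
    (hNN : N ≤ N') (hN2 : N' ≤ 2 * N) (hD : 1 ≤ D) (hr : 2 * (N : ℝ) + D + r ≤ 3 * N + 1) (hs : 0 ≤ s) (hC : 0 ≤ C)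
    (γ : Fin P.k → ℝ) (e : Fin 2) (i : Fin 3) {τ : ℝ} (hτ : τ ∈ Icc (0 : ℝ) 1) {n : ℕ} (hn : skCtr N N' e = n) :
    |P.Kd N N' r s D γ e i τ - s * n * P.dir e i γ τ n| ≤ s * (C * skX N ^ (-(1 / 4 : ℝ))) * D := by
  have hD0 : 0 < D := lt_of_lt_of_le one_pos hD
  have hx0 : 0 ≤ skX N ^ (-(1 / 4 : ℝ)) := Real.rpow_nonneg (Real.rpow_nonneg (Nat.cast_nonneg N) _) _
  have hn1 : N ≤ n := by
    have := sk_dy_ctr_lo hNN e
    rw [hn] at this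
    exact_mod_cast this
  have hn2 : n ≤ N' := by
    have := sk_dy_ctr_hi hNN e
    rw [hn] at this
    exact_mod_cast this
  unfold SkPath.Kd
  refine sk_dc_avg (fun m _ => sk_st_w_nonneg hD0 _) (sk_dy_sum_one hN2 hD hr (sk_dy_ctr_lo hNN e) (sk_dy_ctr_hi hNN e)) fun m hm hw => ?_
  rw [Finset.mem_Icc] at hm
  have s1 := sk_st_w_supp hD0 hw
  rw [hn] at s1
  have h1 := sk_dc_tel' (Z := fun m : ℕ => (m : ℝ) * P.dir e i γ τ m) (a := N) (b := 3 * N) (c := C * skX N ^ (-(1 / 4 : ℝ)))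
    (fun m hm1 hm2 => h.nb_dir e i γ τ m hτ (by omega) hm2) n m ⟨hn1, by omega⟩ ⟨hm.1, by omega⟩
  have h2 : |(m : ℝ) - n| ≤ D := abs_le.2 ⟨by linarith [s1.1], s1.2.le⟩
  have h3 := h1.trans (mul_le_mul_of_nonneg_left h2 (mul_nonneg hC hx0))
  have e1 : s * m * P.dir e i γ τ m - s * n * P.dir e i γ τ n = s * ((m : ℝ) * P.dir e i γ τ m - n * P.dir e i γ τ n) := by ring
  rw [e1, abs_mul, abs_of_nonneg hs, mul_assoc]
  exact mul_le_mul_of_nonneg_left h3 hs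

/-- two site averages with the same weights -/
theorem sk_dz_sw {N N' r : ℕ} {D n s η : ℝ} (hN2 : N' ≤ 2 * N) (hD : 1 ≤ D) (hr : 2 * (N : ℝ) + D + r ≤ 3 * N + 1) (h1 : (N : ℝ) ≤ n) (h2 : n ≤ N') (hs : 0 ≤ s)
    {u v : ℕ → ℝ} (huv : ∀ m, N ≤ 2 * m → m ≤ 3 * N → |u m - v m| ≤ η) :
    |∑ m ∈ Finset.Icc N (3 * N - r), skW D ((m : ℝ) - n) * (s * m * u m) - ∑ m ∈ Finset.Icc N (3 * N - r), skW D ((m : ℝ) - n) * (s * m * v m)| ≤ s * (3 * N) * η := by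
  have hD0 : 0 < D := lt_of_lt_of_le one_pos hD
  have hη : 0 ≤ η := (abs_nonneg _).trans (huv N (by omega) (by omega))
  rw [← Finset.sum_sub_distrib]
  refine (Finset.abs_sum_le_sum_abs _ _).trans ?_
  calc ∑ m ∈ Finset.Icc N (3 * N - r), |skW D ((m : ℝ) - n) * (s * m * u m) - skW D ((m : ℝ) - n) * (s * m * v m)|
      ≤ ∑ m ∈ Finset.Icc N (3 * N - r), skW D ((m : ℝ) - n) * (s * (3 * N) * η) := by
        refine Finset.sum_le_sum fun m hm => ?_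
        rw [Finset.mem_Icc] at hm
        have e1 : skW D ((m : ℝ) - n) * (s * m * u m) - skW D ((m : ℝ) - n) * (s * m * v m) = skW D ((m : ℝ) - n) * (s * m * (u m - v m)) := by ring
        rw [e1, abs_mul, abs_of_nonneg (sk_st_w_nonneg hD0 _), abs_mul, abs_of_nonneg (mul_nonneg hs (Nat.cast_nonneg m))]
        refine mul_le_mul_of_nonneg_left ?_ (sk_st_w_nonneg hD0 _)
        have h3 : (m : ℝ) ≤ 3 * N := by exact_mod_cast (by omega : m ≤ 3 * N)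
        exact mul_le_mul (mul_le_mul_of_nonneg_left h3 hs) (huv m (by omega) (by omega)) (abs_nonneg _) (by positivity)
    _ = s * (3 * N) * η := by rw [← Finset.sum_mul, sk_dy_sum_one hN2 hD hr h1 h2, one_mul]

theorem sk_dz_join {P : SkPath} {N N' r : ℕ} {s D : ℝ} (γ : Fin P.k → ℝ) (e : Fin 2) {i i' : Fin 3} {τ τ' : ℝ}
    (hj : ∀ m, N ≤ 2 * m → m ≤ 3 * N → P.dir e i γ τ m = P.dir e i' γ τ' m) : P.Kd N N' r s D γ e i τ = P.Kd N N' r s D γ e i' τ' := by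
  unfold SkPath.Kd
  refine Finset.sum_congr rfl fun m hm => ?_
  rw [Finset.mem_Icc] at hm
  rw [hj m (by omega) (by omega)]

/-- **one dyad comparison**: the fourteen steps of LL Prop. 4.4 -/
theorem sk_dz_chain {P : SkPath} {β : ℝ} {N N' : ℕ} {s L : ℝ} {r : ℕ} {c : ℕ → ℝ} {C c0 D E : ℝ} (h : P.Ok β N N' s L r c C c0)
    (hN : 1 ≤ N) (hNN : N ≤ N') (hN2 : N' ≤ 2 * N) (hD : 1 ≤ D) (hr : 2 * (N : ℝ) + D + r ≤ 3 * N + 1) (hs : 0 ≤ s) (hL : 0 < L)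
    (hE : ∀ u, |∑ j ∈ Finset.range (r + 1), c j * skW D (u - j) + deriv (skW D) u| ≤ E)
    (hosc : s * (C * skX N ^ (-(1 / 4 : ℝ))) * (D + r + 1) ≤ 2 * L)
    (hsmall : skLam β N (s / skX N) ≤ L / 4)
    (herr : 148 * (s * N * (C * skX N ^ (5 + c0))) + 3 * (s * (C * skX N ^ (-(1 / 4 : ℝ))) * D) + s * (2 * N) * ((3 * N + 1) * E * (3 * N * C)) ≤ L / 2) :
    |skLam β N' (s / skX N) - skLam β N (s / skX N)|
      ≤ 148 * (s * N * (C * skX N ^ (5 + c0))) + 3 * (s * (C * skX N ^ (-(1 / 4 : ℝ))) * D) + s * (2 * N) * ((3 * N + 1) * E * (3 * N * C)) := by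
  have hD0 : 0 < D := lt_of_lt_of_le one_pos hD
  have hΘ0 := sk_dy_log_nonneg hN hNN
  have hN0 : (0 : ℝ) ≤ N := Nat.cast_nonneg N
  have hE0 : 0 ≤ E := (abs_nonneg _).trans (hE 0)
  obtain ⟨γ, hiD, hiS, hsum⟩ := sk_dl_sel h hN hNN hN2 hD hr
  have hC : 0 ≤ C := (abs_nonneg _).trans (h.bd_siz γ 0 N ⟨le_rfl, hΘ0⟩ (by omega) (by omega))
  have hxa : 0 ≤ skX N ^ (5 + c0) := Real.rpow_nonneg (Real.rpow_nonneg hN0 _) _
  have hxb : 0 ≤ skX N ^ (-(1 / 4 : ℝ)) := Real.rpow_nonneg (Real.rpow_nonneg hN0 _) _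
  -- the seven integrals
  have hT0 : ∀ (e : Fin 2) (i : Fin 3), 0 ≤ ∑ m ∈ Finset.Icc N (3 * N - r), skW D ((m : ℝ) - skCtr N N' e) * ∫ τ in (0 : ℝ)..1, P.aD s L e i m (γ, τ) := fun e i =>
    Finset.sum_nonneg fun m _ => mul_nonneg (sk_st_w_nonneg hD0 _) (intervalIntegral.integral_nonneg zero_le_one fun τ _ => sk_dy_aD_nonneg P s L e i m _)
  have hS0 : 0 ≤ ∫ θ in (0 : ℝ)..(Real.log (N' / N)), ∑ m ∈ Finset.Icc N (3 * N - r), skW D ((m : ℝ) - N * Real.exp θ) * P.aS s L r c m (γ, θ) :=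
    intervalIntegral.integral_nonneg hΘ0 fun θ _ => Finset.sum_nonneg fun m _ => mul_nonneg (sk_st_w_nonneg hD0 _) (sk_dy_aS_nonneg P s L r c m _)
  have hTT0 : 0 ≤ ∑ e : Fin 2, ∑ i : Fin 3, ∑ m ∈ Finset.Icc N (3 * N - r), skW D ((m : ℝ) - skCtr N N' e) * ∫ τ in (0 : ℝ)..1, P.aD s L e i m (γ, τ) :=
    Finset.sum_nonneg fun e _ => Finset.sum_nonneg fun i _ => hT0 e i
  have hT : ∀ (e : Fin 2) (i : Fin 3), ∑ m ∈ Finset.Icc N (3 * N - r), skW D ((m : ℝ) - skCtr N N' e) * ∫ τ in (0 : ℝ)..1, P.aD s L e i m (γ, τ) ≤ 7 * (C * skX N ^ (5 + c0)) := by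
    intro e i
    have h1 := Finset.single_le_sum (f := fun i : Fin 3 => ∑ m ∈ Finset.Icc N (3 * N - r), skW D ((m : ℝ) - skCtr N N' e) * ∫ τ in (0 : ℝ)..1, P.aD s L e i m (γ, τ))
      (fun i _ => hT0 e i) (Finset.mem_univ i)
    have h2 := Finset.single_le_sum (f := fun e : Fin 2 => ∑ i : Fin 3, ∑ m ∈ Finset.Icc N (3 * N - r), skW D ((m : ℝ) - skCtr N N' e) * ∫ τ in (0 : ℝ)..1, P.aD s L e i m (γ, τ))
      (fun e _ => Finset.sum_nonneg fun i _ => hT0 e i) (Finset.mem_univ e)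
    linarith
  have hS : ∫ θ in (0 : ℝ)..(Real.log (N' / N)), ∑ m ∈ Finset.Icc N (3 * N - r), skW D ((m : ℝ) - N * Real.exp θ) * P.aS s L r c m (γ, θ) ≤ 7 * (C * skX N ^ (5 + c0)) := by
    linarith
  -- the three errors
  obtain ⟨E1, hE1⟩ : ∃ E1 : ℝ, E1 = s * N * (C * skX N ^ (5 + c0)) := ⟨_, rfl⟩
  obtain ⟨E2, hE2⟩ : ∃ E2 : ℝ, E2 = s * (C * skX N ^ (-(1 / 4 : ℝ))) * D := ⟨_, rfl⟩
  obtain ⟨E3, hE3⟩ : ∃ E3 : ℝ, E3 = s * (2 * N) * ((3 * N + 1) * E * (3 * N * C)) := ⟨_, rfl⟩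
  have hE1p : 0 ≤ E1 := by rw [hE1]; positivity
  have hE2p : 0 ≤ E2 := by rw [hE2]; positivity
  have hE3p : 0 ≤ E3 := by rw [hE3]; positivity
  have hδd : s * (3 * N) * (7 * (C * skX N ^ (5 + c0))) = 21 * E1 := by rw [hE1]; ring
  have hδw : s * (3 * N) * (C * skX N ^ (5 + c0)) = 3 * E1 := by rw [hE1]; ring
  have hδs : s * (2 * N) * (7 * (C * skX N ^ (5 + c0))) + s * (C * skX N ^ (-(1 / 4 : ℝ))) * D + s * (2 * N) * ((3 * N + 1) * E * (3 * N * C)) = 14 * E1 + E2 + E3 := by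
    rw [hE1, hE2, hE3]; ring
  rw [← hE1, ← hE2, ← hE3] at herr ⊢
  have hc0 : skCtr N N' 0 = N := by simp [skCtr]
  have hc1 : skCtr N N' 1 = N' := by simp [skCtr]
  have i0 : (0 : ℝ) ∈ Icc (0 : ℝ) 1 := ⟨le_rfl, zero_le_one⟩
  have i1 : (1 : ℝ) ∈ Icc (0 : ℝ) 1 := ⟨zero_le_one, le_rfl⟩
  have dd : ∀ (e : Fin 2) (i : Fin 3) (t0 : ℝ), t0 ∈ Icc (0 : ℝ) 1 → P.Kd N N' r s D γ e i t0 + 21 * E1 < L →
      ∀ t ∈ Icc (0 : ℝ) 1, |P.Kd N N' r s D γ e i t - P.Kd N N' r s D γ e i t0| ≤ 21 * E1 := by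
    intro e i t0 ht0 h0
    rw [← hδd] at h0 ⊢
    exact sk_dd_dir h hN hNN hN2 hD hr hs hC hosc γ e i (hiD e i) (hT e i) ht0 h0
  -- forward
  have b0 := abs_le.1 (h.bare0 γ)
  rw [← hE1] at b0
  have a0 := abs_le.1 (sk_dz_avg h hNN hN2 hD hr hs hC γ 0 0 i0 hc0)
  rw [← hE2] at a0
  have d00 := abs_le.1 (dd 0 0 0 i0 (by linarith [b0.2, a0.2]) 1 i1)
  have j01 : P.Kd N N' r s D γ 0 0 1 = P.Kd N N' r s D γ 0 1 0 := sk_dz_join γ 0 (h.join1 0 γ)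
  have d01 := abs_le.1 (dd 0 1 0 i0 (by linarith [b0.2, a0.2, d00.2]) 1 i1)
  have j02 : P.Kd N N' r s D γ 0 1 1 = P.Kd N N' r s D γ 0 2 0 := sk_dz_join γ 0 (h.join2 0 γ)
  have d02 := abs_le.1 (dd 0 2 0 i0 (by linarith [b0.2, a0.2, d00.2, d01.2]) 1 i1)
  have w0 : |P.Ks N r s D γ 0 - P.Kd N N' r s D γ 0 2 1| ≤ 3 * E1 := by
    rw [← hδw]
    unfold SkPath.Ks SkPath.Kd
    rw [hc0, Real.exp_zero, mul_one]
    exact sk_dz_sw hN2 hD hr le_rfl (by exact_mod_cast hNN) hs (h.sw0 γ)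
  have w0 := abs_le.1 w0
  have z := sk_dz_siz h hN hNN hN2 hD hr hs hC hE hosc γ hiS (by positivity) hS
  rw [hδs] at z
  have z := abs_le.1 (z (by linarith [b0.2, a0.2, d00.2, d01.2, d02.2, w0.2]) (Real.log (N' / N)) ⟨hΘ0, le_rfl⟩)
  have w1 : |P.Ks N r s D γ (Real.log (N' / N)) - P.Kd N N' r s D γ 1 2 1| ≤ 3 * E1 := by
    rw [← hδw]
    unfold SkPath.Ks SkPath.Kd
    rw [hc1, sk_dy_exp_log hN hNN]
    exact sk_dz_sw hN2 hD hr (by exact_mod_cast hNN) le_rfl hs (h.sw1 γ)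
  have w1 := abs_le.1 w1
  -- backward
  have d12 := abs_le.1 (dd 1 2 1 i1 (by linarith [b0.2, a0.2, d00.2, d01.2, d02.2, w0.2, z.2, w1.1]) 0 i0)
  have j12 : P.Kd N N' r s D γ 1 1 1 = P.Kd N N' r s D γ 1 2 0 := sk_dz_join γ 1 (h.join2 1 γ)
  have d11 := abs_le.1 (dd 1 1 1 i1 (by linarith [b0.2, a0.2, d00.2, d01.2, d02.2, w0.2, z.2, w1.1, d12.2]) 0 i0)
  have j11 : P.Kd N N' r s D γ 1 0 1 = P.Kd N N' r s D γ 1 1 0 := sk_dz_join γ 1 (h.join1 1 γ)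
  have d10 := abs_le.1 (dd 1 0 1 i1 (by linarith [b0.2, a0.2, d00.2, d01.2, d02.2, w0.2, z.2, w1.1, d12.2, d11.2]) 0 i0)
  have a1 := abs_le.1 (sk_dz_avg h hNN hN2 hD hr hs hC γ 1 0 i0 hc1)
  rw [← hE2] at a1
  have b1 := abs_le.1 (h.bare1 γ)
  rw [← hE1] at b1
  refine abs_le.2 ⟨?_, ?_⟩
  · linarith [b0.1, b0.2, a0.1, a0.2, d00.1, d00.2, d01.1, d01.2, d02.1, d02.2, w0.1, w0.2, z.1, z.2, w1.1, w1.2, d12.1, d12.2, d11.1, d11.2, d10.1, d10.2, a1.1, a1.2, b1.1, b1.2]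
  · linarith [b0.1, b0.2, a0.1, a0.2, d00.1, d00.2, d01.1, d01.2, d02.1, d02.2, w0.1, w0.2, z.1, z.2, w1.1, w1.2, d12.1, d12.2, d11.1, d11.2, d10.1, d10.2, a1.1, a1.2, b1.1, b1.2]

/-- **LL Prop. 4.4** (`red:prop-dyadic`) -/
theorem sk_dyadic {β : ℝ} (hI : SkIncr β) (hS : SkSmall β) : SkDyadic β := by
  obtain ⟨c0, hc0, ε0, hε0, hI⟩ := hI
  refine ⟨min c0 (1 / 4), lt_min hc0 (by norm_num), ε0, hε0, fun ε hε hεε q hq => ?_⟩
  obtain ⟨r0, hr0⟩ := hI ε hε hεε q hq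
  obtain ⟨r, hr⟩ : ∃ r : ℕ, r = max r0 34 := ⟨_, rfl⟩
  have hr1 : r0 ≤ r := hr ▸ le_max_left _ _
  have hr2 : 34 ≤ r := hr ▸ le_max_right _ _
  obtain ⟨c, hc⟩ := sk_st_exists r
  obtain ⟨C, N0, hP⟩ := hr0 r hr1 c hc
  obtain ⟨A, hA0, hA⟩ := sk_site_stencil r (by omega) c hc
  obtain ⟨C', N1, hN1, hnum⟩ := sk_nm_main (c0 := c0) (ε := ε) (q := q) (C := |C|) (A := A) (a1 := 148) (a2 := 3) (a3 := 24) hc0 hε hq (abs_nonneg C) hA0
    (by norm_num) (by norm_num) (by norm_num) hr2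
  obtain ⟨N2, hN2⟩ := hS ε hε q hq
  refine ⟨C', max N0 (max N1 N2), fun N hN N' hNN hN'2 => ?_⟩
  have hNa : N0 ≤ N := (le_max_left _ _).trans hN
  have hNb : N1 ≤ N := ((le_max_left _ _).trans (le_max_right _ _)).trans hN
  have hNc : N2 ≤ N := ((le_max_right _ _).trans (le_max_right _ _)).trans hN
  have hN1' : 1 ≤ N := hN1.trans hNb
  obtain ⟨P, hOk⟩ := hP N hNa N' hNN hN'2
  obtain ⟨n1, n2, n3, n4, n5⟩ := hnum N hNb
  have hC : 0 ≤ C := (abs_nonneg _).trans (hOk.bd_siz (fun _ => 0) 0 N ⟨le_rfl, sk_dy_log_nonneg hN1' hNN⟩ (by omega) (by omega))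
  rw [abs_of_nonneg hC] at n3 n4
  have hNpos : (0 : ℝ) < N := by exact_mod_cast hN1'
  have hN1r : (1 : ℝ) ≤ N := by exact_mod_cast hN1'
  have hx : 0 < skX N := Real.rpow_pos_of_pos hNpos _
  have hsx : q * skX N ^ (1 + ε) / skX N = q * skX N ^ ε := by
    rw [Real.rpow_add hx, Real.rpow_one]
    field_simp
  have hD0 : 0 < skX N ^ (-(1 / 2 : ℝ)) := lt_of_lt_of_le one_pos n1
  have hs : 0 ≤ q * skX N ^ (1 + ε) := by positivity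
  have hL : 0 < skX N ^ ε := Real.rpow_pos_of_pos hx _
  have h3 : q * skX N ^ (1 + ε) * (2 * N) * ((3 * N + 1) * (A * (skX N ^ (-(1 / 2 : ℝ)))⁻¹ ^ (r + 2)) * (3 * N * C))
      ≤ 24 * (q * skX N ^ (1 + ε) * N * (N * (A * (skX N ^ (-(1 / 2 : ℝ)))⁻¹ ^ (r + 2)) * (N * C))) := by
    have hX : 0 ≤ A * (skX N ^ (-(1 / 2 : ℝ)))⁻¹ ^ (r + 2) := by positivity
    have e1 : 24 * (q * skX N ^ (1 + ε) * N * (N * (A * (skX N ^ (-(1 / 2 : ℝ)))⁻¹ ^ (r + 2)) * (N * C)))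
        = q * skX N ^ (1 + ε) * (2 * N) * ((4 * N) * (A * (skX N ^ (-(1 / 2 : ℝ)))⁻¹ ^ (r + 2)) * (3 * N * C)) := by ring
    rw [e1]
    refine mul_le_mul_of_nonneg_left ?_ (by positivity)
    refine mul_le_mul_of_nonneg_right ?_ (by positivity)
    exact mul_le_mul_of_nonneg_right (by linarith) hX
  have hfin := sk_dz_chain hOk hN1' hNN hN'2 n1 n2 hs hL (fun u => hA _ hD0 u) n3 (by rw [hsx]; exact hN2 N hNc) (by linarith)
  rw [hsx] at hfin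
  linarith

end Claimed.Agent.R286
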