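import Mathlib

/-!
# Row 286 (S0533), folder Top, file Noise : JENSEN REMOVAL OF AN INDEPENDENT CENTRED NOISE + NOISE KIT      (helper63; prefix `sk_noise_`; leaf (J) of BOXB_PLAN_245)

Paper free, Mathlib only.
* `sk_noise_jensen` : `E exp (t |X|) ≤ E exp (t |X + S|)` for `S` independent, centred (product form).
* `sk_noise_mgf_add`, `sk_noise_var_add`, `sk_noise_mean_add` : Laplace transform / variance / mean of an independent sum (product form).
* Gaussian noise: `sk_noise_mgf_gauss`, scaled version.      * exponential noise of rate `r`: integral formula, Laplace transform, mean, second moment, variance.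
-/

set_option autoImplicit false

namespace Claimed.Agent.R286

open MeasureTheory ProbabilityTheory Filter Topology Set

theorem sk_noise_convex (t : ℝ) (ht : 0 ≤ t) : ConvexOn ℝ univ (fun y : ℝ => Real.exp (t * |y|)) := by
  refine ⟨convex_univ, fun x _ y _ a b ha hb hab => ?_⟩
  have h1 : |a * x + b * y| ≤ a * |x| + b * |y| := by
    refine (abs_add_le _ _).trans ?_
    rw [abs_mul, abs_mul, abs_of_nonneg ha, abs_of_nonneg hb]
  have h2 := convexOn_exp.2 (mem_univ (t * |x|)) (mem_univ (t * |y|)) ha hb hab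
  simp only [smul_eq_mul] at h2 ⊢
  refine le_trans (Real.exp_le_exp.2 ?_) h2
  calc t * |a * x + b * y| ≤ t * (a * |x| + b * |y|) := mul_le_mul_of_nonneg_left h1 ht
    _ = _ := by ring

/-- **(J) Jensen removal of an independent centred noise.** -/
theorem sk_noise_jensen (μ ρ : Measure ℝ) [IsProbabilityMeasure μ] [IsProbabilityMeasure ρ] (hρ : Integrable (fun s : ℝ => s) ρ)
    (h0 : ∫ s, s ∂ρ = 0) (t : ℝ) (ht : 0 ≤ t) (hI : Integrable (fun p : ℝ × ℝ => Real.exp (t * |p.1 + p.2|)) (μ.prod ρ)) :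
    Integrable (fun x : ℝ => Real.exp (t * |x|)) μ ∧
      ∫ x, Real.exp (t * |x|) ∂μ ≤ ∫ p : ℝ × ℝ, Real.exp (t * |p.1 + p.2|) ∂(μ.prod ρ) := by
  have hcont : Continuous fun y : ℝ => Real.exp (t * |y|) := by fun_prop
  have hae : ∀ᵐ x ∂μ, Real.exp (t * |x|) ≤ ∫ s, Real.exp (t * |x + s|) ∂ρ := by
    filter_upwards [hI.prod_right_ae] with x hx
    have hfi : Integrable (fun s : ℝ => x + s) ρ := (integrable_const x).add hρ
    have := (sk_noise_convex t ht).map_integral_le (μ := ρ) (f := fun s : ℝ => x + s) hcont.continuousOn isClosed_univ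
      (Eventually.of_forall fun _ => mem_univ _) hfi hx
    rw [integral_add (integrable_const x) hρ, h0] at this
    simpa using this
  have hint : Integrable (fun x : ℝ => ∫ s, Real.exp (t * |x + s|) ∂ρ) μ := hI.integral_prod_left
  have h1 : Integrable (fun x : ℝ => Real.exp (t * |x|)) μ := by
    refine Integrable.mono' hint hcont.aestronglyMeasurable ?_
    filter_upwards [hae] with x hx
    rwa [Real.norm_eq_abs, abs_of_pos (Real.exp_pos _)]
  refine ⟨h1, ?_⟩
  rw [integral_prod _ hI]
  exact integral_mono_ae h1 hint hae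

/-- the same for random variables on arbitrary spaces -/
theorem sk_noise_jensen' {Ω Ω' : Type*} [MeasurableSpace Ω] [MeasurableSpace Ω'] (P : Measure Ω) (Q : Measure Ω') [IsProbabilityMeasure P]
    [IsProbabilityMeasure Q] (X : Ω → ℝ) (S : Ω' → ℝ) (hX : AEMeasurable X P) (hS : Integrable S Q) (h0 : ∫ s, S s ∂Q = 0) (t : ℝ) (ht : 0 ≤ t)
    (hI : Integrable (fun p : Ω × Ω' => Real.exp (t * |X p.1 + S p.2|)) (P.prod Q)) :
    Integrable (fun x => Real.exp (t * |X x|)) P ∧
      ∫ x, Real.exp (t * |X x|) ∂P ≤ ∫ p : Ω × Ω', Real.exp (t * |X p.1 + S p.2|) ∂(P.prod Q) := by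
  have hcont : Continuous fun y : ℝ => Real.exp (t * |y|) := by fun_prop
  have hae : ∀ᵐ x ∂P, Real.exp (t * |X x|) ≤ ∫ s, Real.exp (t * |X x + S s|) ∂Q := by
    filter_upwards [hI.prod_right_ae] with x hx
    have hfi : Integrable (fun s => X x + S s) Q := (integrable_const (X x)).add hS
    have := (sk_noise_convex t ht).map_integral_le (μ := Q) (f := fun s => X x + S s) hcont.continuousOn isClosed_univ
      (Eventually.of_forall fun _ => mem_univ _) hfi hx
    rw [integral_add (integrable_const (X x)) hS, h0] at this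
    simpa using this
  have hint : Integrable (fun x => ∫ s, Real.exp (t * |X x + S s|) ∂Q) P := hI.integral_prod_left
  have h1 : Integrable (fun x => Real.exp (t * |X x|)) P := by
    refine Integrable.mono' hint (hcont.measurable.comp_aemeasurable hX).aestronglyMeasurable ?_
    filter_upwards [hae] with x hx
    rwa [Real.norm_eq_abs, abs_of_pos (Real.exp_pos _)]
  refine ⟨h1, ?_⟩
  rw [integral_prod _ hI]
  exact integral_mono_ae h1 hint hae

/-! ## independent sums (product form) -/

section indep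

variable {Ω Ω' : Type*} [MeasurableSpace Ω] [MeasurableSpace Ω'] (P : Measure Ω) (Q : Measure Ω') [IsProbabilityMeasure P] [IsProbabilityMeasure Q]
  (X : Ω → ℝ) (S : Ω' → ℝ)

/-- Laplace transform of an independent sum (no integrability needed) -/
theorem sk_noise_mgf_add (z : ℝ) :
    ∫ p : Ω × Ω', Real.exp (z * (X p.1 + S p.2)) ∂(P.prod Q) = (∫ x, Real.exp (z * X x) ∂P) * ∫ s, Real.exp (z * S s) ∂Q := by
  rw [← integral_prod_mul (fun x => Real.exp (z * X x)) (fun s => Real.exp (z * S s))]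
  refine integral_congr_ae (Eventually.of_forall fun p => ?_)
  simp only
  rw [← Real.exp_add]; congr 1; ring

omit [IsProbabilityMeasure P] [IsProbabilityMeasure Q] in
theorem sk_noise_integrable_mgf_add (z : ℝ) (hX : Integrable (fun x => Real.exp (z * X x)) P) (hS : Integrable (fun s => Real.exp (z * S s)) Q) :
    Integrable (fun p : Ω × Ω' => Real.exp (z * (X p.1 + S p.2))) (P.prod Q) := by
  refine (Integrable.mul_prod (f := fun x => Real.exp (z * X x)) (g := fun s => Real.exp (z * S s)) hX hS).congr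
    (Eventually.of_forall fun p => ?_)
  simp only
  rw [← Real.exp_add]; congr 1; ring

theorem sk_noise_mean_add (hX : Integrable X P) (hS : Integrable S Q) :
    ∫ p : Ω × Ω', (X p.1 + S p.2) ∂(P.prod Q) = (∫ x, X x ∂P) + ∫ s, S s ∂Q := by
  rw [integral_add (hX.comp_fst Q) (hS.comp_snd P), integral_fun_fst X, integral_fun_snd S]
  simp

theorem sk_noise_sq_add (hX : MemLp X 2 P) (hS : MemLp S 2 Q) :
    Integrable (fun p : Ω × Ω' => (X p.1 + S p.2) ^ 2) (P.prod Q) ∧
    ∫ p : Ω × Ω', (X p.1 + S p.2) ^ 2 ∂(P.prod Q) = (∫ x, X x ^ 2 ∂P) + 2 * ((∫ x, X x ∂P) * ∫ s, S s ∂Q) + ∫ s, S s ^ 2 ∂Q := by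
  have i1 : Integrable (fun p : Ω × Ω' => X p.1 ^ 2) (P.prod Q) := hX.integrable_sq.comp_fst Q
  have i2 : Integrable (fun p : Ω × Ω' => S p.2 ^ 2) (P.prod Q) := hS.integrable_sq.comp_snd P
  have i3 : Integrable (fun p : Ω × Ω' => X p.1 * S p.2) (P.prod Q) :=
    Integrable.mul_prod (hX.integrable one_le_two) (hS.integrable one_le_two)
  have e : (fun p : Ω × Ω' => (X p.1 + S p.2) ^ 2) = fun p => X p.1 ^ 2 + 2 * (X p.1 * S p.2) + S p.2 ^ 2 := by
    funext p; ring
  rw [e]
  refine ⟨(i1.add (i3.const_mul 2)).add i2, ?_⟩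
  have a1 : ∫ p : Ω × Ω', X p.1 ^ 2 + 2 * (X p.1 * S p.2) + S p.2 ^ 2 ∂(P.prod Q)
      = (∫ p : Ω × Ω', X p.1 ^ 2 + 2 * (X p.1 * S p.2) ∂(P.prod Q)) + ∫ p : Ω × Ω', S p.2 ^ 2 ∂(P.prod Q) :=
    integral_add (i1.add (i3.const_mul 2)) i2
  have a2 : ∫ p : Ω × Ω', X p.1 ^ 2 + 2 * (X p.1 * S p.2) ∂(P.prod Q)
      = (∫ p : Ω × Ω', X p.1 ^ 2 ∂(P.prod Q)) + ∫ p : Ω × Ω', 2 * (X p.1 * S p.2) ∂(P.prod Q) :=
    integral_add i1 (i3.const_mul 2)
  rw [a1, a2, integral_const_mul, integral_prod_mul X S,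
    integral_fun_fst (fun x => X x ^ 2), integral_fun_snd (fun s => S s ^ 2)]
  simp

theorem sk_noise_memLp_add (hX : MemLp X 2 P) (hS : MemLp S 2 Q) : MemLp (fun p : Ω × Ω' => X p.1 + S p.2) 2 (P.prod Q) := by
  rw [memLp_two_iff_integrable_sq]
  · exact (sk_noise_sq_add P Q X S hX hS).1
  · exact (hX.aestronglyMeasurable.comp_fst).add (hS.aestronglyMeasurable.comp_snd)

/-- variance of an independent sum -/
theorem sk_noise_var_add (hX : MemLp X 2 P) (hS : MemLp S 2 Q) :
    Var[fun p : Ω × Ω' => X p.1 + S p.2; P.prod Q] = Var[X; P] + Var[S; Q] := by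
  rw [variance_eq_sub (sk_noise_memLp_add P Q X S hX hS), variance_eq_sub hX, variance_eq_sub hS,
    sk_noise_mean_add P Q X S (hX.integrable one_le_two) (hS.integrable one_le_two)]
  simp only [Pi.pow_apply]
  rw [(sk_noise_sq_add P Q X S hX hS).2]
  ring

end indep

/-! ## Gaussian noise -/

theorem sk_noise_mgf_gauss (v : NNReal) (z : ℝ) : ∫ s, Real.exp (z * s) ∂gaussianReal 0 v = Real.exp (v * z ^ 2 / 2) := by
  have := congrFun (mgf_id_gaussianReal (μ := 0) (v := v)) z
  simpa [mgf] using this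

theorem sk_noise_mgf_gauss_scaled (v : NNReal) (d z : ℝ) :
    ∫ s, Real.exp (z * (d * s)) ∂gaussianReal 0 v = Real.exp (v * d ^ 2 * z ^ 2 / 2) := by
  have := sk_noise_mgf_gauss v (z * d)
  simp_rw [mul_assoc] at this
  rw [this]; congr 1; ring

theorem sk_noise_sq_gauss (v : NNReal) : ∫ s, s ^ 2 ∂gaussianReal 0 v = v := by
  have h := variance_id_gaussianReal (μ := 0) (v := v)
  rw [variance_eq_sub (memLp_id_gaussianReal 2)] at h
  simpa [integral_id_gaussianReal] using h

/-! ## exponential noise of rate `r` -/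

theorem sk_noise_exp_toReal (r : ℝ) (hr : 0 ≤ r) (x : ℝ) :
    (exponentialPDF r x).toReal = (Ici (0 : ℝ)).indicator (fun x => r * Real.exp (-(r * x))) x := by
  rw [exponentialPDF_eq]
  by_cases hx : 0 ≤ x
  · rw [if_pos hx, indicator_of_mem (by exact hx), ENNReal.toReal_ofReal (by positivity)]
  · rw [if_neg hx, indicator_of_notMem (by exact hx)]; simp

theorem sk_noise_exp_eq (r : ℝ) : expMeasure r = volume.withDensity (exponentialPDF r) := rfl

theorem sk_noise_exp_meas (r : ℝ) : Measurable (exponentialPDF r) :=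
  (measurable_exponentialPDFReal r).ennreal_ofReal

theorem sk_noise_exp_integral (r : ℝ) (hr : 0 ≤ r) (f : ℝ → ℝ) :
    ∫ x, f x ∂expMeasure r = ∫ x in Ioi 0, (r * Real.exp (-(r * x))) * f x := by
  rw [sk_noise_exp_eq, integral_withDensity_eq_integral_toReal_smul (sk_noise_exp_meas r)
    (Eventually.of_forall fun x => by rw [exponentialPDF_eq]; exact ENNReal.ofReal_lt_top), ← integral_Ici_eq_integral_Ioi,
    ← integral_indicator measurableSet_Ici]
  refine integral_congr_ae (Eventually.of_forall fun x => ?_)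
  simp only [smul_eq_mul]
  rw [sk_noise_exp_toReal r hr]
  by_cases hx : x ∈ Ici (0 : ℝ)
  · rw [indicator_of_mem hx, indicator_of_mem hx]
  · rw [indicator_of_notMem hx, indicator_of_notMem hx, zero_mul]

theorem sk_noise_exp_integrable (r : ℝ) (hr : 0 ≤ r) (f : ℝ → ℝ) :
    Integrable f (expMeasure r) ↔ IntegrableOn (fun x => (r * Real.exp (-(r * x))) * f x) (Ioi 0) := by
  rw [sk_noise_exp_eq, integrable_withDensity_iff_integrable_smul' (sk_noise_exp_meas r)
    (Eventually.of_forall fun x => by rw [exponentialPDF_eq]; exact ENNReal.ofReal_lt_top), ← integrableOn_Ici_iff_integrableOn_Ioi,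
    ← integrable_indicator_iff measurableSet_Ici]
  refine integrable_congr (Eventually.of_forall fun x => ?_)
  simp only [smul_eq_mul]
  rw [sk_noise_exp_toReal r hr]
  by_cases hx : x ∈ Ici (0 : ℝ)
  · rw [indicator_of_mem hx, indicator_of_mem hx]
  · rw [indicator_of_notMem hx, indicator_of_notMem hx, zero_mul]

theorem sk_noise_exp_integrable_pow (r : ℝ) (hr : 0 < r) (k : ℕ) : Integrable (fun x : ℝ => x ^ k) (expMeasure r) := by
  rw [sk_noise_exp_integrable r hr.le]
  have h := (integrableOn_rpow_mul_exp_neg_mul_rpow (p := 1) (s := k) (b := r) (by have : (0 : ℝ) ≤ k := Nat.cast_nonneg k; linarith) one_pos hr).const_mul r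
  refine IntegrableOn.congr_fun h (fun x _ => ?_) measurableSet_Ioi
  simp only [Real.rpow_natCast, Real.rpow_one]
  rw [neg_mul]; ring

theorem sk_noise_exp_moment (r : ℝ) (hr : 0 < r) (k : ℕ) : ∫ x, x ^ k ∂expMeasure r = k.factorial / r ^ k := by
  rw [sk_noise_exp_integral r hr.le]
  have h := Real.integral_rpow_mul_exp_neg_mul_Ioi (a := (k : ℝ) + 1) (r := r) (by positivity) hr
  have e : ∫ x in Ioi (0 : ℝ), (r * Real.exp (-(r * x))) * x ^ k = r * ∫ t in Ioi (0 : ℝ), t ^ ((k : ℝ) + 1 - 1) * Real.exp (-(r * t)) := by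
    rw [← integral_const_mul]
    refine setIntegral_congr_fun measurableSet_Ioi fun x _ => ?_
    simp only [add_sub_cancel_right, Real.rpow_natCast]
    ring
  rw [e, h, Real.Gamma_nat_eq_factorial, Real.rpow_add (by positivity), Real.rpow_natCast, Real.rpow_one, one_div, inv_pow]
  field_simp

theorem sk_noise_exp_integrable_mgf (r : ℝ) (hr : 0 < r) (t : ℝ) (ht : t < r) : Integrable (fun x : ℝ => Real.exp (t * x)) (expMeasure r) := by
  rw [sk_noise_exp_integrable r hr.le]
  have h := (integrableOn_rpow_mul_exp_neg_mul_rpow (p := 1) (s := 0) (b := r - t) (by norm_num) one_pos (by linarith)).const_mul r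
  refine IntegrableOn.congr_fun h (fun x _ => ?_) measurableSet_Ioi
  simp only [Real.rpow_zero, Real.rpow_one, one_mul]
  rw [mul_assoc, ← Real.exp_add]; congr 2; ring

/-- Laplace transform of the exponential law -/
theorem sk_noise_exp_mgf (r : ℝ) (hr : 0 < r) (t : ℝ) (ht : t < r) : ∫ x, Real.exp (t * x) ∂expMeasure r = r / (r - t) := by
  rw [sk_noise_exp_integral r hr.le]
  have h := Real.integral_rpow_mul_exp_neg_mul_Ioi (a := 1) (r := r - t) one_pos (by linarith)
  have e : ∫ x in Ioi (0 : ℝ), (r * Real.exp (-(r * x))) * Real.exp (t * x) = r * ∫ s in Ioi (0 : ℝ), s ^ ((1 : ℝ) - 1) * Real.exp (-((r - t) * s)) := by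
    rw [← integral_const_mul]
    refine setIntegral_congr_fun measurableSet_Ioi fun x _ => ?_
    simp only [sub_self, Real.rpow_zero, one_mul]
    rw [mul_assoc, ← Real.exp_add]; congr 2; ring
  rw [e, h, Real.Gamma_one, Real.rpow_one]
  field_simp

theorem sk_noise_exp_mean (r : ℝ) (hr : 0 < r) : ∫ x, x ∂expMeasure r = 1 / r := by
  have := sk_noise_exp_moment r hr 1
  simpa using this

theorem sk_noise_exp_memLp (r : ℝ) (hr : 0 < r) : MemLp (fun x : ℝ => x) 2 (expMeasure r) := by
  exact (memLp_two_iff_integrable_sq (f := fun x : ℝ => x) measurable_id.aestronglyMeasurable).2 (sk_noise_exp_integrable_pow r hr 2)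

theorem sk_noise_exp_var (r : ℝ) (hr : 0 < r) : Var[fun x : ℝ => x; expMeasure r] = 1 / r ^ 2 := by
  have := isProbabilityMeasure_expMeasure hr
  rw [variance_eq_sub (sk_noise_exp_memLp r hr), sk_noise_exp_mean r hr]
  simp only [Pi.pow_apply]
  rw [sk_noise_exp_moment r hr 2]
  simp only [Nat.factorial]
  field_simp
  norm_num

/-- the centred exponential noise `x - 1/r` : mean, second moment, Laplace transform -/
theorem sk_noise_exp_cen_mean (r : ℝ) (hr : 0 < r) : ∫ x, (x - 1 / r) ∂expMeasure r = 0 := by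
  have := isProbabilityMeasure_expMeasure hr
  have h1 : Integrable (fun x : ℝ => x) (expMeasure r) := by simpa using sk_noise_exp_integrable_pow r hr 1
  rw [integral_sub h1 (integrable_const _), sk_noise_exp_mean r hr]
  simp

theorem sk_noise_exp_cen_integrable (r : ℝ) (hr : 0 < r) : Integrable (fun x : ℝ => x - 1 / r) (expMeasure r) := by
  have := isProbabilityMeasure_expMeasure hr
  have h1 : Integrable (fun x : ℝ => x) (expMeasure r) := by simpa using sk_noise_exp_integrable_pow r hr 1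
  exact h1.sub (integrable_const _)

theorem sk_noise_exp_cen_mgf (r : ℝ) (hr : 0 < r) (t : ℝ) (ht : t < r) :
    ∫ x, Real.exp (t * (x - 1 / r)) ∂expMeasure r = Real.exp (-(t / r)) * (r / (r - t)) := by
  have e : (fun x : ℝ => Real.exp (t * (x - 1 / r))) = fun x => Real.exp (-(t / r)) * Real.exp (t * x) := by
    funext x
    rw [← Real.exp_add]; congr 1; ring
  rw [e, integral_const_mul, sk_noise_exp_mgf r hr t ht]

theorem sk_noise_exp_cen_sq (r : ℝ) (hr : 0 < r) : ∫ x, (x - 1 / r) ^ 2 ∂expMeasure r = 1 / r ^ 2 := by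
  have h := sk_noise_exp_var r hr
  rw [variance_eq_integral (X := fun x : ℝ => x) measurable_id.aemeasurable, sk_noise_exp_mean r hr] at h
  exact h

end Claimed.Agent.R286
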