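import Claimed.Agent.R286.Top.Red
import Claimed.Agent.R286.Top.Fix
import Claimed.Agent.R286.Top.Lam

/-!
# Row 286 (S0533), folder Top, file RedSk : LL Prop 4.5 (first half) for the SK free energy      (helper49; prefix `sk_red_`)
`sk_red_mom   : SkDyadic β → SkExponent β → SkTail β → SkMom β`      (`SkDyadic` = LL Prop 4.4, file Lam; `SkMom` = file Glue)
`sk_red_small : SkExponent β → SkTail β → SkSmall β`                  (`SkSmall` = file Lam)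
* `SkExponent β` = PE Theorem 1.1 (variance `n^(1/3 ± η)`)
* `SkTail β`     = exit of the log-concave unit: `E exp(t0 |F_n - E F_n| / sqrt(Var F_n + 1)) ≤ C0` (PE Lemmas 7.6, 7.7 + Jensen)
-/

set_option autoImplicit false

namespace Claimed.Agent.R286

open MeasureTheory ProbabilityTheory Filter Topology
open Claims.C0461

/-- **PE Theorem 1.1**: the variance exponent.   TEX[PE:thm:main] -/
def SkExponent (β : ℝ) : Prop :=
  ∀ η : ℝ, 0 < η → ∃ n0 : ℕ, ∀ n : ℕ, n0 ≤ n →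
    (n : ℝ) ^ ((1 : ℝ) / 3 - η) ≤ skVariance β n ∧ skVariance β n ≤ (n : ℝ) ^ ((1 : ℝ) / 3 + η)

/-- **exit of the log-concave unit** (PE Lemmas 7.6 and 7.7, conditional Jensen): exponential tails at the scale of the augmented standard deviation.   TEX[PE:fl:augmentation] TEX[PE:fl:one-dimensional] -/
def SkTail (β : ℝ) : Prop :=
  ∃ t0 C0 : ℝ, 0 < t0 ∧ ∀ n : ℕ, 1 ≤ n →
    ∫ g, Real.exp (t0 * |skCen β n g| / Real.sqrt (skVariance β n + 1)) ∂skDisorder n ≤ C0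

/-- the law of `skA β n` -/
noncomputable def skLaw (β : ℝ) (n : ℕ) : Measure ℝ := (skDisorder n).map (skA β n)

theorem sk_red_eqns_cite : True := by
  have := @SkExponent.eq_1
  have := @SkTail.eq_1
  have := @skLaw.eq_1
  trivial

instance sk_red_law_prob (β : ℝ) (n : ℕ) : IsProbabilityMeasure (skLaw β n) :=
  Measure.isProbabilityMeasure_map (sk_top_measA β n).aemeasurable

theorem sk_red_law_int (β : ℝ) (n : ℕ) (f : ℝ → ℝ) (hf : Measurable f) :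
    ∫ y, f y ∂skLaw β n = ∫ g, f (skA β n g) ∂skDisorder n :=
  integral_map (sk_top_measA β n).aemeasurable hf.aestronglyMeasurable

theorem sk_red_law_integrable (β : ℝ) (n : ℕ) (f : ℝ → ℝ) (hf : Measurable f) :
    Integrable f (skLaw β n) ↔ Integrable (fun g => f (skA β n g)) (skDisorder n) :=
  integrable_map_measure hf.aestronglyMeasurable (sk_top_measA β n).aemeasurable

theorem sk_red_A_cen (β : ℝ) (n : ℕ) (g : SKPair n → ℝ) :
    skA β n g = (n : ℝ) ^ (-(1 / 6 : ℝ)) * skCen β n g := by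
  unfold skA skCen
  rw [Real.rpow_neg (Nat.cast_nonneg n), div_eq_inv_mul]

theorem sk_red_law_var (β : ℝ) (n : ℕ) :
    ∫ y, y ^ 2 ∂skLaw β n = skVariance β n / (n : ℝ) ^ ((1 : ℝ) / 3) := by
  rw [sk_red_law_int β n (fun y => y ^ 2) (by fun_prop), sk_top_var]

theorem sk_red_law_mean (β : ℝ) (n : ℕ) : ∫ y, y ∂skLaw β n = 0 := by
  rw [sk_red_law_int β n (fun y => y) measurable_id, sk_fix_meanA]

/-- the log Laplace transform of `skLaw` and the completed transform `skLam` -/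
theorem sk_red_lam (β : ℝ) (n : ℕ) (t : ℝ) :
    Real.log (∫ y, Real.exp (t * y) ∂skLaw β n) = skLam β n t - t ^ 2 * (n : ℝ) ^ (-(1 / 3 : ℝ)) * β ^ 2 / 4 := by
  unfold skLam
  rw [sk_red_law_int β n (fun y => Real.exp (t * y)) (by fun_prop)]
  simp only [sk_red_A_cen, mul_assoc]
  ring

theorem sk_red_X_pow (N : ℕ) (a : ℝ) : skX N ^ (6 * a) = (N : ℝ) ^ (-a) := by
  unfold skX
  rw [← Real.rpow_mul (Nat.cast_nonneg N)]
  congr 1
  ring

/-- hypothesis `h1` of `sk_red_abs` -/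
theorem sk_red_h1 (β : ℝ) (h : SkDyadic β) :
    ∃ c e0 : ℝ, 0 < c ∧ 0 < e0 ∧ ∀ e : ℝ, 0 < e → e ≤ e0 → ∀ q : ℝ, 0 < q →
      ∃ (C : ℝ) (N0 : ℕ), ∀ N N' : ℕ, N0 ≤ N → N ≤ N' → N' ≤ 2 * N →
        |Real.log (∫ y, Real.exp (q * (N : ℝ) ^ (-e) * y) ∂skLaw β N')
          - Real.log (∫ y, Real.exp (q * (N : ℝ) ^ (-e) * y) ∂skLaw β N)| ≤ C * (N : ℝ) ^ (-(e + c)) := by
  obtain ⟨c', hc', ε0, hε0, h⟩ := h
  refine ⟨min (c' / 6) (1 / 3), ε0 / 12, lt_min (by positivity) (by norm_num), by positivity, ?_⟩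
  intro e he he0 q hq
  obtain ⟨C, N0, hC⟩ := h (6 * e) (by positivity) (by linarith) q hq
  refine ⟨|C| + q ^ 2 * β ^ 2 / 4, max N0 1, ?_⟩
  intro N N' hN hNN' hN'2
  have hN0 : N0 ≤ N := (le_max_left _ _).trans hN
  have hN1 : 1 ≤ N := (le_max_right _ _).trans hN
  have hX1 : (1 : ℝ) ≤ (N : ℝ) := by exact_mod_cast hN1
  have hX0 : (0 : ℝ) < (N : ℝ) := by linarith
  have key := hC N hN0 N' hNN' hN'2
  rw [sk_red_X_pow] at key
  have e1 : skX N ^ (6 * e + c') = (N : ℝ) ^ (-(e + c' / 6)) := by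
    rw [← sk_red_X_pow]
    congr 1
    ring
  rw [e1] at key
  set t : ℝ := q * (N : ℝ) ^ (-e) with ht
  set c : ℝ := min (c' / 6) (1 / 3) with hc
  rw [sk_red_lam, sk_red_lam]
  have p1 : (N : ℝ) ^ (-(e + c' / 6)) ≤ (N : ℝ) ^ (-(e + c)) := by
    refine Real.rpow_le_rpow_of_exponent_le hX1 ?_
    have : c ≤ c' / 6 := min_le_left _ _
    linarith
  have p2 : t ^ 2 * (N : ℝ) ^ (-(1 / 3 : ℝ)) ≤ q ^ 2 * (N : ℝ) ^ (-(e + c)) := by
    rw [ht, mul_pow, mul_assoc]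
    refine mul_le_mul_of_nonneg_left ?_ (by positivity)
    rw [← Real.rpow_natCast, ← Real.rpow_mul hX0.le, ← Real.rpow_add hX0]
    refine Real.rpow_le_rpow_of_exponent_le hX1 ?_
    have : c ≤ 1 / 3 := min_le_right _ _
    push_cast
    linarith
  have p3 : (N' : ℝ) ^ (-(1 / 3 : ℝ)) ≤ (N : ℝ) ^ (-(1 / 3 : ℝ)) :=
    Real.rpow_le_rpow_of_nonpos hX0 (by exact_mod_cast hNN') (by norm_num)
  have p4 : (0 : ℝ) ≤ (N' : ℝ) ^ (-(1 / 3 : ℝ)) := by positivity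
  have p5 : 0 ≤ (N : ℝ) ^ (-(e + c)) := by positivity
  have p6 : |t ^ 2 * (N : ℝ) ^ (-(1 / 3 : ℝ)) * β ^ 2 / 4 - t ^ 2 * (N' : ℝ) ^ (-(1 / 3 : ℝ)) * β ^ 2 / 4|
      ≤ q ^ 2 * β ^ 2 / 4 * (N : ℝ) ^ (-(e + c)) := by
    have e2 : t ^ 2 * (N : ℝ) ^ (-(1 / 3 : ℝ)) * β ^ 2 / 4 - t ^ 2 * (N' : ℝ) ^ (-(1 / 3 : ℝ)) * β ^ 2 / 4
        = β ^ 2 / 4 * (t ^ 2 * ((N : ℝ) ^ (-(1 / 3 : ℝ)) - (N' : ℝ) ^ (-(1 / 3 : ℝ)))) := by ring
    rw [e2, abs_of_nonneg (by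
      have : 0 ≤ (N : ℝ) ^ (-(1 / 3 : ℝ)) - (N' : ℝ) ^ (-(1 / 3 : ℝ)) := by linarith
      positivity)]
    calc β ^ 2 / 4 * (t ^ 2 * ((N : ℝ) ^ (-(1 / 3 : ℝ)) - (N' : ℝ) ^ (-(1 / 3 : ℝ))))
        ≤ β ^ 2 / 4 * (t ^ 2 * (N : ℝ) ^ (-(1 / 3 : ℝ))) := by
          refine mul_le_mul_of_nonneg_left ?_ (by positivity)
          refine mul_le_mul_of_nonneg_left (by linarith) (by positivity)
      _ ≤ β ^ 2 / 4 * (q ^ 2 * (N : ℝ) ^ (-(e + c))) := mul_le_mul_of_nonneg_left p2 (by positivity)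
      _ = _ := by ring
  have p7 : |skLam β N' t - skLam β N t| ≤ |C| * (N : ℝ) ^ (-(e + c)) := by
    refine key.trans ?_
    calc C * (N : ℝ) ^ (-(e + c' / 6)) ≤ |C| * (N : ℝ) ^ (-(e + c' / 6)) :=
          mul_le_mul_of_nonneg_right (le_abs_self _) (by positivity)
      _ ≤ |C| * (N : ℝ) ^ (-(e + c)) := mul_le_mul_of_nonneg_left p1 (abs_nonneg _)
  have e3 : skLam β N' t - t ^ 2 * (N' : ℝ) ^ (-(1 / 3 : ℝ)) * β ^ 2 / 4 - (skLam β N t - t ^ 2 * (N : ℝ) ^ (-(1 / 3 : ℝ)) * β ^ 2 / 4)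
      = (skLam β N' t - skLam β N t) + (t ^ 2 * (N : ℝ) ^ (-(1 / 3 : ℝ)) * β ^ 2 / 4 - t ^ 2 * (N' : ℝ) ^ (-(1 / 3 : ℝ)) * β ^ 2 / 4) := by ring
  rw [e3]
  refine (abs_add_le _ _).trans ?_
  rw [add_mul]
  exact add_le_add p7 p6

/-- hypothesis `h2` of `sk_red_abs` -/
theorem sk_red_h2 (β : ℝ) (h : SkExponent β) :
    ∀ η : ℝ, 0 < η → ∃ n0 : ℕ, ∀ n : ℕ, n0 ≤ n →
      (n : ℝ) ^ (-η) ≤ ∫ y, y ^ 2 ∂skLaw β n ∧ ∫ y, y ^ 2 ∂skLaw β n ≤ (n : ℝ) ^ η := by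
  intro η hη
  obtain ⟨n0, h⟩ := h η hη
  refine ⟨max n0 1, fun n hn => ?_⟩
  have hn0 : n0 ≤ n := (le_max_left _ _).trans hn
  have hn1 : 1 ≤ n := (le_max_right _ _).trans hn
  have hX0 : (0 : ℝ) < (n : ℝ) := by exact_mod_cast hn1
  have hd : 0 < (n : ℝ) ^ ((1 : ℝ) / 3) := by positivity
  rw [sk_red_law_var]
  obtain ⟨a, b⟩ := h n hn0
  constructor
  · rw [le_div_iff₀ hd, ← Real.rpow_add hX0]
    have e : -η + (1 : ℝ) / 3 = (1 : ℝ) / 3 - η := by ring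
    rw [e]
    exact a
  · rw [div_le_iff₀ hd, ← Real.rpow_add hX0]
    have e : η + (1 : ℝ) / 3 = (1 : ℝ) / 3 + η := by ring
    rw [e]
    exact b

/-- hypothesis `h3` of `sk_red_abs` -/
theorem sk_red_h3 (β : ℝ) (h : SkTail β) :
    ∃ t0 C0 A : ℝ, 0 < t0 ∧ 0 < A ∧ ∀ n : ℕ,
      Integrable (fun y => Real.exp (t0 * |y| / Real.sqrt (∫ y, y ^ 2 ∂skLaw β n + A))) (skLaw β n) ∧
      ∫ y, Real.exp (t0 * |y| / Real.sqrt (∫ y, y ^ 2 ∂skLaw β n + A)) ∂skLaw β n ≤ C0 := by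
  obtain ⟨t0, C0, ht0, h⟩ := h
  refine ⟨t0, max C0 1, 1, ht0, one_pos, fun n => ?_⟩
  set s : ℝ := Real.sqrt (∫ y, y ^ 2 ∂skLaw β n + 1) with hs
  have hint : Integrable (fun g => Real.exp (t0 * |skA β n g| / s)) (skDisorder n) := by
    refine (sk_fix_expA β n (t0 / s)).congr (Eventually.of_forall fun g => ?_)
    simp only
    congr 1
    ring
  refine ⟨(sk_red_law_integrable β n (fun y => Real.exp (t0 * |y| / s)) (by fun_prop)).2 hint, ?_⟩
  rw [sk_red_law_int β n (fun y => Real.exp (t0 * |y| / s)) (by fun_prop)]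
  rcases Nat.eq_zero_or_pos n with h0 | h0
  · subst h0
    have : ∀ g, skA β 0 g = 0 := by
      intro g
      unfold skA
      simp
    simp only [this, abs_zero, mul_zero, zero_div, Real.exp_zero, integral_const, probReal_univ, smul_eq_mul, mul_one]
    exact le_max_right _ _
  · refine le_trans ?_ ((h n h0).trans (le_max_left _ _))
    have hX1 : (1 : ℝ) ≤ (n : ℝ) := by exact_mod_cast h0
    have hX0 : (0 : ℝ) < (n : ℝ) := by linarith
    set d : ℝ := (n : ℝ) ^ ((1 : ℝ) / 6) with hd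
    have hd1 : 1 ≤ d := Real.one_le_rpow hX1 (by norm_num)
    have hd0 : 0 < d := by linarith
    have hv0 : 0 ≤ skVariance β n := variance_nonneg _ _
    set s' : ℝ := Real.sqrt (skVariance β n + 1) with hs'
    have hs'0 : 0 < s' := Real.sqrt_pos.2 (by linarith)
    have hss : s' ≤ d * s := by
      rw [hs, sk_red_law_var, ← sk_top_sq, ← hd]
      have : d * Real.sqrt (skVariance β n / d ^ 2 + 1) = Real.sqrt (skVariance β n + d ^ 2) := by
        rw [← Real.sqrt_sq hd0.le, ← Real.sqrt_mul (by positivity), Real.sqrt_sq hd0.le]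
        congr 1
        field_simp
      rw [this]
      refine Real.sqrt_le_sqrt ?_
      nlinarith
    have hs0 : 0 < s := by
      by_contra hcon
      have : d * s ≤ 0 := mul_nonpos_of_nonneg_of_nonpos hd0.le (not_lt.1 hcon)
      linarith
    have hpt : ∀ g, Real.exp (t0 * |skA β n g| / s) ≤ Real.exp (t0 * |skCen β n g| / s') := by
      intro g
      apply Real.exp_le_exp.2
      have : |skA β n g| = |skCen β n g| / d := by
        unfold skA skCen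
        rw [abs_div, abs_of_pos hd0]
      rw [this, div_le_div_iff₀ hs0 hs'0]
      calc t0 * (|skCen β n g| / d) * s' ≤ t0 * (|skCen β n g| / d) * (d * s) :=
            mul_le_mul_of_nonneg_left hss (by positivity)
        _ = t0 * |skCen β n g| * s := by field_simp
    have hint' : Integrable (fun g => Real.exp (t0 * |skCen β n g| / s')) (skDisorder n) := by
      refine (sk_fix_expA β n (t0 * d / s')).congr (Eventually.of_forall fun g => ?_)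
      simp only
      congr 1
      have : |skA β n g| = |skCen β n g| / d := by
        unfold skA skCen
        rw [abs_div, abs_of_pos hd0]
      rw [this]
      field_simp
    exact integral_mono hint hint' hpt

/-- **LL Prop 4.5, first half**: dyadic transform comparison + exponent + log-concave tails give the moment theorem.   TEX[LL:red:prop-moments] TEX[LL:thm:moments] -/
theorem sk_red_mom (β : ℝ) (h1 : SkDyadic β) (h2 : SkExponent β) (h3 : SkTail β) : SkMom β := by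
  obtain ⟨a, ha2, ha, -, t1, C1, ht1, hb⟩ := sk_red_abs (skLaw β) (sk_red_law_mean β) (sk_red_h1 β h1) (sk_red_h2 β h2) (sk_red_h3 β h3)
  refine ⟨a, ha2, fun k => ?_, t1, C1, ht1, fun n _ => ?_⟩
  · have := ha k
    simp only [sk_red_law_int β _ (fun y => y ^ k) (by fun_prop)] at this
    exact this
  · obtain ⟨i, b⟩ := hb n
    rw [sk_red_law_int β n (fun y => Real.exp (t1 * |y|)) (by fun_prop)] at b
    exact ⟨(sk_red_law_integrable β n (fun y => Real.exp (t1 * |y|)) (by fun_prop)).1 i, b⟩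

/-- the log Laplace transform at `q N^(-e)` is `o(N^(-e))` (abstract laws) -/
theorem sk_red_small_abs (ρ : ℕ → Measure ℝ) [∀ n, IsProbabilityMeasure (ρ n)]
    (hmean : ∀ n, ∫ y, y ∂ρ n = 0)
    (h2 : ∀ η : ℝ, 0 < η → ∃ n0 : ℕ, ∀ n : ℕ, n0 ≤ n → ∫ y, y ^ 2 ∂ρ n ≤ (n : ℝ) ^ η)
    (h3 : ∃ t0 C0 A : ℝ, 0 < t0 ∧ 0 < A ∧ ∀ n : ℕ,
      Integrable (fun y => Real.exp (t0 * |y| / Real.sqrt (∫ y, y ^ 2 ∂ρ n + A))) (ρ n) ∧
      ∫ y, Real.exp (t0 * |y| / Real.sqrt (∫ y, y ^ 2 ∂ρ n + A)) ∂ρ n ≤ C0)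
    (e : ℝ) (he : 0 < e) (q : ℝ) (hq : 0 < q) :
    ∃ N0 : ℕ, ∀ N : ℕ, N0 ≤ N →
      Real.log (∫ y, Real.exp (q * (N : ℝ) ^ (-e) * y) ∂ρ N) ≤ (N : ℝ) ^ (-e) / 8 := by
  obtain ⟨t0, C0, A, ht0, hA, h3⟩ := h3
  obtain ⟨n0, hn0⟩ := h2 (e / 2) (by positivity)
  set K : ℝ := 64 * (1 + A) * (|C0| + 1) * q ^ 2 / t0 ^ 2 with hK
  have hK0 : 0 < K := by positivity
  have hsm : ∀ᶠ N : ℕ in atTop, K * (N : ℝ) ^ (-(e / 2)) ≤ 1 := by
    have := ((tendsto_rpow_neg_atTop (by positivity : 0 < e / 2)).comp tendsto_natCast_atTop_atTop).const_mul K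
    rw [mul_zero] at this
    exact (this.eventually (gt_mem_nhds one_pos)).mono fun N hN => le_of_lt hN
  obtain ⟨N2, hN2⟩ := eventually_atTop.1 hsm
  refine ⟨max (max n0 N2) 1, fun N hN => ?_⟩
  have b1 : n0 ≤ N := (le_max_left _ _).trans ((le_max_left _ _).trans hN)
  have b2 : N2 ≤ N := (le_max_right _ _).trans ((le_max_left _ _).trans hN)
  have b3 : 1 ≤ N := (le_max_right _ _).trans hN
  have hX1 : (1 : ℝ) ≤ (N : ℝ) := by exact_mod_cast b3
  have hX0 : (0 : ℝ) < (N : ℝ) := by linarith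
  set r : ℝ := (N : ℝ) ^ (-(e / 2)) with hr
  have hr0 : 0 < r := by positivity
  have hr1 : r ≤ 1 := Real.rpow_le_one_of_one_le_of_nonpos hX1 (by linarith)
  have hKr : K * r ≤ 1 := hN2 N b2
  have hw : (N : ℝ) ^ (-e) = r ^ 2 := by
    rw [hr, ← Real.rpow_natCast, ← Real.rpow_mul hX0.le]
    congr 1
    push_cast
    ring
  have hri : (N : ℝ) ^ (e / 2) = r⁻¹ := by rw [hr, Real.rpow_neg hX0.le, inv_inv]
  rw [hw]
  set v : ℝ := ∫ y, y ^ 2 ∂ρ N with hv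
  have hv0 : 0 ≤ v := integral_nonneg fun y => by positivity
  have hv1 : v ≤ r⁻¹ := by rw [← hri]; exact hn0 N b1
  have hri1 : 1 ≤ r⁻¹ := (one_le_inv₀ hr0).2 hr1
  have hvA : v + A ≤ (1 + A) * r⁻¹ := by nlinarith
  set s : ℝ := Real.sqrt (v + A) with hs
  have hs0 : 0 < s := Real.sqrt_pos.2 (by linarith)
  have hs2 : s ^ 2 = v + A := Real.sq_sqrt (by linarith)
  set L : ℝ := s / t0 with hL
  have hL0 : 0 < L := div_pos hs0 ht0
  obtain ⟨i1, c1⟩ := sk_red_exp_mono (ρ N) t0 s L C0 ht0 hs0 le_rfl (h3 N).1 (h3 N).2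
  have c1' : ∫ y, Real.exp (|y| / L) ∂ρ N ≤ |C0| + 1 := c1.trans (by linarith [le_abs_self C0])
  set t : ℝ := q * r ^ 2 with ht
  have ht0' : 0 < t := by positivity
  -- `(2 t L)^2 ≤ K r^3 / (8 (|C0|+1))`
  have hC1 : 1 ≤ |C0| + 1 := by linarith [abs_nonneg C0]
  have htL : (|C0| + 1) * (2 * t * L) ^ 2 ≤ K * r * r ^ 2 / 16 := by
    have e1 : (2 * t * L) ^ 2 = 4 * q ^ 2 * r ^ 4 * (v + A) / t0 ^ 2 := by
      rw [hL, ht, mul_pow, mul_pow, div_pow, hs2]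
      ring
    rw [e1]
    have e2 : K * r * r ^ 2 / 16 = (|C0| + 1) * (4 * q ^ 2 * r ^ 4 * ((1 + A) * r⁻¹) / t0 ^ 2) := by
      rw [hK]
      field_simp
      ring
    rw [e2]
    refine mul_le_mul_of_nonneg_left ?_ (by linarith)
    refine div_le_div_of_nonneg_right ?_ (by positivity)
    exact mul_le_mul_of_nonneg_left hvA (by positivity)
  have hr2 : r ^ 2 ≤ 1 := pow_le_one₀ hr0.le hr1
  have htL1 : (2 * t * L) ^ 2 ≤ 1 := by
    have h1 : (2 * t * L) ^ 2 ≤ (|C0| + 1) * (2 * t * L) ^ 2 := le_mul_of_one_le_left (by positivity) hC1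
    have h2 : K * r * r ^ 2 / 16 ≤ 1 := by
      have : K * r * r ^ 2 ≤ 1 * 1 := mul_le_mul hKr hr2 (by positivity) (by norm_num)
      linarith
    linarith
  have hz : |t| ≤ 1 / (2 * L) := by
    rw [abs_of_pos ht0', le_div_iff₀ (by positivity)]
    have : 2 * t * L ≤ 1 := by
      have h0 : 0 ≤ 2 * t * L := by positivity
      nlinarith
    linarith
  have hT := sk_red_taylor (ρ N) L (|C0| + 1) hL0 i1 c1' 2 t hz
  have hsum : ∑ j ∈ Finset.range 2, (∫ y, y ^ j ∂ρ N) / (j.factorial : ℝ) * t ^ j = 1 := by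
    rw [Finset.sum_range_succ, Finset.sum_range_one]
    simp [hmean N]
  rw [hsum, abs_of_pos ht0'] at hT
  have hM : ∫ y, Real.exp (t * y) ∂ρ N - 1 ≤ r ^ 2 / 8 := by
    have h1 := (le_abs_self _).trans hT
    have h2 : (|C0| + 1) * ((2 : ℕ).factorial : ℝ) * (2 * t * L) ^ 2 = 2 * ((|C0| + 1) * (2 * t * L) ^ 2) := by
      simp [Nat.factorial]
      ring
    rw [h2] at h1
    have h3 : K * r * r ^ 2 ≤ 1 * r ^ 2 := mul_le_mul_of_nonneg_right hKr (by positivity)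
    linarith
  have hz1 : |t| ≤ 1 / L := hz.trans (by
    apply one_div_le_one_div_of_le hL0; linarith)
  have hMpos : 0 < ∫ y, Real.exp (t * y) ∂ρ N :=
    lt_of_lt_of_le one_pos (sk_red_one_le_M (ρ N) L hL0 i1 (hmean N) t hz1)
  exact (Real.log_le_sub_one_of_pos hMpos).trans hM

/-- **the bare endpoint is small** (LL l.330-336): consumed by the proof of LL Prop 4.4 -/
theorem sk_red_small (β : ℝ) (h2 : SkExponent β) (h3 : SkTail β) : SkSmall β := by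
  intro ε hε q hq
  have h2' : ∀ η : ℝ, 0 < η → ∃ n0 : ℕ, ∀ n : ℕ, n0 ≤ n → ∫ y, y ^ 2 ∂skLaw β n ≤ (n : ℝ) ^ η := by
    intro η hη
    obtain ⟨n0, h⟩ := sk_red_h2 β h2 η hη
    exact ⟨n0, fun n hn => (h n hn).2⟩
  have he : 0 < ε / 6 := by positivity
  obtain ⟨N0, hN0⟩ := sk_red_small_abs (skLaw β) (sk_red_law_mean β) h2' (sk_red_h3 β h3) (ε / 6) he q hq
  set K : ℝ := 2 * q ^ 2 * β ^ 2 with hK
  have hK0 : 0 ≤ K := by positivity
  have hsm : ∀ᶠ N : ℕ in atTop, K * (N : ℝ) ^ (-(ε / 6)) ≤ 1 := by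
    have := ((tendsto_rpow_neg_atTop he).comp tendsto_natCast_atTop_atTop).const_mul K
    rw [mul_zero] at this
    exact (this.eventually (gt_mem_nhds one_pos)).mono fun N hN => le_of_lt hN
  obtain ⟨N2, hN2⟩ := eventually_atTop.1 hsm
  refine ⟨max (max N0 N2) 1, fun N hN => ?_⟩
  have b1 : N0 ≤ N := (le_max_left _ _).trans ((le_max_left _ _).trans hN)
  have b2 : N2 ≤ N := (le_max_right _ _).trans ((le_max_left _ _).trans hN)
  have b3 : 1 ≤ N := (le_max_right _ _).trans hN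
  have hX1 : (1 : ℝ) ≤ (N : ℝ) := by exact_mod_cast b3
  have hx : skX N ^ ε = (N : ℝ) ^ (-(ε / 6)) := by
    rw [← sk_red_X_pow]
    congr 1
    ring
  rw [hx]
  set w : ℝ := (N : ℝ) ^ (-(ε / 6)) with hw
  have hw0 : 0 < w := by positivity
  have key := hN0 N b1
  rw [sk_red_lam] at key
  have hKw : K * w ≤ 1 := hN2 N b2
  have h13 : (N : ℝ) ^ (-(1 / 3 : ℝ)) ≤ 1 := Real.rpow_le_one_of_one_le_of_nonpos hX1 (by norm_num)
  have h13' : (0 : ℝ) ≤ (N : ℝ) ^ (-(1 / 3 : ℝ)) := by positivity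
  have hg : (q * w) ^ 2 * (N : ℝ) ^ (-(1 / 3 : ℝ)) * β ^ 2 / 4 ≤ w / 8 := by
    have e1 : (q * w) ^ 2 * (N : ℝ) ^ (-(1 / 3 : ℝ)) * β ^ 2 / 4 = (K * w) * w / 8 * (N : ℝ) ^ (-(1 / 3 : ℝ)) := by
      rw [hK]; ring
    rw [e1]
    have h5 : (K * w) * w / 8 ≤ w / 8 := by
      have : (K * w) * w ≤ 1 * w := mul_le_mul_of_nonneg_right hKw hw0.le
      linarith
    calc (K * w) * w / 8 * (N : ℝ) ^ (-(1 / 3 : ℝ)) ≤ (K * w) * w / 8 * 1 :=
          mul_le_mul_of_nonneg_left h13 (by positivity)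
      _ ≤ w / 8 := by linarith
  linarith

end Claimed.Agent.R286
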