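import Claimed.Agent.R286.Top.Lc
import Claimed.Agent.R286.Top.Noise
import Claimed.Agent.R286.Top.RedSk
import Claimed.Agent.Lib.PLConvex

/-!
# Row 286, unit LC (T3), file LcSk : consequences of the augmentation, the gauge pin of SK, THE EXITS      (owner: helper129)

* abstract (any probability space `γ`, `F ∈ L²` with `SkLc (law (F + 𝓔))`): `sk_lc_F_exp` (E), `sk_lc_F_up`, `sk_lc_F_logU` (U),
  `sk_lc_G_mass` (M), `sk_lc_F_lo`, `sk_lc_F_logL` (L); universal constants `skLcT`, `skLcC`, `skLcK`, `skLcc`.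
* SK: `sk_lc_convex`, gauge `skGauge`, `sk_lc_pin`, `sk_lc_sk` / `sk_lc_skc` (PE Lemma 7.6 without / with a Gaussian completion of variance `v`).
* EXITS: `sk_lc_exit_tail : SkTail β` (file RedSk), `sk_lc_exit_E`, `sk_lc_exit_U`, `sk_lc_exit_L` (completed, any `v`).
-/

set_option autoImplicit false

namespace Claimed.Agent.R286

open MeasureTheory ProbabilityTheory Filter Topology Set
open scoped ENNReal NNReal
open Claimed.Agent.PL Claims.C0461

/-- the universal exponential rate of Lemma 7.7 -/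
noncomputable def skLcT : ℝ := Real.log 3 / 8
/-- the universal bound of the exponential moment -/
noncomputable def skLcC : ℝ := 2 * Real.exp skLcT / (1 - Real.exp (skLcT - Real.log 3 / 4))

theorem sk_lc_T_pos : 0 < skLcT := by
  unfold skLcT
  have : 0 < Real.log 3 := Real.log_pos (by norm_num)
  positivity

/-- the centred exponential noise -/
theorem sk_lc_cen_int : Integrable (fun e : ℝ => e - 1) skExpM := by
  have h1 : Integrable (fun e : ℝ => e) skExpM := by simpa using (sk_lc_exp_mom 1).1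
  exact h1.sub (integrable_const _)

theorem sk_lc_cen_mean : ∫ e, (e - 1) ∂skExpM = 0 := by
  have h1 : Integrable (fun e : ℝ => e) skExpM := by simpa using (sk_lc_exp_mom 1).1
  have h2 : ∫ e, e ∂skExpM = 1 := by simpa using (sk_lc_exp_mom 1).2
  rw [integral_sub h1 (integrable_const _), h2]; simp

theorem sk_lc_cen_memLp : MemLp (fun e : ℝ => e - 1) 2 skExpM := by
  rw [memLp_two_iff_integrable_sq (by fun_prop)]
  have h1 : Integrable (fun e : ℝ => e) skExpM := by simpa using (sk_lc_exp_mom 1).1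
  have h2 := (sk_lc_exp_mom 2).1
  refine ((h2.sub (h1.const_mul 2)).add (integrable_const 1)).congr (ae_of_all _ fun e => ?_)
  simp only [Pi.add_apply, Pi.sub_apply]; ring

theorem sk_lc_cen_sq : ∫ e, (e - 1) ^ 2 ∂skExpM = 1 := by
  have h1 : Integrable (fun e : ℝ => e) skExpM := by simpa using (sk_lc_exp_mom 1).1
  have h1' : ∫ e, e ∂skExpM = 1 := by simpa using (sk_lc_exp_mom 1).2
  have h2 := (sk_lc_exp_mom 2).1
  have h2' : ∫ e, e ^ 2 ∂skExpM = 2 := by simpa [Nat.factorial] using (sk_lc_exp_mom 2).2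
  have e : ∀ e : ℝ, (e - 1) ^ 2 = e ^ 2 - 2 * e + 1 := fun e => by ring
  simp only [e]
  have i1 : Integrable (fun e : ℝ => e ^ 2 - 2 * e) skExpM := h2.sub (h1.const_mul 2)
  rw [integral_add i1 (integrable_const _), integral_sub h2 (h1.const_mul 2), integral_const_mul, h1', h2']
  simp

theorem sk_lc_cen_mgf {t : ℝ} (ht : t < 1) : Integrable (fun e => Real.exp (t * (e - 1))) skExpM ∧
    ∫ e, Real.exp (t * (e - 1)) ∂skExpM = Real.exp (-t) / (1 - t) := by
  have e : (fun e : ℝ => Real.exp (t * (e - 1))) = fun e => Real.exp (-t) * Real.exp (t * e) := by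
    funext e
    rw [← Real.exp_add]; congr 1; ring
  rw [e]
  refine ⟨(sk_lc_exp_mgf ht).1.const_mul _, ?_⟩
  rw [integral_const_mul, (sk_lc_exp_mgf ht).2]; ring

section cons

variable {E : Type*} [MeasurableSpace E] {γ : Measure E} [IsProbabilityMeasure γ] {F : E → ℝ}

/-- second moment of the centred augmented variable -/
theorem sk_lc_G_sq (hF2 : MemLp F 2 γ) :
    Integrable (fun w : E × ℝ => ((F w.1 - ∫ g, F g ∂γ) + (w.2 - 1)) ^ 2) (γ.prod skExpM) ∧
      ∫ w : E × ℝ, ((F w.1 - ∫ g, F g ∂γ) + (w.2 - 1)) ^ 2 ∂(γ.prod skExpM) = Var[F; γ] + 1 := by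
  have hX : MemLp (fun g => F g - ∫ g, F g ∂γ) 2 γ := hF2.sub (memLp_const _)
  have h := sk_noise_sq_add γ skExpM (fun g => F g - ∫ g, F g ∂γ) (fun e : ℝ => e - 1) hX sk_lc_cen_memLp
  refine ⟨h.1, ?_⟩
  rw [h.2, sk_lc_cen_mean, sk_lc_cen_sq, variance_eq_integral hF2.aestronglyMeasurable.aemeasurable]
  ring

/-- **exponential moment of the centred augmented variable** on the scale of its standard deviation -/
theorem sk_lc_G_exp (hFm : Measurable F) (hF2 : MemLp F 2 γ) (hlc : SkLc ((γ.prod skExpM).map (fun w => F w.1 + w.2))) :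
    Integrable (fun w : E × ℝ => Real.exp (skLcT / Real.sqrt (Var[F; γ] + 1) * |(F w.1 - ∫ g, F g ∂γ) + (w.2 - 1)|)) (γ.prod skExpM) ∧
      ∫ w : E × ℝ, Real.exp (skLcT / Real.sqrt (Var[F; γ] + 1) * |(F w.1 - ∫ g, F g ∂γ) + (w.2 - 1)|) ∂(γ.prod skExpM) ≤ skLcC := by
  have hGm : Measurable (fun w : E × ℝ => F w.1 + w.2) := (hFm.comp measurable_fst).add measurable_snd
  have : IsProbabilityMeasure ((γ.prod skExpM).map (fun w => F w.1 + w.2)) := Measure.isProbabilityMeasure_map hGm.aemeasurable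
  set V := Var[F; γ] with hV
  have hV0 : 0 ≤ V := variance_nonneg _ _
  set s := Real.sqrt (V + 1) with hs
  have hs0 : 0 < s := Real.sqrt_pos.2 (by linarith)
  have hs2 : s ^ 2 = V + 1 := Real.sq_sqrt (by linarith)
  set m := (∫ g, F g ∂γ) + 1 with hm
  obtain ⟨hi, hv⟩ := sk_lc_G_sq hF2
  -- Chebyshev
  have hch : (γ.prod skExpM).real {w : E × ℝ | 4 * s ^ 2 ≤ ((F w.1 - ∫ g, F g ∂γ) + (w.2 - 1)) ^ 2} ≤ 1 / 4 := by
    have := mul_meas_ge_le_integral_of_nonneg (μ := γ.prod skExpM) (ae_of_all _ fun w => sq_nonneg _) hi (4 * s ^ 2)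
    rw [hv, ← hs2] at this
    have h2 : 0 < s ^ 2 := by positivity
    nlinarith
  have h1 : ((γ.prod skExpM).map (fun w => F w.1 + w.2)).real (Ici (m + 2 * s)) ≤ 1 / 4 := by
    rw [map_measureReal_apply hGm measurableSet_Ici]
    refine le_trans (measureReal_mono fun w hw => ?_) hch
    have hw' : m + 2 * s ≤ F w.1 + w.2 := hw
    show 4 * s ^ 2 ≤ ((F w.1 - ∫ g, F g ∂γ) + (w.2 - 1)) ^ 2
    have : 2 * s ≤ (F w.1 - ∫ g, F g ∂γ) + (w.2 - 1) := by rw [hm] at hw'; linarith
    nlinarith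
  have h2 : ((γ.prod skExpM).map (fun w => F w.1 + w.2)).real (Iic (m - 2 * s)) ≤ 1 / 4 := by
    rw [map_measureReal_apply hGm measurableSet_Iic]
    refine le_trans (measureReal_mono fun w hw => ?_) hch
    have hw' : F w.1 + w.2 ≤ m - 2 * s := hw
    show 4 * s ^ 2 ≤ ((F w.1 - ∫ g, F g ∂γ) + (w.2 - 1)) ^ 2
    have : (F w.1 - ∫ g, F g ∂γ) + (w.2 - 1) ≤ -(2 * s) := by rw [hm] at hw'; linarith
    nlinarith
  have hlog : 0 < Real.log 3 := Real.log_pos (by norm_num)
  have key := sk_lc_exp_of_tail (μ := (γ.prod skExpM).map (fun w => F w.1 + w.2)) (m := m) (s := s) (h := Real.log 3 / 4) (θ := skLcT)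
    hs0 sk_lc_T_pos.le (by unfold skLcT; linarith) (fun t _ => sk_lc_tail hlc h1 h2 t)
  have hcm : AEStronglyMeasurable (fun x : ℝ => Real.exp (skLcT * (|x - m| / s))) ((γ.prod skExpM).map (fun w => F w.1 + w.2)) := by
    fun_prop
  have e : ∀ w : E × ℝ, Real.exp (skLcT / s * |(F w.1 - ∫ g, F g ∂γ) + (w.2 - 1)|) = Real.exp (skLcT * (|(F w.1 + w.2) - m| / s)) := by
    intro w
    have : (F w.1 - ∫ g, F g ∂γ) + (w.2 - 1) = (F w.1 + w.2) - m := by rw [hm]; ring
    rw [this]; congr 1; ring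
  simp only [e]
  refine ⟨(integrable_map_measure hcm hGm.aemeasurable).1 key.1, ?_⟩
  have := key.2
  rw [integral_map hGm.aemeasurable hcm] at this
  exact this

/-- **(E)** exponential moment of the centred variable `F` itself (Jensen removes the noise) -/
theorem sk_lc_F_exp (hFm : Measurable F) (hF2 : MemLp F 2 γ) (hlc : SkLc ((γ.prod skExpM).map (fun w => F w.1 + w.2))) :
    Integrable (fun g => Real.exp (skLcT / Real.sqrt (Var[F; γ] + 1) * |F g - ∫ g, F g ∂γ|)) γ ∧
      ∫ g, Real.exp (skLcT / Real.sqrt (Var[F; γ] + 1) * |F g - ∫ g, F g ∂γ|) ∂γ ≤ skLcC := by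
  obtain ⟨h1, h2⟩ := sk_lc_G_exp hFm hF2 hlc
  have hV0 : 0 ≤ Var[F; γ] := variance_nonneg _ _
  have := sk_noise_jensen' γ skExpM (fun g => F g - ∫ g, F g ∂γ) (fun e : ℝ => e - 1) (hFm.sub_const _).aemeasurable sk_lc_cen_int
    sk_lc_cen_mean (skLcT / Real.sqrt (Var[F; γ] + 1)) (div_nonneg sk_lc_T_pos.le (Real.sqrt_nonneg _)) h1
  exact ⟨this.1, this.2.trans h2⟩

/-- **(U)** small Laplace parameters -/
theorem sk_lc_F_up (hFm : Measurable F) (hF2 : MemLp F 2 γ) (hlc : SkLc ((γ.prod skExpM).map (fun w => F w.1 + w.2))) {t : ℝ}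
    (ht : |t| * Real.sqrt (Var[F; γ] + 1) ≤ skLcT / 2) :
    Integrable (fun g => Real.exp (t * (F g - ∫ g, F g ∂γ))) γ ∧
      ∫ g, Real.exp (t * (F g - ∫ g, F g ∂γ)) ∂γ ≤ 1 + 8 * skLcC / skLcT ^ 2 * (t ^ 2 * (Var[F; γ] + 1)) := by
  obtain ⟨h1, h2⟩ := sk_lc_F_exp hFm hF2 hlc
  have hV0 : 0 ≤ Var[F; γ] := variance_nonneg _ _
  set s := Real.sqrt (Var[F; γ] + 1) with hs
  have hs0 : 0 < s := Real.sqrt_pos.2 (by linarith)
  have hs2 : s ^ 2 = Var[F; γ] + 1 := Real.sq_sqrt (by linarith)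
  have hθ : 0 < skLcT / s := div_pos sk_lc_T_pos hs0
  have h0 : ∫ g, (F g - ∫ g, F g ∂γ) ∂γ = 0 := by
    rw [integral_sub (hF2.integrable one_le_two) (integrable_const _)]; simp
  have := sk_lc_lap_up (P := γ) (Z := fun g => F g - ∫ g, F g ∂γ) (θ := skLcT / s) (C0 := skLcC) (r := t) (hFm.sub_const _).aemeasurable hθ h1 h2 h0
    (by rw [div_div, mul_comm s, ← div_div, le_div_iff₀ hs0]; exact ht)
  refine ⟨this.1, this.2.trans (le_of_eq ?_)⟩
  rw [← hs2]
  field_simp

/-- the constant `K` of the fourth moment -/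
noncomputable def skLcK : ℝ := 1 + 48 * skLcC / skLcT ^ 4

/-- **(M)** the positive side of the centred augmented variable has mass -/
theorem sk_lc_G_mass (hFm : Measurable F) (hF2 : MemLp F 2 γ) (hlc : SkLc ((γ.prod skExpM).map (fun w => F w.1 + w.2))) :
    1 / (32 * skLcK ^ 2) ≤ (γ.prod skExpM).real
      {w : E × ℝ | 1 / (16 * skLcK) * Real.sqrt (Var[F; γ] + 1) ≤ (F w.1 - ∫ g, F g ∂γ) + (w.2 - 1)} := by
  obtain ⟨h1, h2⟩ := sk_lc_G_exp hFm hF2 hlc
  obtain ⟨hi, hv⟩ := sk_lc_G_sq hF2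
  have hV0 : 0 ≤ Var[F; γ] := variance_nonneg _ _
  set s := Real.sqrt (Var[F; γ] + 1) with hs
  have hs0 : 0 < s := Real.sqrt_pos.2 (by linarith)
  have hs2 : s ^ 2 = Var[F; γ] + 1 := Real.sq_sqrt (by linarith)
  set Z : E × ℝ → ℝ := fun w => ((F w.1 - ∫ g, F g ∂γ) + (w.2 - 1)) / s with hZ
  have hZm : Measurable Z := (((hFm.comp measurable_fst).sub_const _).add (measurable_snd.sub_const _)).div_const _
  have e1 : ∀ w, Real.exp (skLcT * |Z w|) = Real.exp (skLcT / s * |(F w.1 - ∫ g, F g ∂γ) + (w.2 - 1)|) := by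
    intro w
    rw [hZ]; simp only
    rw [abs_div, abs_of_pos hs0]; congr 1; ring
  have hE : Integrable (fun w => Real.exp (skLcT * |Z w|)) (γ.prod skExpM) := by simpa only [e1] using h1
  have hEC : ∫ w, Real.exp (skLcT * |Z w|) ∂(γ.prod skExpM) ≤ skLcC := by simpa only [e1] using h2
  have hC0 : 0 ≤ skLcC := le_trans (integral_nonneg fun w => (Real.exp_pos _).le) hEC
  have hK1 : 1 ≤ skLcK := by
    unfold skLcK
    have : 0 ≤ 48 * skLcC / skLcT ^ 4 := by have := sk_lc_T_pos; positivity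
    linarith
  have hK0 : 0 < skLcK := by linarith
  have h4 : ∫ w, Z w ^ 4 ∂(γ.prod skExpM) ≤ skLcK ^ 2 / 2 := by
    have h := sk_lc_mom_le hZm.aemeasurable sk_lc_T_pos hE hEC 4
    have e4 : ∀ w, |Z w| ^ 4 = Z w ^ 4 := fun w => by
      rw [show (4 : ℕ) = 2 * 2 from rfl, pow_mul, pow_mul, sq_abs]
    simp only [e4] at h
    refine h.trans ?_
    have h5 : ((Nat.factorial 4 : ℕ) : ℝ) / skLcT ^ 4 * skLcC = (skLcK - 1) / 2 := by
      unfold skLcK; simp only [Nat.factorial]; push_cast; ring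
    rw [h5]
    nlinarith
  have hm0 : ∫ w, Z w ∂(γ.prod skExpM) = 0 := by
    rw [hZ, integral_div, sk_noise_mean_add γ skExpM (fun g => F g - ∫ g, F g ∂γ) (fun e : ℝ => e - 1)
      ((hF2.integrable one_le_two).sub (integrable_const _)) sk_lc_cen_int, sk_lc_cen_mean,
      integral_sub (hF2.integrable one_le_two) (integrable_const _)]
    simp
  have hm2 : ∫ w, Z w ^ 2 ∂(γ.prod skExpM) = 1 := by
    have e2 : ∀ w, Z w ^ 2 = ((F w.1 - ∫ g, F g ∂γ) + (w.2 - 1)) ^ 2 / s ^ 2 := fun w => by rw [hZ]; simp only; rw [div_pow]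
    simp only [e2]
    rw [integral_div, hv, hs2]
    exact div_self (by linarith)
  have := sk_lc_mass (P := γ.prod skExpM) hZm.aemeasurable hK0 (sk_lc_int_pow hZm.aemeasurable sk_lc_T_pos hE 4)
    (sk_lc_int_pow hZm.aemeasurable sk_lc_T_pos hE 2) (by simpa using sk_lc_int_pow hZm.aemeasurable sk_lc_T_pos hE 1) h4 hm0 hm2
  refine this.trans (le_of_eq ?_)
  congr 1
  ext w
  simp only [Set.mem_ofPred_eq, hZ]
  rw [le_div_iff₀ hs0]

/-- **(L)** lower bound of the Laplace transform of `F` at positive parameters `t < 1` -/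
theorem sk_lc_F_lo (hFm : Measurable F) (hF2 : MemLp F 2 γ) (hlc : SkLc ((γ.prod skExpM).map (fun w => F w.1 + w.2))) {t : ℝ}
    (ht0 : 0 ≤ t) (ht1 : t < 1) (hint : Integrable (fun g => Real.exp (t * (F g - ∫ g, F g ∂γ))) γ) :
    1 / (32 * skLcK ^ 2) * Real.exp (t * (1 / (16 * skLcK) * Real.sqrt (Var[F; γ] + 1))) ≤
      (∫ g, Real.exp (t * (F g - ∫ g, F g ∂γ)) ∂γ) * (Real.exp (-t) / (1 - t)) := by
  have hM := sk_lc_G_mass hFm hF2 hlc
  set a := 1 / (16 * skLcK) * Real.sqrt (Var[F; γ] + 1) with ha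
  have hI := sk_noise_integrable_mgf_add γ skExpM (fun g => F g - ∫ g, F g ∂γ) (fun e : ℝ => e - 1) t hint (sk_lc_cen_mgf ht1).1
  have h1 := mul_meas_ge_le_integral_of_nonneg (μ := γ.prod skExpM) (ae_of_all _ fun w => (Real.exp_pos _).le) hI (Real.exp (t * a))
  have h2 := sk_noise_mgf_add γ skExpM (fun g => F g - ∫ g, F g ∂γ) (fun e : ℝ => e - 1) t
  rw [h2, (sk_lc_cen_mgf ht1).2] at h1
  refine le_trans ?_ h1
  rw [mul_comm]
  refine mul_le_mul_of_nonneg_left (hM.trans (measureReal_mono fun w hw => ?_)) (Real.exp_pos _).le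
  exact Real.exp_le_exp.2 (mul_le_mul_of_nonneg_left hw ht0)

/-- the universal small constant -/
noncomputable def skLcc : ℝ := min (skLcT / 2) (1 / (32 * skLcK ^ 2))

theorem sk_lc_C_nonneg : 0 ≤ skLcC := by
  unfold skLcC
  have h : Real.exp (skLcT - Real.log 3 / 4) < 1 := by
    rw [Real.exp_lt_one_iff]
    have : 0 < Real.log 3 := Real.log_pos (by norm_num)
    unfold skLcT; linarith
  have : 0 < 1 - Real.exp (skLcT - Real.log 3 / 4) := by linarith
  positivity

theorem sk_lc_K_ge : 1 ≤ skLcK := by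
  unfold skLcK
  have : 0 ≤ 48 * skLcC / skLcT ^ 4 := by
    have := sk_lc_T_pos
    have := sk_lc_C_nonneg
    positivity
  linarith

theorem sk_lc_c_pos : 0 < skLcc := by
  unfold skLcc
  have := sk_lc_T_pos
  have := sk_lc_K_ge
  exact lt_min (by positivity) (by positivity)

/-- **(U)** in logarithmic form -/
theorem sk_lc_F_logU (hFm : Measurable F) (hF2 : MemLp F 2 γ) (hlc : SkLc ((γ.prod skExpM).map (fun w => F w.1 + w.2))) {t : ℝ}
    (ht0 : 0 ≤ t) (ht : t * Real.sqrt (Var[F; γ] + 1) ≤ skLcc) :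
    Real.log (∫ g, Real.exp (t * (F g - ∫ g, F g ∂γ)) ∂γ) ≤ 8 * skLcC / skLcT ^ 2 * t ^ 2 * Real.sqrt (Var[F; γ] + 1) ^ 2 := by
  have hV0 : 0 ≤ Var[F; γ] := variance_nonneg _ _
  obtain ⟨h1, h2⟩ := sk_lc_F_up hFm hF2 hlc (t := t) (by rw [abs_of_nonneg ht0]; exact ht.trans (min_le_left _ _))
  have hpos : 0 < ∫ g, Real.exp (t * (F g - ∫ g, F g ∂γ)) ∂γ := integral_exp_pos h1
  rw [Real.sq_sqrt (by linarith)]
  have := Real.log_le_sub_one_of_pos hpos
  linarith

/-- **(L)** in logarithmic form -/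
theorem sk_lc_F_logL (hFm : Measurable F) (hF2 : MemLp F 2 γ) (hlc : SkLc ((γ.prod skExpM).map (fun w => F w.1 + w.2))) {t : ℝ}
    (ht0 : 0 ≤ t) (ht1 : t < 1) (hint : Integrable (fun g => Real.exp (t * (F g - ∫ g, F g ∂γ))) γ) :
    skLcc * t * Real.sqrt (Var[F; γ] + 1) + Real.log skLcc ≤
      Real.log (∫ g, Real.exp (t * (F g - ∫ g, F g ∂γ)) ∂γ) - t - Real.log (1 - t) := by
  have h := sk_lc_F_lo hFm hF2 hlc ht0 ht1 hint
  have hpos : 0 < ∫ g, Real.exp (t * (F g - ∫ g, F g ∂γ)) ∂γ := integral_exp_pos hint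
  have hK := sk_lc_K_ge
  have hK0 : 0 < skLcK := by linarith
  have h1t : 0 < 1 - t := by linarith
  set s := Real.sqrt (Var[F; γ] + 1) with hs
  have hs0 : 0 ≤ s := Real.sqrt_nonneg _
  have hl := Real.log_le_log (by positivity) h
  rw [Real.log_mul (by positivity) (Real.exp_pos _).ne', Real.log_exp, Real.log_mul hpos.ne' (by positivity),
    Real.log_div (Real.exp_pos _).ne' h1t.ne', Real.log_exp] at hl
  have h2 : Real.log skLcc ≤ Real.log (1 / (32 * skLcK ^ 2)) := Real.log_le_log sk_lc_c_pos (min_le_right _ _)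
  have h3 : skLcc ≤ 1 / (16 * skLcK) := by
    refine (min_le_right _ _).trans ?_
    rw [div_le_div_iff₀ (by positivity) (by positivity)]
    nlinarith
  have h4 : skLcc * t * s ≤ t * (1 / (16 * skLcK) * s) := by
    have := mul_le_mul_of_nonneg_right h3 (mul_nonneg ht0 hs0)
    nlinarith
  linarith

end cons

/-! ## the SK free energy -/

/-- the Hamiltonian is linear in the couplings -/
theorem sk_lc_ham_lin (β : ℝ) (n : ℕ) (σ : Fin n → Bool) (a b : ℝ) (x y : SKPair n → ℝ) :
    skFixHam β n (a • x + b • y) σ = a * skFixHam β n x σ + b * skFixHam β n y σ := by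
  unfold skFixHam
  simp only [Pi.add_apply, Pi.smul_apply, smul_eq_mul]
  rw [mul_left_comm a, mul_left_comm b, ← mul_add, Finset.mul_sum (a := a), Finset.mul_sum (a := b), ← Finset.sum_add_distrib]
  congr 1
  refine Finset.sum_congr rfl fun p _ => ?_
  ring

/-- the free energy is convex in the couplings -/
theorem sk_lc_convex (β : ℝ) (n : ℕ) : ConvexOn ℝ univ (skLogPartition β n) := by
  have h := pl_log_integral_exp_convexOn (E := SKPair n → ℝ) (α := Fin n → Bool) (ν := Measure.count) (s := univ)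
    (C := fun g σ => skFixHam β n g σ) (by
      intro h0
      have := congrArg (fun m : Measure (Fin n → Bool) => m univ) h0
      simp at this) convex_univ
    (fun σ => ⟨convex_univ, fun x _ y _ a b _ _ _ => by
      simp only [smul_eq_mul]; rw [sk_lc_ham_lin]⟩)
    (fun g _ => Integrable.of_finite)
  simpa only [integral_count, ← sk_fix_log_eq] using h

/-- product of two spin configurations -/
def skSpMul {n : ℕ} (σ τ : Fin n → Bool) : Fin n → Bool := fun i => σ i == τ i

theorem sk_lc_spin_mul (a b : Bool) : pmSpin (a == b) = pmSpin a * pmSpin b := by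
  cases a <;> cases b <;> simp [pmSpin]

theorem sk_lc_spMul_invol {n : ℕ} (τ : Fin n → Bool) : Function.Involutive fun σ : Fin n → Bool => skSpMul σ τ := by
  intro σ
  funext i
  simp only [skSpMul]
  cases σ i <;> cases τ i <;> rfl

/-- the gauge transformation -/
def skGauge {n : ℕ} (τ : Fin n → Bool) (g : SKPair n → ℝ) : SKPair n → ℝ := fun p => (pmSpin (τ p.1.1) * pmSpin (τ p.1.2)) * g p

theorem sk_lc_gauge_mp {n : ℕ} (τ : Fin n → Bool) : MeasurePreserving (skGauge τ) (skDisorder n) (skDisorder n) := by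
  unfold skDisorder
  refine measurePreserving_pi (fun _ : SKPair n => gaussianReal 0 1) (fun _ : SKPair n => gaussianReal 0 1)
    (f := fun p x => (pmSpin (τ p.1.1) * pmSpin (τ p.1.2)) * x) fun p => ⟨by fun_prop, ?_⟩
  rw [gaussianReal_map_const_mul]
  congr 1
  · simp
  · have : (pmSpin (τ p.1.1) * pmSpin (τ p.1.2)) ^ 2 = 1 := by
      cases τ p.1.1 <;> cases τ p.1.2 <;> simp [pmSpin]
    ext
    simp [this]

theorem sk_lc_gauge_ham (β : ℝ) (n : ℕ) (τ σ : Fin n → Bool) (g : SKPair n → ℝ) :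
    skFixHam β n (skGauge τ g) σ = skFixHam β n g (skSpMul σ τ) := by
  unfold skFixHam skGauge skSpMul
  congr 1
  refine Finset.sum_congr rfl fun p _ => ?_
  rw [sk_lc_spin_mul, sk_lc_spin_mul]
  ring

theorem sk_lc_gauge_F (β : ℝ) (n : ℕ) (τ : Fin n → Bool) (g : SKPair n → ℝ) :
    skLogPartition β n (skGauge τ g) = skLogPartition β n g := by
  rw [sk_fix_log_eq, sk_fix_log_eq]
  congr 1
  simp only [sk_lc_gauge_ham]
  exact Equiv.sum_comp (sk_lc_spMul_invol τ).toPerm fun σ => Real.exp (skFixHam β n g σ)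

/-- the reference configuration -/
def skSpOne (n : ℕ) : Fin n → Bool := fun _ => true

theorem sk_lc_spMul_self {n : ℕ} (σ : Fin n → Bool) : skSpMul σ σ = skSpOne n := by
  funext i
  simp [skSpMul, skSpOne]

/-- the potential of the pinned law -/
noncomputable def skPinU (β : ℝ) (n : ℕ) (g : SKPair n → ℝ) : ℝ :=
  skLogPartition β n g - skFixHam β n g (skSpOne n) - n * Real.log 2

theorem sk_lc_ham_cont (β : ℝ) (n : ℕ) (σ : Fin n → Bool) : Continuous fun g : SKPair n → ℝ => skFixHam β n g σ := by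
  unfold skFixHam
  fun_prop

/-- **the pin**: the Gibbs weight of one configuration, times `2^n`, does not change the law of the free energy (gauge symmetry) -/
theorem sk_lc_pin (β : ℝ) (n : ℕ) (Φ : ℝ → ℝ≥0∞) (hΦ : Measurable Φ) :
    ∫⁻ g, Φ (skLogPartition β n g) ∂skDisorder n =
      ∫⁻ g, ENNReal.ofReal (Real.exp (-skPinU β n g)) * Φ (skLogPartition β n g) ∂skDisorder n := by
  have hFm : Measurable (skLogPartition β n) := (sk_fix_continuous β n).measurable
  have hHm : ∀ σ, Measurable fun g : SKPair n → ℝ => skFixHam β n g σ := fun σ => (sk_lc_ham_cont β n σ).measurable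
  have h1 : ∀ g, ∑ σ : Fin n → Bool, ENNReal.ofReal (Real.exp (skFixHam β n g σ - skLogPartition β n g)) = 1 := by
    intro g
    rw [← ENNReal.ofReal_sum_of_nonneg fun σ _ => (Real.exp_pos _).le]
    simp only [Real.exp_sub]
    rw [← Finset.sum_div, sk_fix_log_eq, Real.exp_log (sk_fix_sum_pos β n g), div_self (sk_fix_sum_pos β n g).ne']
    simp
  have h2 : ∀ σ : Fin n → Bool, ∫⁻ g, ENNReal.ofReal (Real.exp (skFixHam β n g σ - skLogPartition β n g)) * Φ (skLogPartition β n g) ∂skDisorder n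
      = ∫⁻ g, ENNReal.ofReal (Real.exp (skFixHam β n g (skSpOne n) - skLogPartition β n g)) * Φ (skLogPartition β n g) ∂skDisorder n := by
    intro σ
    have hm : Measurable fun g => ENNReal.ofReal (Real.exp (skFixHam β n g σ - skLogPartition β n g)) * Φ (skLogPartition β n g) :=
      (((hHm σ).sub hFm).exp.ennreal_ofReal).mul (hΦ.comp hFm)
    rw [← (sk_lc_gauge_mp σ).lintegral_comp hm]
    simp only [sk_lc_gauge_ham, sk_lc_gauge_F, sk_lc_spMul_self]
  calc ∫⁻ g, Φ (skLogPartition β n g) ∂skDisorder n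
      = ∫⁻ g, ∑ σ : Fin n → Bool, ENNReal.ofReal (Real.exp (skFixHam β n g σ - skLogPartition β n g)) * Φ (skLogPartition β n g) ∂skDisorder n := by
        refine lintegral_congr fun g => ?_
        rw [← Finset.sum_mul, h1, one_mul]
    _ = ∑ σ : Fin n → Bool, ∫⁻ g, ENNReal.ofReal (Real.exp (skFixHam β n g σ - skLogPartition β n g)) * Φ (skLogPartition β n g) ∂skDisorder n := by
        rw [lintegral_finsetSum]
        intro σ _
        exact (((hHm σ).sub hFm).exp.ennreal_ofReal).mul (hΦ.comp hFm)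
    _ = (2 : ℝ≥0∞) ^ n * ∫⁻ g, ENNReal.ofReal (Real.exp (skFixHam β n g (skSpOne n) - skLogPartition β n g)) * Φ (skLogPartition β n g) ∂skDisorder n := by
        simp only [h2]
        rw [Finset.sum_const, Finset.card_univ, nsmul_eq_mul]
        simp
    _ = ∫⁻ g, ENNReal.ofReal (Real.exp (-skPinU β n g)) * Φ (skLogPartition β n g) ∂skDisorder n := by
        have hm : Measurable fun g => ENNReal.ofReal (Real.exp (skFixHam β n g (skSpOne n) - skLogPartition β n g)) * Φ (skLogPartition β n g) :=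
          (((hHm _).sub hFm).exp.ennreal_ofReal).mul (hΦ.comp hFm)
        rw [← lintegral_const_mul _ hm]
        refine lintegral_congr fun g => ?_
        rw [← mul_assoc]
        congr 1
        have e : (2 : ℝ≥0∞) ^ n = ENNReal.ofReal (Real.exp (n * Real.log 2)) := by
          rw [Real.exp_nat_mul, Real.exp_log (by norm_num), ENNReal.ofReal_pow (by norm_num)]
          simp
        rw [e, ← ENNReal.ofReal_mul (Real.exp_pos _).le, ← Real.exp_add]
        congr 2
        unfold skPinU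
        ring

theorem sk_lc_pl_dis (n : ℕ) : PLProp (SKPair n → ℝ) (skDisorder n) :=
  sk_lc_pl_pi _ fun _ => sk_lc_pl_gauss 1

theorem sk_lc_pinU_meas (β : ℝ) (n : ℕ) : Measurable (skPinU β n) := by
  unfold skPinU
  exact (((sk_fix_continuous β n).measurable).sub (sk_lc_ham_cont β n _).measurable).sub_const _

/-- **PE Lemma 7.6** without completion -/
theorem sk_lc_sk (β : ℝ) (n : ℕ) : SkLc (((skDisorder n).prod skExpM).map (fun w => skLogPartition β n w.1 + w.2)) := by
  refine sk_lc_aug (sk_lc_pl_dis n) (sk_fix_continuous β n).measurable (sk_lc_pinU_meas β n) (sk_lc_convex β n) ?_ (sk_lc_pin β n)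
  refine ⟨convex_univ, fun x _ y _ a b _ _ hab => le_of_eq ?_⟩
  simp only [skPinU, smul_eq_mul]
  rw [sk_lc_ham_lin]
  have : (n : ℝ) * Real.log 2 = (a + b) * (n * Real.log 2) := by rw [hab, one_mul]
  linear_combination (-1 : ℝ) * this

/-- **PE Lemma 7.6** with an independent Gaussian completion of variance `v` -/
theorem sk_lc_skc (β : ℝ) (n : ℕ) (v : ℝ≥0) :
    SkLc ((((skDisorder n).prod (gaussianReal 0 v)).prod skExpM).map (fun w => (skLogPartition β n w.1.1 + w.1.2) + w.2)) := by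
  have hFm : Measurable (skLogPartition β n) := (sk_fix_continuous β n).measurable
  refine sk_lc_aug (E := (SKPair n → ℝ) × ℝ) (F := fun w => skLogPartition β n w.1 + w.2) (U := fun w => skPinU β n w.1)
    ((sk_lc_pl_dis n).prod (sk_lc_pl_gauss v)) ((hFm.comp measurable_fst).add measurable_snd)
    ((sk_lc_pinU_meas β n).comp measurable_fst) ?_ ?_ ?_
  · refine ⟨convex_univ, fun x _ y _ a b ha hb hab => ?_⟩
    have := (sk_lc_convex β n).2 (mem_univ x.1) (mem_univ y.1) ha hb hab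
    simp only [smul_eq_mul, Prod.fst_add, Prod.snd_add, Prod.smul_fst, Prod.smul_snd] at this ⊢
    linarith
  · refine ⟨convex_univ, fun x _ y _ a b _ _ hab => le_of_eq ?_⟩
    simp only [skPinU, smul_eq_mul, Prod.fst_add, Prod.snd_add, Prod.smul_fst, Prod.smul_snd]
    rw [sk_lc_ham_lin]
    have : (n : ℝ) * Real.log 2 = (a + b) * (n * Real.log 2) := by rw [hab, one_mul]
    linear_combination (-1 : ℝ) * this
  · intro Φ hΦ
    have m1 : Measurable fun w : (SKPair n → ℝ) × ℝ => Φ (skLogPartition β n w.1 + w.2) :=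
      hΦ.comp ((hFm.comp measurable_fst).add measurable_snd)
    have m2 : Measurable fun w : (SKPair n → ℝ) × ℝ => ENNReal.ofReal (Real.exp (-skPinU β n w.1)) * Φ (skLogPartition β n w.1 + w.2) :=
      (((sk_lc_pinU_meas β n).comp measurable_fst).neg.exp.ennreal_ofReal).mul m1
    rw [lintegral_prod_symm' _ m1, lintegral_prod_symm' _ m2]
    refine lintegral_congr fun z => ?_
    exact sk_lc_pin β n (fun y => Φ (y + z)) (hΦ.comp (measurable_id.add_const z))

/-! ## the exits -/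

/-- **EXIT (E)**, frozen objects only: `SkTail β` of file RedSk, for every real `β` -/
theorem sk_lc_exit_tail' (β : ℝ) (n : ℕ) :
    Integrable (fun g => Real.exp (skLcT * |skCen β n g| / Real.sqrt (skVariance β n + 1))) (skDisorder n) ∧
      ∫ g, Real.exp (skLcT * |skCen β n g| / Real.sqrt (skVariance β n + 1)) ∂skDisorder n ≤ skLcC := by
  have h := sk_lc_F_exp (γ := skDisorder n) (sk_fix_continuous β n).measurable (sk_fix_memLp β n 2) (sk_lc_sk β n)
  have e : ∀ g, Real.exp (skLcT * |skCen β n g| / Real.sqrt (skVariance β n + 1)) =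
      Real.exp (skLcT / Real.sqrt (Var[skLogPartition β n; skDisorder n] + 1) * |skLogPartition β n g - ∫ g, skLogPartition β n g ∂skDisorder n|) := by
    intro g
    unfold skCen skVariance
    congr 1; ring
  simp only [e]
  exact h

theorem sk_lc_exit_tail (β : ℝ) : SkTail β :=
  ⟨skLcT, skLcC, sk_lc_T_pos, fun n _ => (sk_lc_exit_tail' β n).2⟩

section completed

variable (β : ℝ) (n : ℕ) (v : ℝ≥0)

theorem sk_lc_c_meas : Measurable fun w : (SKPair n → ℝ) × ℝ => skLogPartition β n w.1 + w.2 :=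
  ((sk_fix_continuous β n).measurable.comp measurable_fst).add measurable_snd

theorem sk_lc_c_memLp : MemLp (fun w : (SKPair n → ℝ) × ℝ => skLogPartition β n w.1 + w.2) 2 ((skDisorder n).prod (gaussianReal 0 v)) :=
  sk_noise_memLp_add (skDisorder n) (gaussianReal 0 v) (skLogPartition β n) (fun z : ℝ => z) (sk_fix_memLp β n 2) (memLp_id_gaussianReal 2)

theorem sk_lc_c_int_exp (t c : ℝ) :
    Integrable (fun w : (SKPair n → ℝ) × ℝ => Real.exp (t * ((skLogPartition β n w.1 + w.2) - c))) ((skDisorder n).prod (gaussianReal 0 v)) := by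
  have h1 : Integrable (fun g => Real.exp (t * skLogPartition β n g)) (skDisorder n) := by
    refine (sk_fix_exp β n |t|).mono' (by have := sk_fix_continuous β n; fun_prop) (ae_of_all _ fun g => ?_)
    rw [Real.norm_eq_abs, abs_of_pos (Real.exp_pos _)]
    refine Real.exp_le_exp.2 ?_
    rw [← abs_mul]
    exact le_abs_self _
  have h2 : Integrable (fun z : ℝ => Real.exp (t * z)) (gaussianReal 0 v) := integrable_exp_mul_gaussianReal t
  refine ((sk_noise_integrable_mgf_add (skDisorder n) (gaussianReal 0 v) (skLogPartition β n) (fun z : ℝ => z) t h1 h2).const_mul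
    (Real.exp (-(t * c)))).congr (ae_of_all _ fun w => ?_)
  simp only
  rw [← Real.exp_add]; congr 1; ring

/-- **EXIT (E)**, completed model -/
theorem sk_lc_exit_E :
    Integrable (fun w : (SKPair n → ℝ) × ℝ => Real.exp (skLcT / Real.sqrt (Var[fun w : (SKPair n → ℝ) × ℝ => skLogPartition β n w.1 + w.2; (skDisorder n).prod (gaussianReal 0 v)] + 1) *
        |(skLogPartition β n w.1 + w.2) - ∫ w : (SKPair n → ℝ) × ℝ, (skLogPartition β n w.1 + w.2) ∂((skDisorder n).prod (gaussianReal 0 v))|))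
        ((skDisorder n).prod (gaussianReal 0 v)) ∧
      ∫ w : (SKPair n → ℝ) × ℝ, Real.exp (skLcT / Real.sqrt (Var[fun w : (SKPair n → ℝ) × ℝ => skLogPartition β n w.1 + w.2; (skDisorder n).prod (gaussianReal 0 v)] + 1) *
        |(skLogPartition β n w.1 + w.2) - ∫ w : (SKPair n → ℝ) × ℝ, (skLogPartition β n w.1 + w.2) ∂((skDisorder n).prod (gaussianReal 0 v))|)
        ∂((skDisorder n).prod (gaussianReal 0 v)) ≤ skLcC :=
  sk_lc_F_exp (sk_lc_c_meas β n) (sk_lc_c_memLp β n v) (sk_lc_skc β n v)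

/-- **EXIT (U)**, completed model: small positive Laplace parameters -/
theorem sk_lc_exit_U {t : ℝ} (ht0 : 0 ≤ t)
    (ht : t * Real.sqrt (Var[fun w : (SKPair n → ℝ) × ℝ => skLogPartition β n w.1 + w.2; (skDisorder n).prod (gaussianReal 0 v)] + 1) ≤ skLcc) :
    Real.log (∫ w : (SKPair n → ℝ) × ℝ, Real.exp (t * ((skLogPartition β n w.1 + w.2) -
        ∫ w : (SKPair n → ℝ) × ℝ, (skLogPartition β n w.1 + w.2) ∂((skDisorder n).prod (gaussianReal 0 v)))) ∂((skDisorder n).prod (gaussianReal 0 v))) ≤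
      8 * skLcC / skLcT ^ 2 * t ^ 2 *
        Real.sqrt (Var[fun w : (SKPair n → ℝ) × ℝ => skLogPartition β n w.1 + w.2; (skDisorder n).prod (gaussianReal 0 v)] + 1) ^ 2 :=
  sk_lc_F_logU (sk_lc_c_meas β n) (sk_lc_c_memLp β n v) (sk_lc_skc β n v) ht0 ht

/-- **EXIT (L)**, completed model: lower bound of the Laplace transform -/
theorem sk_lc_exit_L {t : ℝ} (ht0 : 0 ≤ t) (ht1 : t < 1) :
    skLcc * t * Real.sqrt (Var[fun w : (SKPair n → ℝ) × ℝ => skLogPartition β n w.1 + w.2; (skDisorder n).prod (gaussianReal 0 v)] + 1) + Real.log skLcc ≤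
      Real.log (∫ w : (SKPair n → ℝ) × ℝ, Real.exp (t * ((skLogPartition β n w.1 + w.2) -
        ∫ w : (SKPair n → ℝ) × ℝ, (skLogPartition β n w.1 + w.2) ∂((skDisorder n).prod (gaussianReal 0 v)))) ∂((skDisorder n).prod (gaussianReal 0 v))) - t - Real.log (1 - t) :=
  sk_lc_F_logL (sk_lc_c_meas β n) (sk_lc_c_memLp β n v) (sk_lc_skc β n v) ht0 ht1 (sk_lc_c_int_exp β n v t _)

/-- the variance of the completed free energy -/
theorem sk_lc_c_var : Var[fun w : (SKPair n → ℝ) × ℝ => skLogPartition β n w.1 + w.2; (skDisorder n).prod (gaussianReal 0 v)] = skVariance β n + v := by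
  rw [sk_noise_var_add (skDisorder n) (gaussianReal 0 v) (skLogPartition β n) (fun z : ℝ => z) (sk_fix_memLp β n 2) (memLp_id_gaussianReal 2)]
  unfold skVariance
  congr 1
  exact variance_id_gaussianReal

end completed

end Claimed.Agent.R286
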