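import Claimed.Agent.R286.Top.Mom
import Claimed.Agent.Lib.PLProp

/-!
# Row 286, unit LC (T3): laws with log-concave tails, exponential augmentation      (owner: helper129)

PE Lemma 7.6 (`fl:augmentation`) and Lemma 7.7 (`fl:one-dimensional`), in abstract form.

* `SkLc μ` : the two tails of the law `μ` on the line are log-concave (all that Lemma 7.7 uses for its first three bullets).
* `sk_lc_tail`, `sk_lc_exp_of_tail` : exponential tails and an exponential moment on the scale of the standard deviation.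
* `sk_lc_lap_up` : quadratic bound of the Laplace transform at small parameters.   `sk_lc_mass` : mass of the positive side.
* `sk_lc_pl_density`, `sk_lc_pl_gauss`, `sk_lc_pl_exp`, `sk_lc_pl_pi` : Prékopa–Leindler (`Claimed.Agent.PL.PLProp`) for log-concave densities,
  Gaussian laws, the exponential law `skExpM`, finite products.
* `sk_lc_aug` : the augmentation `F + 𝓔` has log-concave tails (abstract pinned form; covers LL Lemma 4.2 after scaling).
-/

set_option autoImplicit false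

namespace Claimed.Agent.R286

open MeasureTheory ProbabilityTheory Filter Topology Set
open scoped ENNReal NNReal
open Claimed.Agent.PL

/-- log-concavity of the two tails of a law on the line -/
structure SkLc (μ : Measure ℝ) : Prop where
  up : ∀ a b t : ℝ, 0 < t → t < 1 →
    μ.real (Ici a) ^ (1 - t) * μ.real (Ici b) ^ t ≤ μ.real (Ici ((1 - t) * a + t * b))
  dn : ∀ a b t : ℝ, 0 < t → t < 1 →
    μ.real (Iic a) ^ (1 - t) * μ.real (Iic b) ^ t ≤ μ.real (Iic ((1 - t) * a + t * b))

/-- the secant slope of a concave logarithm -/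
theorem sk_lc_secant {p q r t : ℝ} (hp : 0 ≤ p) (hq : 3 / 4 ≤ q) (hr : r ≤ 1 / 4) (ht : 2 < t)
    (h : q ^ (1 - 4 / (t + 2)) * p ^ (4 / (t + 2)) ≤ r) : p ≤ Real.exp (-(Real.log 3 / 4 * t)) := by
  rcases hp.eq_or_lt with rfl | hp
  · positivity
  have hq0 : 0 < q := by linarith
  have h1 := Real.log_le_log (by positivity) (h.trans hr)
  rw [Real.log_mul (by positivity) (by positivity), Real.log_rpow hq0, Real.log_rpow hp] at h1
  have h2 : Real.log (3 / 4) ≤ Real.log q := Real.log_le_log (by norm_num) hq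
  have h3 : Real.log (1 / 4) = Real.log (3 / 4) - Real.log 3 := by
    rw [← Real.log_div (by norm_num) (by norm_num)]; norm_num
  have h4 : Real.log (3 / 4) ≤ 0 := Real.log_nonpos (by norm_num) (by norm_num)
  have h6 : 0 < Real.log 3 := Real.log_pos (by norm_num)
  have ht2 : 0 < t + 2 := by linarith
  have hl1 : 0 ≤ 1 - 4 / (t + 2) := by
    rw [sub_nonneg, div_le_one ht2]; linarith
  have h5 : 4 / (t + 2) * Real.log p ≤ 4 / (t + 2) * Real.log (3 / 4) - Real.log 3 := by
    have := mul_le_mul_of_nonneg_left h2 hl1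
    nlinarith
  have h7 : Real.log p ≤ Real.log (3 / 4) - Real.log 3 * ((t + 2) / 4) := by
    have := mul_le_mul_of_nonneg_left h5 (by positivity : (0 : ℝ) ≤ (t + 2) / 4)
    have e1 : (t + 2) / 4 * (4 / (t + 2) * Real.log p) = Real.log p := by field_simp
    have e2 : (t + 2) / 4 * (4 / (t + 2) * Real.log (3 / 4) - Real.log 3) = Real.log (3 / 4) - Real.log 3 * ((t + 2) / 4) := by
      field_simp
    rw [e1, e2] at this
    exact this
  rw [← Real.log_le_iff_le_exp hp]
  nlinarith

/-- **exponential tails** of a law with log-concave tails, on any scale `s` for which the two tails at distance `2 s` have mass `≤ 1/4` -/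
theorem sk_lc_tail {μ : Measure ℝ} [IsProbabilityMeasure μ] (hμ : SkLc μ) {m s : ℝ}
    (h1 : μ.real (Ici (m + 2 * s)) ≤ 1 / 4) (h2 : μ.real (Iic (m - 2 * s)) ≤ 1 / 4) (t : ℝ) :
    μ.real {x | t * s ≤ |x - m|} ≤ 2 * Real.exp (-(Real.log 3 / 4 * t)) := by
  rcases le_or_gt t 2 with ht2 | ht2
  · have h3 : (1 : ℝ) / 2 ≤ Real.exp (-(Real.log 3 / 4 * t)) := by
      have h4 : Real.exp (-(Real.log 3 / 4 * 2)) ≤ Real.exp (-(Real.log 3 / 4 * t)) := by
        refine Real.exp_le_exp.2 ?_
        have : 0 < Real.log 3 := Real.log_pos (by norm_num)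
        nlinarith
      refine le_trans ?_ h4
      have h5 : Real.exp (-(Real.log 3 / 4 * 2)) = (Real.sqrt 3)⁻¹ := by
        rw [Real.exp_neg, Real.sqrt_eq_rpow, Real.rpow_def_of_pos (by norm_num)]
        congr 2; ring
      rw [h5, one_div]
      refine inv_anti₀ (by positivity) ?_
      rw [Real.sqrt_le_left (by norm_num)]
      norm_num
    calc μ.real {x | t * s ≤ |x - m|} ≤ 1 := measureReal_le_one
      _ ≤ 2 * Real.exp (-(Real.log 3 / 4 * t)) := by linarith
  · have ht0 : 0 < t + 2 := by linarith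
    have hl0 : 0 < 4 / (t + 2) := by positivity
    have hl1 : 4 / (t + 2) < 1 := by rw [div_lt_one ht0]; linarith
    -- the complementary tails are large
    have h3 : 3 / 4 ≤ μ.real (Ici (m - 2 * s)) := by
      have : (1 : ℝ) ≤ μ.real (Ici (m - 2 * s)) + μ.real (Iic (m - 2 * s)) := by
        have h := measureReal_union_le (μ := μ) (Ici (m - 2 * s)) (Iic (m - 2 * s))
        rw [Ici_union_Iic] at h
        simpa using h
      linarith
    have h4 : 3 / 4 ≤ μ.real (Iic (m + 2 * s)) := by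
      have : (1 : ℝ) ≤ μ.real (Ici (m + 2 * s)) + μ.real (Iic (m + 2 * s)) := by
        have h := measureReal_union_le (μ := μ) (Ici (m + 2 * s)) (Iic (m + 2 * s))
        rw [Ici_union_Iic] at h
        simpa using h
      linarith
    have e1 : (1 - 4 / (t + 2)) * (m - 2 * s) + 4 / (t + 2) * (m + t * s) = m + 2 * s := by
      field_simp; ring
    have e2 : (1 - 4 / (t + 2)) * (m + 2 * s) + 4 / (t + 2) * (m - t * s) = m - 2 * s := by
      field_simp; ring
    have u := hμ.up (m - 2 * s) (m + t * s) _ hl0 hl1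
    have d := hμ.dn (m + 2 * s) (m - t * s) _ hl0 hl1
    rw [e1] at u
    rw [e2] at d
    have u' := sk_lc_secant measureReal_nonneg h3 h1 ht2 u
    have d' := sk_lc_secant measureReal_nonneg h4 h2 ht2 d
    have hsub : {x | t * s ≤ |x - m|} ⊆ Ici (m + t * s) ∪ Iic (m - t * s) := by
      intro x hx
      have hx' : t * s ≤ |x - m| := hx
      rcases le_abs'.1 hx' with h | h
      · right; simp only [mem_Iic]; linarith
      · left; simp only [mem_Ici]; linarith
    calc μ.real {x | t * s ≤ |x - m|} ≤ μ.real (Ici (m + t * s) ∪ Iic (m - t * s)) := measureReal_mono hsub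
      _ ≤ μ.real (Ici (m + t * s)) + μ.real (Iic (m - t * s)) := measureReal_union_le _ _
      _ ≤ 2 * Real.exp (-(Real.log 3 / 4 * t)) := by linarith

/-- an exponential moment from exponential tails (discrete layer cake) -/
theorem sk_lc_exp_of_tail {μ : Measure ℝ} [IsProbabilityMeasure μ] {m s h θ : ℝ} (hs : 0 < s) (hθ0 : 0 ≤ θ) (hθ : θ < h)
    (ht : ∀ t : ℝ, 0 ≤ t → μ.real {x | t * s ≤ |x - m|} ≤ 2 * Real.exp (-(h * t))) :
    Integrable (fun x => Real.exp (θ * (|x - m| / s))) μ ∧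
      ∫ x, Real.exp (θ * (|x - m| / s)) ∂μ ≤ 2 * Real.exp θ / (1 - Real.exp (θ - h)) := by
  have hq1 : Real.exp (θ - h) < 1 := by rw [Real.exp_lt_one_iff]; linarith
  have hq0 : 0 ≤ Real.exp (θ - h) := (Real.exp_pos _).le
  have hC : 0 ≤ 2 * Real.exp θ / (1 - Real.exp (θ - h)) := by
    have : 0 < 1 - Real.exp (θ - h) := by linarith
    positivity
  have hmeas : ∀ k : ℕ, MeasurableSet {x : ℝ | (k : ℝ) * s ≤ |x - m|} := fun k =>
    measurableSet_le measurable_const (by fun_prop)
  have hsum : HasSum (fun k : ℕ => Real.exp (θ * (k + 1)) * (2 * Real.exp (-(h * k)))) (2 * Real.exp θ / (1 - Real.exp (θ - h))) := by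
    have h1 := (hasSum_geometric_of_lt_one hq0 hq1).mul_left (2 * Real.exp θ)
    have e : (fun k : ℕ => Real.exp (θ * (k + 1)) * (2 * Real.exp (-(h * k)))) = fun k : ℕ => 2 * Real.exp θ * Real.exp (θ - h) ^ k := by
      funext k
      rw [← Real.exp_nat_mul, mul_left_comm, ← Real.exp_add, mul_assoc, ← Real.exp_add]
      congr 2; ring
    rw [e, div_eq_mul_inv]
    exact h1
  have key : ∫⁻ x, ENNReal.ofReal (Real.exp (θ * (|x - m| / s))) ∂μ ≤ ENNReal.ofReal (2 * Real.exp θ / (1 - Real.exp (θ - h))) := by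
    calc ∫⁻ x, ENNReal.ofReal (Real.exp (θ * (|x - m| / s))) ∂μ
        ≤ ∫⁻ x, ∑' k : ℕ, ({x : ℝ | (k : ℝ) * s ≤ |x - m|}.indicator (fun _ => ENNReal.ofReal (Real.exp (θ * (k + 1))))) x ∂μ := by
          refine lintegral_mono fun x => ?_
          refine le_trans ?_ (ENNReal.le_tsum ⌊|x - m| / s⌋₊)
          have h0 : 0 ≤ |x - m| / s := by positivity
          have h1 : ((⌊|x - m| / s⌋₊ : ℕ) : ℝ) * s ≤ |x - m| := by
            rw [← le_div_iff₀ hs]
            exact Nat.floor_le h0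
          rw [indicator_of_mem (show x ∈ {y : ℝ | ((⌊|x - m| / s⌋₊ : ℕ) : ℝ) * s ≤ |y - m|} from h1)]
          refine ENNReal.ofReal_le_ofReal (Real.exp_le_exp.2 ?_)
          exact mul_le_mul_of_nonneg_left (Nat.lt_floor_add_one _).le hθ0
      _ = ∑' k : ℕ, ENNReal.ofReal (Real.exp (θ * (k + 1))) * μ {x : ℝ | (k : ℝ) * s ≤ |x - m|} := by
          rw [lintegral_tsum fun k => (measurable_const.indicator (hmeas k)).aemeasurable]
          refine tsum_congr fun k => ?_
          rw [lintegral_indicator (hmeas k), setLIntegral_const]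
      _ ≤ ∑' k : ℕ, ENNReal.ofReal (Real.exp (θ * (k + 1)) * (2 * Real.exp (-(h * k)))) := by
          refine ENNReal.tsum_le_tsum fun k => ?_
          rw [ENNReal.ofReal_mul (Real.exp_pos _).le]
          gcongr
          rw [← ENNReal.ofReal_toReal (measure_ne_top μ _)]
          exact ENNReal.ofReal_le_ofReal (ht k (Nat.cast_nonneg k))
      _ = ENNReal.ofReal (2 * Real.exp θ / (1 - Real.exp (θ - h))) := by
          rw [← hsum.tsum_eq, ENNReal.ofReal_tsum_of_nonneg (fun k => by positivity) hsum.summable]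
  have hint : Integrable (fun x => Real.exp (θ * (|x - m| / s))) μ := by
    refine ⟨by fun_prop, ?_⟩
    rw [hasFiniteIntegral_iff_ofReal (ae_of_all _ fun x => (Real.exp_pos _).le)]
    exact lt_of_le_of_lt key ENNReal.ofReal_lt_top
  refine ⟨hint, ?_⟩
  rw [integral_eq_lintegral_of_nonneg_ae (ae_of_all _ fun x => (Real.exp_pos _).le) (by fun_prop)]
  exact ENNReal.toReal_le_of_le_ofReal hC key

/-- second order Taylor bound of the exponential, all arguments -/
theorem sk_lc_exp_taylor (u : ℝ) : Real.exp u ≤ 1 + u + u ^ 2 * Real.exp |u| := by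
  have h1 : (1 : ℝ) ≤ Real.exp |u| := Real.one_le_exp (abs_nonneg _)
  have h2 : u ^ 2 ≤ u ^ 2 * Real.exp |u| := le_mul_of_one_le_right (sq_nonneg _) h1
  rcases le_or_gt |u| 1 with h | h
  · have := (abs_le.1 (Real.abs_exp_sub_one_sub_id_le h)).2
    linarith
  · rcases le_or_gt 0 u with h0 | h0
    · rw [abs_of_nonneg h0] at h ⊢
      have : Real.exp u ≤ u ^ 2 * Real.exp u := le_mul_of_one_le_left (Real.exp_pos _).le (by nlinarith)
      linarith
    · rw [abs_of_neg h0] at h
      have h3 : Real.exp u ≤ 1 := Real.exp_le_one_iff.2 h0.le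
      nlinarith

section omega

variable {Ω : Type*} [MeasurableSpace Ω] {P : Measure Ω} [IsProbabilityMeasure P]

omit [IsProbabilityMeasure P] in
theorem sk_lc_int_pow {Z : Ω → ℝ} {θ : ℝ} (hZ : AEMeasurable Z P) (hθ : 0 < θ) (hi : Integrable (fun ω => Real.exp (θ * |Z ω|)) P) (k : ℕ) :
    Integrable (fun ω => Z ω ^ k) P := by
  refine (hi.const_mul ((k.factorial : ℝ) / θ ^ k)).mono' (hZ.pow_const k).aestronglyMeasurable (ae_of_all _ fun x => ?_)
  rw [Real.norm_eq_abs, abs_pow]
  exact sk_mm_pow_le k hθ _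

omit [IsProbabilityMeasure P] in
theorem sk_lc_mom_le {Z : Ω → ℝ} {θ C0 : ℝ} (hZ : AEMeasurable Z P) (hθ : 0 < θ) (hi : Integrable (fun ω => Real.exp (θ * |Z ω|)) P)
    (hC : ∫ ω, Real.exp (θ * |Z ω|) ∂P ≤ C0) (k : ℕ) : ∫ ω, |Z ω| ^ k ∂P ≤ (k.factorial : ℝ) / θ ^ k * C0 := by
  calc ∫ ω, |Z ω| ^ k ∂P ≤ ∫ ω, (k.factorial : ℝ) / θ ^ k * Real.exp (θ * |Z ω|) ∂P := by
        refine integral_mono ?_ (hi.const_mul _) fun ω => sk_mm_pow_le k hθ _
        have := (sk_lc_int_pow hZ hθ hi k).abs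
        simpa only [abs_pow] using this
    _ = (k.factorial : ℝ) / θ ^ k * ∫ ω, Real.exp (θ * |Z ω|) ∂P := integral_const_mul _ _
    _ ≤ (k.factorial : ℝ) / θ ^ k * C0 := mul_le_mul_of_nonneg_left hC (by positivity)

/-- **small Laplace parameter**: quadratic bound of the Laplace transform of a centred variable with an exponential moment -/
theorem sk_lc_lap_up {Z : Ω → ℝ} {θ C0 r : ℝ} (hZ : AEMeasurable Z P) (hθ : 0 < θ) (hi : Integrable (fun ω => Real.exp (θ * |Z ω|)) P)
    (hC : ∫ ω, Real.exp (θ * |Z ω|) ∂P ≤ C0) (h0 : ∫ ω, Z ω ∂P = 0) (hr : |r| ≤ θ / 2) :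
    Integrable (fun ω => Real.exp (r * Z ω)) P ∧ ∫ ω, Real.exp (r * Z ω) ∂P ≤ 1 + 8 * C0 / θ ^ 2 * r ^ 2 := by
  have hint : Integrable (fun ω => Real.exp (r * Z ω)) P := by
    refine hi.mono' (by fun_prop) (ae_of_all _ fun ω => ?_)
    rw [Real.norm_eq_abs, abs_of_pos (Real.exp_pos _)]
    refine Real.exp_le_exp.2 ?_
    calc r * Z ω ≤ |r * Z ω| := le_abs_self _
      _ = |r| * |Z ω| := abs_mul _ _
      _ ≤ θ * |Z ω| := mul_le_mul_of_nonneg_right (by linarith) (abs_nonneg _)
  refine ⟨hint, ?_⟩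
  have hZ1 : Integrable Z P := by simpa using sk_lc_int_pow hZ hθ hi 1
  have hpt : ∀ ω, Real.exp (r * Z ω) ≤ 1 + r * Z ω + 8 / θ ^ 2 * r ^ 2 * Real.exp (θ * |Z ω|) := by
    intro ω
    have h1 := sk_lc_exp_taylor (r * Z ω)
    have h2 := sk_mm_pow_le 2 (half_pos hθ) (Z ω)
    have h3 : Real.exp |r * Z ω| ≤ Real.exp (θ / 2 * |Z ω|) := by
      refine Real.exp_le_exp.2 ?_
      rw [abs_mul]
      exact mul_le_mul_of_nonneg_right hr (abs_nonneg _)
    have h4 : Real.exp (θ * |Z ω|) = Real.exp (θ / 2 * |Z ω|) * Real.exp (θ / 2 * |Z ω|) := by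
      rw [← Real.exp_add]; congr 1; ring
    have h5 : (r * Z ω) ^ 2 * Real.exp |r * Z ω| ≤ 8 / θ ^ 2 * r ^ 2 * Real.exp (θ * |Z ω|) := by
      rw [h4]
      have h6 : (r * Z ω) ^ 2 ≤ 8 / θ ^ 2 * r ^ 2 * Real.exp (θ / 2 * |Z ω|) := by
        rw [mul_pow, ← sq_abs (Z ω)]
        have e : ((Nat.factorial 2 : ℕ) : ℝ) / (θ / 2) ^ 2 = 8 / θ ^ 2 := by
          simp only [Nat.factorial]; field_simp; norm_num
        rw [e] at h2
        have := mul_le_mul_of_nonneg_left h2 (sq_nonneg r)
        linarith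
      calc (r * Z ω) ^ 2 * Real.exp |r * Z ω| ≤ (8 / θ ^ 2 * r ^ 2 * Real.exp (θ / 2 * |Z ω|)) * Real.exp (θ / 2 * |Z ω|) :=
            mul_le_mul h6 h3 (Real.exp_pos _).le (by positivity)
        _ = 8 / θ ^ 2 * r ^ 2 * (Real.exp (θ / 2 * |Z ω|) * Real.exp (θ / 2 * |Z ω|)) := by ring
    linarith
  calc ∫ ω, Real.exp (r * Z ω) ∂P ≤ ∫ ω, (1 + r * Z ω + 8 / θ ^ 2 * r ^ 2 * Real.exp (θ * |Z ω|)) ∂P :=
        integral_mono hint (((integrable_const _).add (hZ1.const_mul _)).add (hi.const_mul _)) hpt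
    _ = 1 + r * 0 + 8 / θ ^ 2 * r ^ 2 * ∫ ω, Real.exp (θ * |Z ω|) ∂P := by
        have i1 : Integrable (fun ω => 1 + r * Z ω) P := (integrable_const _).add (hZ1.const_mul _)
        rw [integral_add i1 (hi.const_mul _),
          integral_add (integrable_const _) (hZ1.const_mul _), integral_const_mul, integral_const_mul, h0]
        simp
    _ ≤ 1 + 8 * C0 / θ ^ 2 * r ^ 2 := by
        have := mul_le_mul_of_nonneg_left hC (by positivity : (0 : ℝ) ≤ 8 / θ ^ 2 * r ^ 2)
        have e : 8 / θ ^ 2 * r ^ 2 * C0 = 8 * C0 / θ ^ 2 * r ^ 2 := by ring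
        linarith

/-- **mass of the positive side** of a centred variable of unit variance with a bounded fourth moment -/
theorem sk_lc_mass {Z : Ω → ℝ} {K : ℝ} (hZ : AEMeasurable Z P) (hK : 0 < K) (h4i : Integrable (fun ω => Z ω ^ 4) P)
    (h2i : Integrable (fun ω => Z ω ^ 2) P) (h1i : Integrable Z P)
    (h4 : ∫ ω, Z ω ^ 4 ∂P ≤ K ^ 2 / 2) (h0 : ∫ ω, Z ω ∂P = 0) (h2 : ∫ ω, Z ω ^ 2 ∂P = 1) :
    1 / (32 * K ^ 2) ≤ P.real {ω | 1 / (16 * K) ≤ Z ω} := by
  classical
  have hai : Integrable (fun ω => |Z ω|) P := h1i.abs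
  -- first absolute moment from below
  have hA : 1 / (2 * K) ≤ ∫ ω, |Z ω| ∂P := by
    have hpt : ∀ ω, Z ω ^ 2 ≤ K * |Z ω| + Z ω ^ 4 / K ^ 2 := by
      intro ω
      have hz : Z ω ^ 2 = |Z ω| ^ 2 := (sq_abs _).symm
      have hz4 : Z ω ^ 4 = |Z ω| ^ 4 := by
        rw [show (4 : ℕ) = 2 * 2 from rfl, pow_mul, pow_mul, sq_abs]
      rw [hz, hz4]
      set y := |Z ω| with hy
      have hy0 : 0 ≤ y := abs_nonneg _
      rcases le_or_gt y K with h | h
      · have : 0 ≤ y ^ 4 / K ^ 2 := by positivity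
        nlinarith
      · have : y ^ 2 ≤ y ^ 4 / K ^ 2 := by
          rw [le_div_iff₀ (by positivity)]
          have : K ^ 2 ≤ y ^ 2 := by nlinarith
          nlinarith [sq_nonneg y]
        nlinarith
    have h5 : ∫ ω, Z ω ^ 2 ∂P ≤ ∫ ω, (K * |Z ω| + Z ω ^ 4 / K ^ 2) ∂P :=
      integral_mono h2i ((hai.const_mul _).add (h4i.div_const _)) hpt
    rw [integral_add (hai.const_mul _) (h4i.div_const _), integral_const_mul, integral_div, h2] at h5
    have h6 : (∫ ω, Z ω ^ 4 ∂P) / K ^ 2 ≤ 1 / 2 := by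
      rw [div_le_iff₀ (by positivity)]; linarith
    rw [div_le_iff₀ (by positivity)]
    nlinarith
  -- the positive part
  set c : ℝ := 1 / (16 * K) with hc
  set A : Set Ω := {ω | c ≤ Z ω} with hAdef
  have hc0 : 0 < c := by positivity
  obtain ⟨Z', hZ'm, hZZ'⟩ := hZ
  have hAn : NullMeasurableSet A P := by
    have h1 : MeasurableSet {ω | c ≤ Z' ω} := measurableSet_le measurable_const hZ'm
    refine h1.nullMeasurableSet.congr ?_
    filter_upwards [hZZ'] with ω hω
    show (c ≤ Z' ω) = (c ≤ Z ω)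
    rw [hω]
  have hpt2 : ∀ ω, (|Z ω| + Z ω) / 2 ≤ c + c * Z ω ^ 2 + 4 * K * A.indicator (fun _ => (1 : ℝ)) ω := by
    intro ω
    by_cases hω : ω ∈ A
    · rw [indicator_of_mem hω]
      have hz : c ≤ Z ω := hω
      rw [abs_of_nonneg (hc0.le.trans hz)]
      have e : c * (16 * K) = 1 := by rw [hc]; field_simp
      have h7 : 0 ≤ c * (Z ω - 8 * K) ^ 2 := by positivity
      have h8 : c * (Z ω - 8 * K) ^ 2 = c * Z ω ^ 2 - (c * (16 * K)) * Z ω + (c * (16 * K)) * (4 * K) := by ring
      rw [h8, e] at h7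
      linarith
    · rw [indicator_of_notMem hω]
      have hz : Z ω < c := not_le.1 hω
      have : 0 ≤ c * Z ω ^ 2 := by positivity
      rcases abs_cases (Z ω) with ⟨h, _⟩ | ⟨h, _⟩ <;> rw [h] <;> linarith
  have hind : Integrable (A.indicator (fun _ => (1 : ℝ))) P := (integrable_const _).indicator₀ hAn
  have h9 : ∫ ω, (|Z ω| + Z ω) / 2 ∂P ≤ ∫ ω, (c + c * Z ω ^ 2 + 4 * K * A.indicator (fun _ => (1 : ℝ)) ω) ∂P :=
    integral_mono ((hai.add h1i).div_const _) (((integrable_const _).add (h2i.const_mul _)).add (hind.const_mul _)) hpt2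
  have i1 : Integrable (fun ω => c + c * Z ω ^ 2) P := (integrable_const _).add (h2i.const_mul _)
  rw [integral_div, integral_add hai h1i, h0, integral_add i1 (hind.const_mul _), integral_add (integrable_const _) (h2i.const_mul _),
    integral_const_mul, integral_const_mul, h2, integral_indicator₀ hAn] at h9
  simp only [integral_const, smul_eq_mul, mul_one, probReal_univ, add_zero, measureReal_restrict_apply_univ] at h9
  have e : c * (16 * K) = 1 := by rw [hc]; field_simp
  have h10 : 1 / (4 * K) - 2 * c ≤ 4 * K * P.real A := by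
    have : 1 / (4 * K) = 1 / (2 * K) / 2 := by field_simp; norm_num
    rw [this]; linarith
  have h11 : 1 / (4 * K) - 2 * c = 1 / (8 * K) := by rw [hc]; field_simp; norm_num
  rw [h11] at h10
  have h12 : 1 / (32 * K ^ 2) = 1 / (8 * K) / (4 * K) := by field_simp; norm_num
  rw [h12, div_le_iff₀ (by positivity)]
  linarith

end omega

/-- Prékopa–Leindler passes to a log-concave density -/
theorem sk_lc_pl_density {E : Type*} [AddCommGroup E] [Module ℝ E] [MeasurableSpace E] {μ : Measure E} (hμ : PLProp E μ)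
    {φ : E → ℝ≥0∞} (hφ : Measurable φ)
    (hlc : ∀ t : ℝ, 0 < t → t < 1 → ∀ x y, φ x ^ (1 - t) * φ y ^ t ≤ φ ((1 - t) • x + t • y)) :
    PLProp E (μ.withDensity φ) := by
  intro t ht0 ht1 f g h hf hg hh H
  have h1t : 0 < 1 - t := by linarith
  rw [lintegral_withDensity_eq_lintegral_mul _ hφ hf, lintegral_withDensity_eq_lintegral_mul _ hφ hg,
    lintegral_withDensity_eq_lintegral_mul _ hφ hh]
  refine hμ t ht0 ht1 _ _ _ (hφ.mul hf) (hφ.mul hg) (hφ.mul hh) fun x y => ?_
  simp only [Pi.mul_apply]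
  rw [ENNReal.mul_rpow_of_nonneg _ _ h1t.le, ENNReal.mul_rpow_of_nonneg _ _ ht0.le]
  calc φ x ^ (1 - t) * f x ^ (1 - t) * (φ y ^ t * g y ^ t) = (φ x ^ (1 - t) * φ y ^ t) * (f x ^ (1 - t) * g y ^ t) := by ring
    _ ≤ φ ((1 - t) • x + t • y) * h ((1 - t) • x + t • y) := mul_le_mul' (hlc t ht0 ht1 x y) (H x y)

/-- a Dirac mass at the origin -/
theorem sk_lc_pl_dirac : PLProp ℝ (Measure.dirac 0) := by
  intro t ht0 ht1 f g h hf hg hh H
  rw [lintegral_dirac' _ hf, lintegral_dirac' _ hg, lintegral_dirac' _ hh]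
  simpa using H 0 0

/-- centred Gaussian laws on the line -/
theorem sk_lc_pl_gauss (v : ℝ≥0) : PLProp ℝ (gaussianReal 0 v) := by
  rcases eq_or_ne v 0 with rfl | hv
  · rw [gaussianReal_zero_var]; exact sk_lc_pl_dirac
  rw [gaussianReal_of_var_ne_zero _ hv]
  refine sk_lc_pl_density plProp_real (measurable_gaussianPDF _ _) fun t ht0 ht1 x y => ?_
  have h1t : 0 < 1 - t := by linarith
  have hv0 : (0 : ℝ) < v := by exact_mod_cast pos_iff_ne_zero.2 hv
  unfold gaussianPDF
  rw [ENNReal.ofReal_rpow_of_nonneg (gaussianPDFReal_nonneg _ _ _) h1t.le,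
    ENNReal.ofReal_rpow_of_nonneg (gaussianPDFReal_nonneg _ _ _) ht0.le,
    ← ENNReal.ofReal_mul (Real.rpow_nonneg (gaussianPDFReal_nonneg _ _ _) _)]
  refine ENNReal.ofReal_le_ofReal ?_
  unfold gaussianPDFReal
  set c : ℝ := (Real.sqrt (2 * Real.pi * v))⁻¹ with hc
  have hc0 : 0 < c := by positivity
  rw [Real.mul_rpow hc0.le (Real.exp_pos _).le, Real.mul_rpow hc0.le (Real.exp_pos _).le, ← Real.exp_mul, ← Real.exp_mul]
  have e1 : c ^ (1 - t) * c ^ t = c := by
    rw [← Real.rpow_add hc0]; simp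
  calc c ^ (1 - t) * Real.exp (-(x - 0) ^ 2 / (2 * v) * (1 - t)) * (c ^ t * Real.exp (-(y - 0) ^ 2 / (2 * v) * t))
      = (c ^ (1 - t) * c ^ t) * Real.exp (-(x - 0) ^ 2 / (2 * v) * (1 - t) + -(y - 0) ^ 2 / (2 * v) * t) := by
        rw [Real.exp_add]; ring
    _ ≤ c * Real.exp (-((1 - t) • x + t • y - 0) ^ 2 / (2 * v)) := by
        rw [e1]
        refine mul_le_mul_of_nonneg_left (Real.exp_le_exp.2 ?_) hc0.le
        simp only [smul_eq_mul, sub_zero]
        have h2 : ((1 - t) * x + t * y) ^ 2 ≤ (1 - t) * x ^ 2 + t * y ^ 2 := by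
          nlinarith [mul_nonneg (mul_nonneg ht0.le h1t.le) (sq_nonneg (x - y))]
        have h3 : -x ^ 2 / (2 * v) * (1 - t) + -y ^ 2 / (2 * v) * t = -((1 - t) * x ^ 2 + t * y ^ 2) / (2 * v) := by ring
        rw [h3]
        gcongr

/-- the density of the exponential law of rate one -/
noncomputable def skExpD (e : ℝ) : ℝ≥0∞ := if 0 < e then ENNReal.ofReal (Real.exp (-e)) else 0

/-- the exponential law of rate one -/
noncomputable def skExpM : Measure ℝ := volume.withDensity skExpD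

theorem sk_lc_expD_meas : Measurable skExpD :=
  Measurable.ite measurableSet_Ioi (by fun_prop) measurable_const

theorem sk_lc_pl_exp : PLProp ℝ skExpM := by
  refine sk_lc_pl_density plProp_real sk_lc_expD_meas fun t ht0 ht1 x y => ?_
  have h1t : 0 < 1 - t := by linarith
  unfold skExpD
  by_cases hx : 0 < x
  · by_cases hy : 0 < y
    · have hxy : 0 < (1 - t) • x + t • y := by
        simp only [smul_eq_mul]; positivity
      rw [if_pos hx, if_pos hy, if_pos hxy, ENNReal.ofReal_rpow_of_nonneg (Real.exp_pos _).le h1t.le,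
        ENNReal.ofReal_rpow_of_nonneg (Real.exp_pos _).le ht0.le, ← ENNReal.ofReal_mul (Real.rpow_nonneg (Real.exp_pos _).le _),
        ← Real.exp_mul, ← Real.exp_mul, ← Real.exp_add]
      refine ENNReal.ofReal_le_ofReal (Real.exp_le_exp.2 ?_)
      simp only [smul_eq_mul]
      linarith
    · rw [if_neg hy, ENNReal.zero_rpow_of_pos ht0]; simp
  · rw [if_neg hx, ENNReal.zero_rpow_of_pos h1t]; simp

/-- Prékopa–Leindler for finite products, index `Fin n` -/
theorem sk_lc_pl_pi_fin (n : ℕ) (μ : Fin n → Measure ℝ) [∀ i, SigmaFinite (μ i)] (h : ∀ i, PLProp ℝ (μ i)) :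
    PLProp (Fin n → ℝ) (Measure.pi μ) := by
  induction n with
  | zero =>
    intro t ht0 ht1 f g h hf hg hh H
    have hv : (Measure.pi μ : Measure (Fin 0 → ℝ)) = Measure.dirac 0 := by
      rw [Measure.pi_of_empty]
      congr 1
      exact Subsingleton.elim _ _
    rw [hv, lintegral_dirac' _ hf, lintegral_dirac' _ hg, lintegral_dirac' _ hh]
    simpa using H 0 0
  | succ n ih =>
    have hmp := measurePreserving_piFinSuccAbove (α := fun _ : Fin (n + 1) => ℝ) μ 0
    have hmp' := hmp.symm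
    have := ((h 0).prod (ih (fun j => μ (Fin.succAbove 0 j)) fun j => h _)).map (L := (MeasurableEquiv.piFinSuccAbove
      (fun _ : Fin (n + 1) => ℝ) 0).symm) (MeasurableEquiv.measurable _) ?_
    · rw [← hmp'.map_eq]
      exact this
    · intro a b x y
      ext i
      refine Fin.cases ?_ (fun j => ?_) i
      · simp [MeasurableEquiv.piFinSuccAbove]
      · simp [MeasurableEquiv.piFinSuccAbove]

/-- Prékopa–Leindler for finite products -/
theorem sk_lc_pl_pi {ι : Type*} [Fintype ι] (μ : ι → Measure ℝ) [∀ i, SigmaFinite (μ i)] (h : ∀ i, PLProp ℝ (μ i)) :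
    PLProp (ι → ℝ) (Measure.pi μ) := by
  classical
  set e : Fin (Fintype.card ι) ≃ ι := (Fintype.equivFin ι).symm with he
  have hmp := measurePreserving_piCongrLeft (α := fun _ : ι => ℝ) μ e
  rw [← hmp.map_eq]
  refine (sk_lc_pl_pi_fin _ (fun i => μ (e i)) fun i => h _).map (MeasurableEquiv.measurable _) ?_
  intro a b x y
  ext i
  obtain ⟨j, rfl⟩ := e.surjective i
  simp [MeasurableEquiv.coe_piCongrLeft, Equiv.piCongrLeft_apply_apply]

theorem sk_lc_expD_lt_top (e : ℝ) : skExpD e < ∞ := by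
  unfold skExpD; split_ifs <;> simp

theorem sk_lc_expD_toReal (e : ℝ) (y : ℝ) : (skExpD e).toReal • y = (Ioi (0 : ℝ)).indicator (fun e => Real.exp (-e) * y) e := by
  unfold skExpD
  by_cases h : 0 < e
  · rw [if_pos h, indicator_of_mem (show e ∈ Ioi (0 : ℝ) from h), ENNReal.toReal_ofReal (Real.exp_pos _).le, smul_eq_mul]
  · rw [if_neg h, indicator_of_notMem (show e ∉ Ioi (0 : ℝ) from h)]; simp

theorem sk_lc_exp_integral (f : ℝ → ℝ) : ∫ e, f e ∂skExpM = ∫ e in Ioi (0 : ℝ), Real.exp (-e) * f e := by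
  unfold skExpM
  rw [integral_withDensity_eq_integral_toReal_smul sk_lc_expD_meas (ae_of_all _ sk_lc_expD_lt_top), ← integral_indicator measurableSet_Ioi]
  refine integral_congr_ae (ae_of_all _ fun e => ?_)
  simp only [sk_lc_expD_toReal, indicator]

theorem sk_lc_exp_integrable (f : ℝ → ℝ) : Integrable f skExpM ↔ IntegrableOn (fun e => Real.exp (-e) * f e) (Ioi (0 : ℝ)) := by
  unfold skExpM
  rw [integrable_withDensity_iff_integrable_smul' sk_lc_expD_meas (ae_of_all _ sk_lc_expD_lt_top), ← integrable_indicator_iff measurableSet_Ioi]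
  refine integrable_congr (ae_of_all _ fun e => ?_)
  simp only [sk_lc_expD_toReal, indicator]

theorem sk_lc_exp_lintegral (f : ℝ → ℝ≥0∞) (hf : Measurable f) : ∫⁻ e, f e ∂skExpM = ∫⁻ e in Ioi (0 : ℝ), ENNReal.ofReal (Real.exp (-e)) * f e := by
  unfold skExpM
  rw [lintegral_withDensity_eq_lintegral_mul _ sk_lc_expD_meas hf, ← lintegral_indicator measurableSet_Ioi]
  refine lintegral_congr fun e => ?_
  simp only [Pi.mul_apply, skExpD, indicator, mem_Ioi]
  split_ifs <;> simp

instance sk_lc_exp_prob : IsProbabilityMeasure skExpM := by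
  constructor
  rw [← lintegral_one, sk_lc_exp_lintegral _ measurable_const]
  simp only [mul_one]
  rw [← ofReal_integral_eq_lintegral_ofReal (integrableOn_exp_neg_Ioi 0) (ae_of_all _ fun e => (Real.exp_pos _).le), integral_exp_neg_Ioi_zero]
  simp

/-- moments of the exponential law -/
theorem sk_lc_exp_mom (k : ℕ) : Integrable (fun e => e ^ k) skExpM ∧ ∫ e, e ^ k ∂skExpM = (k.factorial : ℝ) := by
  have hk : (0 : ℝ) < (k : ℝ) + 1 := by positivity
  have e1 : ∀ e : ℝ, Real.exp (-e) * e ^ ((k : ℝ) + 1 - 1) = Real.exp (-e) * e ^ k := by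
    intro e
    rw [add_sub_cancel_right, Real.rpow_natCast]
  constructor
  · rw [sk_lc_exp_integrable]
    have := Real.GammaIntegral_convergent hk
    simpa only [e1] using this
  · rw [sk_lc_exp_integral, ← Real.Gamma_nat_eq_factorial, Real.Gamma_eq_integral hk]
    simp only [e1]

/-- Laplace transform of the exponential law -/
theorem sk_lc_exp_mgf {t : ℝ} (ht : t < 1) : Integrable (fun e => Real.exp (t * e)) skExpM ∧ ∫ e, Real.exp (t * e) ∂skExpM = 1 / (1 - t) := by
  have e1 : ∀ e : ℝ, Real.exp (-e) * Real.exp (t * e) = Real.exp ((t - 1) * e) := by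
    intro e
    rw [← Real.exp_add]; congr 1; ring
  have h1 : t - 1 < 0 := by linarith
  constructor
  · rw [sk_lc_exp_integrable]
    simp only [e1]
    exact integrableOn_exp_mul_Ioi h1 0
  · rw [sk_lc_exp_integral]
    simp only [e1]
    rw [integral_exp_mul_Ioi h1 0]
    simp only [mul_zero, Real.exp_zero]
    rw [neg_div, ← div_neg, neg_sub]

/-- the upper tail of the exponential law -/
theorem sk_lc_exp_Ici (c : ℝ) : skExpM (Ici c) = ENNReal.ofReal (Real.exp (-(max c 0))) := by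
  rw [← lintegral_indicator_one measurableSet_Ici, sk_lc_exp_lintegral _ (measurable_one.indicator measurableSet_Ici)]
  have e1 : ∀ e : ℝ, ENNReal.ofReal (Real.exp (-e)) * (Ici c).indicator 1 e = (Ici c).indicator (fun e => ENNReal.ofReal (Real.exp (-e))) e := by
    intro e
    by_cases h : e ∈ Ici c
    · simp [indicator_of_mem h]
    · simp [indicator_of_notMem h]
  simp only [e1]
  rw [lintegral_indicator measurableSet_Ici, Measure.restrict_restrict measurableSet_Ici]
  have e2 : (Ici c ∩ Ioi (0 : ℝ) : Set ℝ) =ᵐ[volume] (Ioi (max c 0) : Set ℝ) := by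
    rcases le_or_gt c 0 with h | h
    · rw [max_eq_right h]
      have : Ici c ∩ Ioi (0 : ℝ) = Ioi 0 := by
        ext x; simp only [mem_inter_iff, mem_Ici, mem_Ioi]
        exact ⟨fun h' => h'.2, fun h' => ⟨h.trans h'.le, h'⟩⟩
      rw [this]
      exact ae_eq_refl _
    · rw [max_eq_left h.le]
      have : Ici c ∩ Ioi (0 : ℝ) = Ici c := by
        ext x; simp only [mem_inter_iff, mem_Ici, mem_Ioi]
        exact ⟨fun h' => h'.1, fun h' => ⟨h', h.trans_le h'⟩⟩
      rw [this]
      exact Ioi_ae_eq_Ici.symm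
  rw [Measure.restrict_congr_set e2, ← ofReal_integral_eq_lintegral_ofReal (integrableOn_exp_neg_Ioi _) (ae_of_all _ fun e => (Real.exp_pos _).le),
    integral_exp_neg_Ioi]

theorem sk_lc_real_of_ennreal {μ : Measure ℝ} [IsFiniteMeasure μ] {A B C : Set ℝ} {t : ℝ} (ht0 : 0 < t) (ht1 : t < 1)
    (h : μ A ^ (1 - t) * μ B ^ t ≤ μ C) : μ.real A ^ (1 - t) * μ.real B ^ t ≤ μ.real C := by
  have h1t : 0 < 1 - t := by linarith
  have e : ∀ S : Set ℝ, μ S = ENNReal.ofReal (μ.real S) := fun S => by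
    rw [measureReal_def, ENNReal.ofReal_toReal (measure_ne_top _ _)]
  rw [e A, e B, e C, ENNReal.ofReal_rpow_of_nonneg measureReal_nonneg h1t.le, ENNReal.ofReal_rpow_of_nonneg measureReal_nonneg ht0.le,
    ← ENNReal.ofReal_mul (Real.rpow_nonneg measureReal_nonneg _)] at h
  exact (ENNReal.ofReal_le_ofReal_iff measureReal_nonneg).1 h

/-- lower tails of a Prékopa–Leindler measure on the line -/
theorem sk_lc_pl_Iic {ν : Measure ℝ} (hν : PLProp ℝ ν) (a b : ℝ) {t : ℝ} (ht0 : 0 < t) (ht1 : t < 1) :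
    ν (Iic a) ^ (1 - t) * ν (Iic b) ^ t ≤ ν (Iic ((1 - t) * a + t * b)) := by
  have h1t : 0 < 1 - t := by linarith
  have := hν t ht0 ht1 ((Iic a).indicator 1) ((Iic b).indicator 1) ((Iic ((1 - t) * a + t * b)).indicator 1)
    (measurable_one.indicator measurableSet_Iic) (measurable_one.indicator measurableSet_Iic) (measurable_one.indicator measurableSet_Iic) ?_
  · simpa only [lintegral_indicator_one measurableSet_Iic] using this
  · intro x y
    by_cases hx : x ∈ Iic a
    · by_cases hy : y ∈ Iic b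
      · have hxy : (1 - t) • x + t • y ∈ Iic ((1 - t) * a + t * b) := by
          simp only [smul_eq_mul, mem_Iic]
          exact add_le_add (mul_le_mul_of_nonneg_left hx h1t.le) (mul_le_mul_of_nonneg_left hy ht0.le)
        rw [indicator_of_mem hx, indicator_of_mem hy, indicator_of_mem hxy]; simp
      · rw [indicator_of_notMem hy, ENNReal.zero_rpow_of_pos ht0]; simp
    · rw [indicator_of_notMem hx, ENNReal.zero_rpow_of_pos h1t]; simp

/-- **exponential augmentation** (abstract form).  `γ` a Prékopa–Leindler probability measure, `F` convex, `e^{-U} γ` a change of measure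
which does not change the law of `F`, with `U - F` convex.  Then `F + 𝓔`, `𝓔` an independent exponential variable of rate one, has
log-concave tails. -/
theorem sk_lc_aug {E : Type*} [AddCommGroup E] [Module ℝ E] [MeasurableSpace E] {γ : Measure E} [IsProbabilityMeasure γ] (hγ : PLProp E γ)
    {F U : E → ℝ} (hFm : Measurable F) (hUm : Measurable U) (hF : ConvexOn ℝ univ F) (hU : ConvexOn ℝ univ (fun g => U g - F g))
    (hpin : ∀ Φ : ℝ → ℝ≥0∞, Measurable Φ → ∫⁻ g, Φ (F g) ∂γ = ∫⁻ g, ENNReal.ofReal (Real.exp (-U g)) * Φ (F g) ∂γ) :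
    SkLc ((γ.prod skExpM).map (fun w => F w.1 + w.2)) := by
  have hGm : Measurable (fun w : E × ℝ => F w.1 + w.2) := (hFm.comp measurable_fst).add measurable_snd
  have : IsProbabilityMeasure ((γ.prod skExpM).map (fun w => F w.1 + w.2)) := Measure.isProbabilityMeasure_map hGm.aemeasurable
  have hUc : ConvexOn ℝ univ U := by
    have h := hU.add hF
    have e : ((fun g => U g - F g) + F) = U := by funext g; simp
    rwa [e] at h
  -- the two tails as integrals
  have hup : ∀ a : ℝ, ((γ.prod skExpM).map (fun w => F w.1 + w.2)) (Ici a) =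
      ∫⁻ g, ENNReal.ofReal (Real.exp (-U g)) * ENNReal.ofReal (Real.exp (-(max (a - F g) 0))) ∂γ := by
    intro a
    rw [Measure.map_apply hGm measurableSet_Ici, Measure.prod_apply (hGm measurableSet_Ici),
      ← hpin (fun y => ENNReal.ofReal (Real.exp (-(max (a - y) 0)))) (by fun_prop)]
    refine lintegral_congr fun g => ?_
    rw [← sk_lc_exp_Ici]
    congr 1
    ext e
    simp only [mem_preimage, mem_Ici]
    constructor <;> intro h <;> linarith
  have hmono : Monotone fun c : ℝ => skExpM (Iic c) := fun c c' h => measure_mono (Iic_subset_Iic.2 h)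
  have hdn : ∀ a : ℝ, ((γ.prod skExpM).map (fun w => F w.1 + w.2)) (Iic a) =
      ∫⁻ g, ENNReal.ofReal (Real.exp (-U g)) * skExpM (Iic (a - F g)) ∂γ := by
    intro a
    rw [Measure.map_apply hGm measurableSet_Iic, Measure.prod_apply (hGm measurableSet_Iic),
      ← hpin (fun y => skExpM (Iic (a - y))) (hmono.measurable.comp (by fun_prop))]
    refine lintegral_congr fun g => ?_
    congr 1
    ext e
    simp only [mem_preimage, mem_Iic]
    constructor <;> intro h <;> linarith
  have hexpU : ∀ (t : ℝ), 0 < t → t < 1 → ∀ x y : E, ENNReal.ofReal (Real.exp (-U x)) ^ (1 - t) * ENNReal.ofReal (Real.exp (-U y)) ^ t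
      ≤ ENNReal.ofReal (Real.exp (-U ((1 - t) • x + t • y))) := by
    intro t ht0 ht1 x y
    have h1t : 0 < 1 - t := by linarith
    rw [ENNReal.ofReal_rpow_of_nonneg (Real.exp_pos _).le h1t.le, ENNReal.ofReal_rpow_of_nonneg (Real.exp_pos _).le ht0.le,
      ← ENNReal.ofReal_mul (Real.rpow_nonneg (Real.exp_pos _).le _), ← Real.exp_mul, ← Real.exp_mul, ← Real.exp_add]
    refine ENNReal.ofReal_le_ofReal (Real.exp_le_exp.2 ?_)
    have := hUc.2 (mem_univ x) (mem_univ y) h1t.le ht0.le (by ring)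
    simp only [smul_eq_mul] at this
    linarith
  constructor
  · intro a b t ht0 ht1
    have h1t : 0 < 1 - t := by linarith
    refine sk_lc_real_of_ennreal ht0 ht1 ?_
    rw [hup, hup, hup]
    refine hγ t ht0 ht1 _ _ _ (by fun_prop) (by fun_prop) (by fun_prop) fun x y => ?_
    simp only [← ENNReal.ofReal_mul (Real.exp_pos _).le, ← Real.exp_add]
    rw [ENNReal.ofReal_rpow_of_nonneg (Real.exp_pos _).le h1t.le, ENNReal.ofReal_rpow_of_nonneg (Real.exp_pos _).le ht0.le,
      ← ENNReal.ofReal_mul (Real.rpow_nonneg (Real.exp_pos _).le _), ← Real.exp_mul, ← Real.exp_mul, ← Real.exp_add]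
    refine ENNReal.ofReal_le_ofReal (Real.exp_le_exp.2 ?_)
    have h1 := hUc.2 (mem_univ x) (mem_univ y) h1t.le ht0.le (by ring)
    have h2 := hU.2 (mem_univ x) (mem_univ y) h1t.le ht0.le (by ring)
    simp only [smul_eq_mul] at h1 h2
    set z := (1 - t) • x + t • y with hz
    have h3 : 0 ≤ (1 - t) * max (a - F x) 0 := mul_nonneg h1t.le (le_max_right _ _)
    have h4 : 0 ≤ t * max (b - F y) 0 := mul_nonneg ht0.le (le_max_right _ _)
    have h5 : (1 - t) * (a - F x) ≤ (1 - t) * max (a - F x) 0 := mul_le_mul_of_nonneg_left (le_max_left _ _) h1t.le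
    have h6 : t * (b - F y) ≤ t * max (b - F y) 0 := mul_le_mul_of_nonneg_left (le_max_left _ _) ht0.le
    rcases max_cases ((1 - t) * a + t * b - F z) 0 with ⟨h, _⟩ | ⟨h, _⟩ <;> rw [h] <;> nlinarith
  · intro a b t ht0 ht1
    have h1t : 0 < 1 - t := by linarith
    refine sk_lc_real_of_ennreal ht0 ht1 ?_
    rw [hdn, hdn, hdn]
    have hm : ∀ c : ℝ, Measurable fun g => ENNReal.ofReal (Real.exp (-U g)) * skExpM (Iic (c - F g)) := fun c =>
      (by fun_prop : Measurable fun g => ENNReal.ofReal (Real.exp (-U g))).mul (hmono.measurable.comp (by fun_prop))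
    refine hγ t ht0 ht1 _ _ _ (hm a) (hm b) (hm _) fun x y => ?_
    rw [ENNReal.mul_rpow_of_nonneg _ _ h1t.le, ENNReal.mul_rpow_of_nonneg _ _ ht0.le]
    have h1 := hF.2 (mem_univ x) (mem_univ y) h1t.le ht0.le (by ring)
    simp only [smul_eq_mul] at h1
    calc ENNReal.ofReal (Real.exp (-U x)) ^ (1 - t) * skExpM (Iic (a - F x)) ^ (1 - t) *
          (ENNReal.ofReal (Real.exp (-U y)) ^ t * skExpM (Iic (b - F y)) ^ t)
        = (ENNReal.ofReal (Real.exp (-U x)) ^ (1 - t) * ENNReal.ofReal (Real.exp (-U y)) ^ t) *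
          (skExpM (Iic (a - F x)) ^ (1 - t) * skExpM (Iic (b - F y)) ^ t) := by ring
      _ ≤ ENNReal.ofReal (Real.exp (-U ((1 - t) • x + t • y))) * skExpM (Iic ((1 - t) * (a - F x) + t * (b - F y))) :=
          mul_le_mul' (hexpU t ht0 ht1 x y) (sk_lc_pl_Iic sk_lc_pl_exp _ _ ht0 ht1)
      _ ≤ ENNReal.ofReal (Real.exp (-U ((1 - t) • x + t • y))) * skExpM (Iic ((1 - t) * a + t * b - F ((1 - t) • x + t • y))) := by
          gcongr
          linarith

end Claimed.Agent.R286
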