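import Claimed.Agent.R286.Top.RedSk
import Claimed.Agent.R286.Top.Lc

/-!
# Row 286 (S0533), folder Top, file PeTop : PE Theorem 1.1 from the positive Laplace window      (helper49; prefix `sk_pe_`)
`sk_pe_top : SkWindow β → SkTail β → SkExponent β`      (PE Sec 7.4 "Conclusion with fixed power slack")
* `SkWindow β` = PE Prop 7.5 (`fl:laplace-window`), for all `m < m0`: `c n^(20m) ≤ log E exp(s (F_n^c - E F_n^c)) ≤ C n^(100m)`, `s = n^(-1/6+5m)`, written with `skLam` (file Lam): `log E exp(s(F^c - E F^c)) = skLam β n (n^(5m))`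
* only `SkTail` is used from the log-concave unit: the quadratic upper bound and the mass of the positive side follow from the exponential moment (`sk_lc_lap_up`, `sk_lc_mass` of file Lc); no augmentation here.
-/

set_option autoImplicit false

namespace Claimed.Agent.R286

open MeasureTheory ProbabilityTheory Filter Topology
open Claims.C0461

/-- **PE Prop 7.5**: the positive Laplace window, for all sufficiently small `m` (remark of 196: PE Secs 3-6 fix "a sufficiently small `m`").   TEX[PE:fl:laplace-window] -/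
def SkWindow (β : ℝ) : Prop :=
  ∃ m0 : ℝ, 0 < m0 ∧ ∀ m : ℝ, 0 < m → m < m0 → ∃ (c C : ℝ) (n0 : ℕ), 0 < c ∧ ∀ n : ℕ, n0 ≤ n →
    c * (n : ℝ) ^ (20 * m) ≤ skLam β n ((n : ℝ) ^ (5 * m)) ∧
    skLam β n ((n : ℝ) ^ (5 * m)) ≤ C * (n : ℝ) ^ (100 * m)

theorem sk_pe_eqns_cite : True := by
  have := @SkWindow.eq_1
  trivial

theorem sk_pe_measC (β : ℝ) (n : ℕ) : Measurable (skCen β n) := by
  unfold skCen
  exact (sk_top_meas β n).sub_const _

theorem sk_pe_meanC (β : ℝ) (n : ℕ) : ∫ g, skCen β n g ∂skDisorder n = 0 := by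
  unfold skCen
  rw [integral_sub (sk_fix_integrable β n) (integrable_const _), integral_const]
  simp

theorem sk_pe_varC (β : ℝ) (n : ℕ) : ∫ g, skCen β n g ^ 2 ∂skDisorder n = skVariance β n := by
  unfold skCen skVariance
  rw [variance_eq_integral (sk_top_meas β n).aemeasurable]

theorem sk_pe_expC (β : ℝ) (n : ℕ) (θ : ℝ) :
    Integrable (fun g => Real.exp (θ * |skCen β n g|)) (skDisorder n) := by
  have hm : Measurable fun g => Real.exp (θ * |skCen β n g|) := by
    have := sk_pe_measC β n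
    fun_prop
  set e : ℝ := ∫ h, skLogPartition β n h ∂skDisorder n with he
  refine ((sk_fix_exp β n |θ|).const_mul (Real.exp (|θ| * |e|))).mono' hm.aestronglyMeasurable
    (Eventually.of_forall fun g => ?_)
  rw [Real.norm_eq_abs, abs_of_pos (Real.exp_pos _), ← Real.exp_add]
  apply Real.exp_le_exp.2
  have h2 : |skCen β n g| ≤ |skLogPartition β n g| + |e| := by
    unfold skCen
    exact abs_sub _ _
  calc θ * |skCen β n g| ≤ |θ| * |skCen β n g| := mul_le_mul_of_nonneg_right (le_abs_self θ) (abs_nonneg _)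
    _ ≤ |θ| * (|skLogPartition β n g| + |e|) := mul_le_mul_of_nonneg_left h2 (abs_nonneg _)
    _ = _ := by ring

/-- a large log Laplace transform forces a large variance -/
theorem sk_pe_low (β : ℝ) (n : ℕ) (t0 C0 s : ℝ) (ht0 : 0 < t0) (hs : 0 ≤ s)
    (hT : ∫ g, Real.exp (t0 * |skCen β n g| / Real.sqrt (skVariance β n + 1)) ∂skDisorder n ≤ C0)
    (hbig : 2 * C0 < Real.log (∫ g, Real.exp (s * skCen β n g) ∂skDisorder n)) :
    t0 ^ 2 < 4 * s ^ 2 * (skVariance β n + 1) := by
  by_contra hcon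
  have hcon : 4 * s ^ 2 * (skVariance β n + 1) ≤ t0 ^ 2 := not_lt.1 hcon
  have hv0 : 0 ≤ skVariance β n := variance_nonneg _ _
  set S : ℝ := Real.sqrt (skVariance β n + 1) with hS
  have hS0 : 0 < S := Real.sqrt_pos.2 (by linarith)
  have hS2 : S ^ 2 = skVariance β n + 1 := Real.sq_sqrt (by linarith)
  set θ : ℝ := t0 / S with hθ
  have hθ0 : 0 < θ := div_pos ht0 hS0
  have e : (fun g => Real.exp (t0 * |skCen β n g| / S)) = fun g => Real.exp (θ * |skCen β n g|) := by
    funext g
    congr 1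
    rw [hθ]
    ring
  rw [e] at hT
  have hr : |s| ≤ θ / 2 := by
    rw [abs_of_nonneg hs, hθ, le_div_iff₀ (by norm_num), le_div_iff₀ hS0]
    have h1 : (s * 2 * S) ^ 2 ≤ t0 ^ 2 := by
      rw [mul_pow, mul_pow, hS2]
      linarith
    exact abs_le_of_sq_le_sq' h1 ht0.le |>.2
  obtain ⟨-, hb⟩ := sk_lc_lap_up (P := skDisorder n) (sk_pe_measC β n).aemeasurable hθ0 (sk_pe_expC β n θ) hT (sk_pe_meanC β n) hr
  have hC0 : 0 ≤ C0 := le_trans (integral_nonneg fun g => (Real.exp_pos _).le) hT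
  have h2 : 8 * C0 / θ ^ 2 * s ^ 2 ≤ 2 * C0 := by
    rw [hθ, div_pow, hS2]
    have : 8 * C0 / (t0 ^ 2 / (skVariance β n + 1)) * s ^ 2 = 2 * C0 * (4 * s ^ 2 * (skVariance β n + 1)) / t0 ^ 2 := by
      field_simp
      ring
    rw [this, div_le_iff₀ (by positivity)]
    exact mul_le_mul_of_nonneg_left hcon (by positivity)
  have hpos : 0 < ∫ g, Real.exp (s * skCen β n g) ∂skDisorder n := by
    by_contra h0
    have h0 : ∫ g, Real.exp (s * skCen β n g) ∂skDisorder n ≤ 0 := not_lt.1 h0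
    have : ∫ g, Real.exp (s * skCen β n g) ∂skDisorder n = 0 :=
      le_antisymm h0 (integral_nonneg fun g => (Real.exp_pos _).le)
    rw [this, Real.log_zero] at hbig
    linarith
  have h3 := Real.log_le_sub_one_of_pos hpos
  linarith

/-- the mass of the positive side bounds the log Laplace transform from below -/
theorem sk_pe_up (β : ℝ) (n : ℕ) (t0 C0 s : ℝ) (ht0 : 0 < t0) (hs : 0 ≤ s)
    (hT : ∫ g, Real.exp (t0 * |skCen β n g| / Real.sqrt (skVariance β n + 1)) ∂skDisorder n ≤ C0)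
    (hV : 1 ≤ skVariance β n) :
    s * Real.sqrt (skVariance β n) / (16 * (Real.sqrt (192 * C0) / t0 ^ 2)) - Real.log (32 * (Real.sqrt (192 * C0) / t0 ^ 2) ^ 2)
      ≤ Real.log (∫ g, Real.exp (s * skCen β n g) ∂skDisorder n) := by
  set V : ℝ := skVariance β n with hVdef
  set σ : ℝ := Real.sqrt V with hσ
  have hσ0 : 0 < σ := Real.sqrt_pos.2 (by linarith)
  have hσ2 : σ ^ 2 = V := Real.sq_sqrt (by linarith)
  have hC0 : 1 ≤ C0 := by
    refine le_trans ?_ hT
    have hi : Integrable (fun g => Real.exp (t0 * |skCen β n g| / Real.sqrt (V + 1))) (skDisorder n) := by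
      refine (sk_pe_expC β n (t0 / Real.sqrt (V + 1))).congr (Eventually.of_forall fun g => ?_)
      simp only
      congr 1
      ring
    have : ∫ _g : SKPair n → ℝ, (1 : ℝ) ∂skDisorder n ≤ ∫ g, Real.exp (t0 * |skCen β n g| / Real.sqrt (V + 1)) ∂skDisorder n := by
      refine integral_mono (integrable_const _) hi fun g => ?_
      exact Real.one_le_exp (by positivity)
    simpa using this
  set K : ℝ := Real.sqrt (192 * C0) / t0 ^ 2 with hK
  have hK0 : 0 < K := div_pos (Real.sqrt_pos.2 (by linarith)) (by positivity)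
  have hK2 : K ^ 2 = 192 * C0 / t0 ^ 4 := by
    rw [hK, div_pow, Real.sq_sqrt (by linarith)]
    congr 1
    ring
  let Z : (SKPair n → ℝ) → ℝ := fun g => skCen β n g / σ
  have hZm : Measurable Z := (sk_pe_measC β n).div_const _
  set θ : ℝ := t0 / Real.sqrt 2 with hθ
  have h20 : 0 < Real.sqrt 2 := Real.sqrt_pos.2 (by norm_num)
  have hθ0 : 0 < θ := div_pos ht0 h20
  have hZi : Integrable (fun g => Real.exp (θ * |Z g|)) (skDisorder n) := by
    refine (sk_pe_expC β n (θ / σ)).congr (Eventually.of_forall fun g => ?_)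
    simp only [Z]
    congr 1
    rw [abs_div, abs_of_pos hσ0]
    ring
  have hZb : ∫ g, Real.exp (θ * |Z g|) ∂skDisorder n ≤ C0 := by
    refine le_trans ?_ hT
    have hi : Integrable (fun g => Real.exp (t0 * |skCen β n g| / Real.sqrt (V + 1))) (skDisorder n) := by
      refine (sk_pe_expC β n (t0 / Real.sqrt (V + 1))).congr (Eventually.of_forall fun g => ?_)
      simp only
      congr 1
      ring
    refine integral_mono hZi hi fun g => ?_
    apply Real.exp_le_exp.2
    simp only [Z]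
    rw [abs_div, abs_of_pos hσ0, hθ]
    have h1 : Real.sqrt (V + 1) ≤ Real.sqrt 2 * σ := by
      rw [hσ, ← Real.sqrt_mul (by norm_num)]
      exact Real.sqrt_le_sqrt (by linarith)
    have h2 : 0 < Real.sqrt (V + 1) := Real.sqrt_pos.2 (by linarith)
    have e : t0 / Real.sqrt 2 * (|skCen β n g| / σ) = t0 * |skCen β n g| / (Real.sqrt 2 * σ) := by
      field_simp
    rw [e]
    exact div_le_div_of_nonneg_left (by positivity) h2 h1
  have h4 : ∫ g, Z g ^ 4 ∂skDisorder n ≤ K ^ 2 / 2 := by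
    have := sk_lc_mom_le (P := skDisorder n) hZm.aemeasurable hθ0 hZi hZb 4
    have e1 : ∀ g, |Z g| ^ 4 = Z g ^ 4 := fun g => by
      rw [show (4 : ℕ) = 2 * 2 from rfl, pow_mul, pow_mul, sq_abs]
    simp only [e1] at this
    refine this.trans (le_of_eq ?_)
    rw [hK2, hθ, div_pow]
    have : Real.sqrt 2 ^ 4 = 4 := by
      rw [show (4 : ℕ) = 2 * 2 from rfl, pow_mul, Real.sq_sqrt (by norm_num)]
      norm_num
    rw [this]
    simp only [Nat.factorial]
    field_simp
    norm_num
  have h0 : ∫ g, Z g ∂skDisorder n = 0 := by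
    simp only [Z]
    rw [integral_div, sk_pe_meanC, zero_div]
  have h2 : ∫ g, Z g ^ 2 ∂skDisorder n = 1 := by
    simp only [Z, div_pow]
    rw [integral_div, sk_pe_varC, hσ2]
    exact div_self (by linarith)
  have hmass := sk_lc_mass (P := skDisorder n) hZm.aemeasurable hK0 (sk_lc_int_pow hZm.aemeasurable hθ0 hZi 4)
    (sk_lc_int_pow hZm.aemeasurable hθ0 hZi 2) (by simpa using sk_lc_int_pow hZm.aemeasurable hθ0 hZi 1) h4 h0 h2
  -- Markov from below
  have hint : Integrable (fun g => Real.exp (s * skCen β n g)) (skDisorder n) := by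
    have hm : Measurable fun g => Real.exp (s * skCen β n g) := by
      have := sk_pe_measC β n
      fun_prop
    refine (sk_pe_expC β n s).mono' hm.aestronglyMeasurable (Eventually.of_forall fun g => ?_)
    rw [Real.norm_eq_abs, abs_of_pos (Real.exp_pos _)]
    exact Real.exp_le_exp.2 (mul_le_mul_of_nonneg_left (le_abs_self _) hs)
  set ε : ℝ := Real.exp (s * σ / (16 * K)) with hε
  have hmk := mul_meas_ge_le_integral_of_nonneg (μ := skDisorder n)
    (Eventually.of_forall fun g => (Real.exp_pos (s * skCen β n g)).le) hint ε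
  have hsub : {g | 1 / (16 * K) ≤ Z g} ⊆ {g | ε ≤ Real.exp (s * skCen β n g)} := by
    intro g hg
    have hg : 1 / (16 * K) ≤ skCen β n g / σ := hg
    show ε ≤ Real.exp (s * skCen β n g)
    apply Real.exp_le_exp.2
    rw [le_div_iff₀ hσ0] at hg
    calc s * σ / (16 * K) = s * (1 / (16 * K) * σ) := by ring
      _ ≤ s * skCen β n g := mul_le_mul_of_nonneg_left hg hs
  have hmono : (skDisorder n).real {g | 1 / (16 * K) ≤ Z g} ≤ (skDisorder n).real {g | ε ≤ Real.exp (s * skCen β n g)} :=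
    measureReal_mono hsub
  have hlow : ε * (1 / (32 * K ^ 2)) ≤ ∫ g, Real.exp (s * skCen β n g) ∂skDisorder n :=
    le_trans (mul_le_mul_of_nonneg_left (hmass.trans hmono) (Real.exp_pos _).le) hmk
  have hlog := Real.log_le_log (by positivity) hlow
  rw [Real.log_mul (Real.exp_pos _).ne' (by positivity), Real.log_exp, one_div, Real.log_inv] at hlog
  linarith

/-- **PE Theorem 1.1** from the positive Laplace window and the exponential tails.   TEX[PE:thm:main] -/
theorem sk_pe_top (β : ℝ) (hw : SkWindow β) (ht : SkTail β) : SkExponent β := by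
  intro η hη
  obtain ⟨t0, C0, ht0, hT⟩ := ht
  obtain ⟨m0, hm00, hw⟩ := hw
  set m : ℝ := min (m0 / 2) (min (1 / 600) (η / 200)) with hm
  have hm0 : 0 < m := lt_min (by positivity) (lt_min (by norm_num) (by positivity))
  have hm1 : m ≤ 1 / 600 := (min_le_right _ _).trans (min_le_left _ _)
  have hm2 : m ≤ η / 200 := (min_le_right _ _).trans (min_le_right _ _)
  have hm3 : m ≤ m0 / 2 := min_le_left _ _
  obtain ⟨c, C, n0, hc, hW⟩ := hw m hm0 (by linarith)
  set K : ℝ := Real.sqrt (192 * C0) / t0 ^ 2 with hK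
  set D : ℝ := 16 * |K| * (|C| + |Real.log (32 * K ^ 2)|) with hD
  have hD0 : 0 ≤ D := by positivity
  -- thresholds
  have T1 : ∀ᶠ n : ℕ in atTop, 2 * C0 + β ^ 2 / 4 < c * (n : ℝ) ^ (20 * m) := by
    have := ((tendsto_rpow_atTop (by positivity : 0 < 20 * m)).comp tendsto_natCast_atTop_atTop).const_mul_atTop hc
    exact this.eventually (eventually_gt_atTop _)
  have T2 : ∀ᶠ n : ℕ in atTop, 8 / t0 ^ 2 ≤ (n : ℝ) ^ (η - 10 * m) := by
    have := (tendsto_rpow_atTop (by linarith : 0 < η - 10 * m)).comp tendsto_natCast_atTop_atTop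
    exact this.eventually (eventually_ge_atTop _)
  have T3 : ∀ᶠ n : ℕ in atTop, 8 / t0 ^ 2 ≤ (n : ℝ) ^ (1 / 3 - 10 * m) := by
    have := (tendsto_rpow_atTop (by linarith : 0 < 1 / 3 - 10 * m)).comp tendsto_natCast_atTop_atTop
    exact this.eventually (eventually_ge_atTop _)
  have T4 : ∀ᶠ n : ℕ in atTop, D ^ 2 ≤ (n : ℝ) ^ (η - 190 * m) := by
    have := (tendsto_rpow_atTop (by linarith : 0 < η - 190 * m)).comp tendsto_natCast_atTop_atTop
    exact this.eventually (eventually_ge_atTop _)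
  obtain ⟨n1, hn1⟩ := eventually_atTop.1 (((T1.and T2).and (T3.and T4)).and (eventually_ge_atTop (max n0 1)))
  refine ⟨n1, fun n hn => ?_⟩
  obtain ⟨⟨⟨t1, t2⟩, t3, t4⟩, hn0⟩ := hn1 n hn
  have hnn0 : n0 ≤ n := (le_max_left _ _).trans hn0
  have hnn1 : 1 ≤ n := (le_max_right _ _).trans hn0
  obtain ⟨w1, w2⟩ := hW n hnn0
  set X : ℝ := (n : ℝ) with hX
  have hX1 : 1 ≤ X := by rw [hX]; exact_mod_cast hnn1
  have hX0 : 0 < X := by linarith
  set V : ℝ := skVariance β n with hV
  have hV0 : 0 ≤ V := variance_nonneg _ _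
  set s : ℝ := X ^ (5 * m) * X ^ (-(1 / 6 : ℝ)) with hs
  have hs0 : 0 < s := by positivity
  have hs' : s = X ^ (5 * m - 1 / 6) := by
    rw [hs, ← Real.rpow_add hX0, sub_eq_add_neg]
  set G : ℝ := (X ^ (5 * m)) ^ 2 * X ^ (-(1 / 3 : ℝ)) * β ^ 2 / 4 with hG
  have hG0 : 0 ≤ G := by positivity
  have hG1 : G ≤ β ^ 2 / 4 := by
    have : (X ^ (5 * m)) ^ 2 * X ^ (-(1 / 3 : ℝ)) ≤ 1 := by
      rw [← Real.rpow_natCast, ← Real.rpow_mul hX0.le, ← Real.rpow_add hX0]
      refine Real.rpow_le_one_of_one_le_of_nonpos hX1 ?_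
      push_cast
      linarith
    rw [hG]
    have h2 : (X ^ (5 * m)) ^ 2 * X ^ (-(1 / 3 : ℝ)) * β ^ 2 ≤ 1 * β ^ 2 := mul_le_mul_of_nonneg_right this (by positivity)
    linarith
  set ℓ : ℝ := Real.log (∫ g, Real.exp (s * skCen β n g) ∂skDisorder n) with hℓ
  have hlam : skLam β n (X ^ (5 * m)) = ℓ + G := by
    unfold skLam
    rfl
  rw [hlam] at w1 w2
  constructor
  · -- lower bound
    have hbig : 2 * C0 < ℓ := by linarith
    have key := sk_pe_low β n t0 C0 s ht0 hs0.le (hT n hnn1) hbig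
    have hs2 : s ^ 2 * X ^ (1 / 3 - 10 * m) = 1 := by
      rw [hs', ← Real.rpow_natCast, ← Real.rpow_mul hX0.le, ← Real.rpow_add hX0]
      have : (5 * m - 1 / 6) * ((2 : ℕ) : ℝ) + (1 / 3 - 10 * m) = 0 := by push_cast; ring
      rw [this, Real.rpow_zero]
    set Y : ℝ := X ^ (1 / 3 - 10 * m) with hY
    set W : ℝ := X ^ (η - 10 * m) with hWd
    have hY0 : 0 < Y := by positivity
    have hW0 : 0 < W := by positivity
    have hYW : X ^ ((1 : ℝ) / 3 - η) * W = Y := by
      rw [hWd, hY, ← Real.rpow_add hX0]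
      congr 1
      ring
    -- `V + 1 > t0^2 Y / 4`
    have k1 : t0 ^ 2 * Y < 4 * (V + 1) := by
      have := mul_lt_mul_of_pos_right key hY0
      have e : 4 * s ^ 2 * (V + 1) * Y = 4 * (V + 1) * (s ^ 2 * Y) := by ring
      rw [e, hs2, mul_one] at this
      exact this
    have ht2 : 0 < t0 ^ 2 := by positivity
    have k2 : 8 ≤ t0 ^ 2 * W := by
      rw [div_le_iff₀ ht2] at t2
      linarith
    have k3 : 8 ≤ t0 ^ 2 * Y := by
      rw [div_le_iff₀ ht2] at t3
      linarith
    set U : ℝ := X ^ ((1 : ℝ) / 3 - η) with hU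
    have hU0 : 0 < U := by positivity
    -- `8 U ≤ t0^2 W U = t0^2 Y`
    have k4 : 8 * U ≤ t0 ^ 2 * Y := by
      rw [← hYW]
      have := mul_le_mul_of_nonneg_right k2 hU0.le
      linarith
    linarith
  · -- upper bound
    have hXη : 1 ≤ X ^ ((1 : ℝ) / 3 + η) := Real.one_le_rpow hX1 (by positivity)
    rcases le_or_gt V 1 with h1 | h1
    · exact h1.trans hXη
    have key := sk_pe_up β n t0 C0 s ht0 hs0.le (hT n hnn1) h1.le
    rw [← hK, ← hℓ, ← hV] at key
    set σ : ℝ := Real.sqrt V with hσ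
    have hσ0 : 0 < σ := Real.sqrt_pos.2 (by linarith)
    have hσ2 : σ ^ 2 = V := Real.sq_sqrt (by linarith)
    have hC0 : 0 < C0 := by
      refine lt_of_lt_of_le ?_ (hT n hnn1)
      have hi : Integrable (fun g => Real.exp (t0 * |skCen β n g| / Real.sqrt (V + 1))) (skDisorder n) := by
        refine (sk_pe_expC β n (t0 / Real.sqrt (V + 1))).congr (Eventually.of_forall fun g => ?_)
        simp only
        congr 1
        ring
      have : ∫ _g : SKPair n → ℝ, (1 : ℝ) ∂skDisorder n ≤ ∫ g, Real.exp (t0 * |skCen β n g| / Real.sqrt (V + 1)) ∂skDisorder n := by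
        refine integral_mono (integrable_const _) hi fun g => ?_
        exact Real.one_le_exp (by positivity)
      have h1' : (1 : ℝ) ≤ ∫ g, Real.exp (t0 * |skCen β n g| / Real.sqrt (V + 1)) ∂skDisorder n := by simpa using this
      linarith
    have hK0 : 0 < K := div_pos (Real.sqrt_pos.2 (by linarith)) (by positivity)
    have hP1 : 1 ≤ X ^ (100 * m) := Real.one_le_rpow hX1 (by positivity)
    have k1 : s * σ / (16 * K) ≤ (|C| + |Real.log (32 * K ^ 2)|) * X ^ (100 * m) := by
      have a1 : C * X ^ (100 * m) ≤ |C| * X ^ (100 * m) := mul_le_mul_of_nonneg_right (le_abs_self _) (by positivity)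
      have a2 : Real.log (32 * K ^ 2) ≤ |Real.log (32 * K ^ 2)| * X ^ (100 * m) :=
        (le_abs_self _).trans (le_mul_of_one_le_right (abs_nonneg _) hP1)
      rw [add_mul]
      linarith
    have k2 : s * σ ≤ D * X ^ (100 * m) := by
      rw [div_le_iff₀ (by positivity)] at k1
      rw [hD, abs_of_pos hK0]
      linarith
    have k3 : σ ≤ D * X ^ (95 * m + 1 / 6) := by
      have e : X ^ (100 * m) = X ^ (95 * m + 1 / 6) * s := by
        rw [hs', ← Real.rpow_add hX0]
        congr 1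
        ring
      rw [e, ← mul_assoc, mul_comm s σ] at k2
      exact le_of_mul_le_mul_right k2 hs0
    calc V = σ ^ 2 := hσ2.symm
      _ ≤ (D * X ^ (95 * m + 1 / 6)) ^ 2 := pow_le_pow_left₀ hσ0.le k3 2
      _ = D ^ 2 * X ^ (190 * m + 1 / 3) := by
          rw [mul_pow, ← Real.rpow_natCast (X ^ (95 * m + 1 / 6)), ← Real.rpow_mul hX0.le]
          congr 2
          push_cast
          ring
      _ ≤ X ^ (η - 190 * m) * X ^ (190 * m + 1 / 3) := mul_le_mul_of_nonneg_right t4 (by positivity)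
      _ = X ^ ((1 : ℝ) / 3 + η) := by
          rw [← Real.rpow_add hX0]
          congr 1
          ring

end Claimed.Agent.R286
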