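import Claimed.Agent.R286.Top.Mom
import Claimed.Prelude.Def_0461

/-!
# Row 286 (S0533), folder Top, file Glue : `SkMom β ⟹ S0533`      (helper76; prefix `sk_top_`)

`skA β n` = the centred log partition function divided by `n^(1/6)` (NO completion, counting prior: the objects of the frozen statement).
`SkMom β` = LL Theorem 1.2 for `skA`: convergence of all moments, `a 2 > 0`, a uniform exponential moment.
`sk_top_main : SkMom β → (statement of S0533)`:   the method of moments is applied DIRECTLY to the standardised variables (no Slutsky).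
-/

set_option autoImplicit false

namespace Claimed.Agent.R286

open MeasureTheory ProbabilityTheory Filter Topology BoundedContinuousFunction
open Claims.C0461

/-- the centred log partition function at the scale `n^(1/6)` -/
noncomputable def skA (β : ℝ) (n : ℕ) (g : SKPair n → ℝ) : ℝ :=
  (skLogPartition β n g - ∫ h, skLogPartition β n h ∂skDisorder n) / (n : ℝ) ^ ((1 : ℝ) / 6)

/-- **the moment theorem** (LL Theorem 1.2, without the completion) -/
def SkMom (β : ℝ) : Prop :=
  ∃ a : ℕ → ℝ, 0 < a 2 ∧ (∀ k : ℕ, Tendsto (fun n => ∫ g, skA β n g ^ k ∂skDisorder n) atTop (𝓝 (a k))) ∧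
    ∃ t0 C : ℝ, 0 < t0 ∧ ∀ n : ℕ, 2 ≤ n → Integrable (fun g => Real.exp (t0 * |skA β n g|)) (skDisorder n) ∧
      ∫ g, Real.exp (t0 * |skA β n g|) ∂skDisorder n ≤ C

theorem sk_top_eqns_cite : True := by
  have := @skA.eq_1
  have := @SkMom.eq_1
  trivial

instance sk_top_prob (n : ℕ) : IsProbabilityMeasure (skDisorder n) := by
  unfold skDisorder
  infer_instance

theorem sk_top_meas (β : ℝ) (n : ℕ) : Measurable (skLogPartition β n) := by
  unfold skLogPartition
  fun_prop

theorem sk_top_measA (β : ℝ) (n : ℕ) : Measurable (skA β n) := by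
  unfold skA
  exact ((sk_top_meas β n).sub_const _).div_const _

theorem sk_top_measS (β : ℝ) (n : ℕ) : Measurable (skStandardized β n) := by
  unfold skStandardized
  exact ((sk_top_meas β n).sub_const _).div_const _

theorem sk_top_sq (n : ℕ) : ((n : ℝ) ^ ((1 : ℝ) / 6)) ^ 2 = (n : ℝ) ^ ((1 : ℝ) / 3) := by
  rw [← Real.rpow_natCast, ← Real.rpow_mul (Nat.cast_nonneg n)]
  norm_num

/-- the variance at the scale `n^(1/3)` is the second moment of `skA` -/
theorem sk_top_var (β : ℝ) (n : ℕ) : skVariance β n / (n : ℝ) ^ ((1 : ℝ) / 3) = ∫ g, skA β n g ^ 2 ∂skDisorder n := by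
  unfold skVariance skA
  rw [variance_eq_integral (sk_top_meas β n).aemeasurable, ← sk_top_sq, ← integral_div]
  simp only [div_pow]

/-- the standardised variable -/
theorem sk_top_std (β : ℝ) (n : ℕ) (hn : 1 ≤ n) (g : SKPair n → ℝ) :
    skStandardized β n g = skA β n g / Real.sqrt (∫ g, skA β n g ^ 2 ∂skDisorder n) := by
  have hd : 0 < (n : ℝ) ^ ((1 : ℝ) / 6) := Real.rpow_pos_of_pos (by exact_mod_cast hn) _
  rw [← sk_top_var, ← sk_top_sq, Real.sqrt_div' _ (by positivity), Real.sqrt_sq hd.le]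
  unfold skStandardized skA
  field_simp

/-- `skA` is centred -/
theorem sk_top_mean (β : ℝ) (n : ℕ) (hn : 1 ≤ n) {t0 : ℝ} (ht0 : 0 < t0) (hi : Integrable (fun g => Real.exp (t0 * |skA β n g|)) (skDisorder n)) :
    ∫ g, skA β n g ∂skDisorder n = 0 := by
  have hd : 0 < (n : ℝ) ^ ((1 : ℝ) / 6) := Real.rpow_pos_of_pos (by exact_mod_cast hn) _
  have hA : Integrable (skA β n) (skDisorder n) := by
    refine Integrable.mono' (hi.const_mul (1 / t0)) (sk_top_measA β n).aestronglyMeasurable (Eventually.of_forall fun g => ?_)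
    rw [Real.norm_eq_abs, one_div, inv_mul_eq_div, le_div_iff₀ ht0, mul_comm]
    linarith [Real.add_one_le_exp (t0 * |skA β n g|)]
  have hF : Integrable (skLogPartition β n) (skDisorder n) := by
    have h1 := (hA.mul_const ((n : ℝ) ^ ((1 : ℝ) / 6))).add (integrable_const (∫ h, skLogPartition β n h ∂skDisorder n))
    refine h1.congr (Eventually.of_forall fun g => ?_)
    simp only [skA, Pi.add_apply]
    rw [div_mul_cancel₀ _ hd.ne']
    ring
  unfold skA
  rw [integral_div, integral_sub hF (integrable_const _), integral_const]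
  simp

/-- **TOP GLUE** : the moment theorem implies the statement of S0533 -/
theorem sk_top_main (β : ℝ) (h : SkMom β) :
    (∃ c : ℝ, 0 < c ∧ Tendsto (fun n : ℕ => skVariance β n / (n : ℝ) ^ ((1 : ℝ) / 3)) atTop (𝓝 c)) ∧
    ∃ ν : Measure ℝ, IsProbabilityMeasure ν ∧ ∫ x, x ∂ν = 0 ∧ ∫ x, x ^ 2 ∂ν = 1 ∧
      (∃ t : ℝ, 0 < t ∧ Integrable (fun x => Real.exp (t * |x|)) ν) ∧
      ∀ f : ℝ →ᵇ ℝ, Tendsto (fun n : ℕ => ∫ g, f (skStandardized β n g) ∂skDisorder n) atTop (𝓝 (∫ x, f x ∂ν)) := by
  obtain ⟨a, ha2, hm, t0, C, ht0, hE⟩ := h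
  have hv : Tendsto (fun n => ∫ g, skA β n g ^ 2 ∂skDisorder n) atTop (𝓝 (a 2)) := hm 2
  refine ⟨⟨a 2, ha2, by simpa only [sk_top_var] using hv⟩, ?_⟩
  set s : ℝ := Real.sqrt (a 2) with hs
  have hs0 : 0 < s := Real.sqrt_pos.2 ha2
  have hs2 : s ^ 2 = a 2 := Real.sq_sqrt ha2.le
  obtain ⟨n0, hn0⟩ := eventually_atTop.1 (hv.eventually_const_le (show a 2 / 4 < a 2 by linarith))
  set n1 : ℕ := max n0 2 with hn1
  have hge : ∀ n : ℕ, n0 ≤ n + n1 ∧ 2 ≤ n + n1 := fun n => ⟨by have := le_max_left n0 2; omega, by have := le_max_right n0 2; omega⟩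
  -- the square roots of the variances
  have hsv : ∀ n : ℕ, s / 2 ≤ Real.sqrt (∫ g, skA β (n + n1) g ^ 2 ∂skDisorder (n + n1)) := by
    intro n
    apply Real.le_sqrt_of_sq_le
    have := hn0 (n + n1) (hge n).1
    rw [div_pow, hs2]
    linarith
  set t1 : ℝ := t0 * (s / 2) with ht1
  have ht1p : 0 < t1 := by positivity
  have hpt : ∀ (n : ℕ) (g : SKPair (n + n1) → ℝ), Real.exp (t1 * |skStandardized β (n + n1) g|) ≤ Real.exp (t0 * |skA β (n + n1) g|) := by
    intro n g
    apply Real.exp_le_exp.2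
    rw [sk_top_std β (n + n1) (by have := (hge n).2; omega) g, abs_div, abs_of_nonneg (Real.sqrt_nonneg _), ht1, mul_assoc]
    apply mul_le_mul_of_nonneg_left _ ht0.le
    have h1 := hsv n
    have h2 : 0 < Real.sqrt (∫ g, skA β (n + n1) g ^ 2 ∂skDisorder (n + n1)) := by linarith [half_pos hs0]
    rw [← mul_div_assoc, div_le_iff₀ h2, mul_comm]
    exact mul_le_mul_of_nonneg_left h1 (abs_nonneg _)
  have hcont : Continuous fun x : ℝ => Real.exp (t1 * |x|) := by fun_prop
  let μ' : ℕ → ProbabilityMeasure ℝ := fun n =>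
    ⟨(skDisorder (n + n1)).map (skStandardized β (n + n1)), Measure.isProbabilityMeasure_map (sk_top_measS β (n + n1)).aemeasurable⟩
  have hμ' : ∀ n, ((μ' n : ProbabilityMeasure ℝ) : Measure ℝ) = (skDisorder (n + n1)).map (skStandardized β (n + n1)) := fun n => rfl
  have hi0 : ∀ n, Integrable (fun g => Real.exp (t1 * |skStandardized β (n + n1) g|)) (skDisorder (n + n1)) := by
    intro n
    refine Integrable.mono' (hE (n + n1) (hge n).2).1 (hcont.measurable.comp (sk_top_measS β (n + n1))).aestronglyMeasurable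
      (Eventually.of_forall fun g => ?_)
    rw [Real.norm_eq_abs, abs_of_pos (Real.exp_pos _)]
    exact hpt n g
  have hint : ∀ n, Integrable (fun x => Real.exp (t1 * |x|)) (μ' n : Measure ℝ) := by
    intro n
    rw [hμ', integrable_map_measure hcont.aestronglyMeasurable (sk_top_measS β (n + n1)).aemeasurable]
    exact hi0 n
  have hC : ∀ n, ∫ x, Real.exp (t1 * |x|) ∂(μ' n : Measure ℝ) ≤ C := by
    intro n
    rw [hμ', integral_map (sk_top_measS β (n + n1)).aemeasurable hcont.aestronglyMeasurable]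
    exact (integral_mono (hi0 n) (hE (n + n1) (hge n).2).1 (hpt n)).trans (hE (n + n1) (hge n).2).2
  have hmom : ∀ k : ℕ, Tendsto (fun n => ∫ x, x ^ k ∂(μ' n : Measure ℝ)) atTop (𝓝 (a k / s ^ k)) := by
    intro k
    have h1 : Tendsto (fun n => (∫ g, skA β n g ^ k ∂skDisorder n) / Real.sqrt (∫ g, skA β n g ^ 2 ∂skDisorder n) ^ k) atTop (𝓝 (a k / s ^ k)) :=
      (hm k).div (((Real.continuous_sqrt.tendsto _).comp hv).pow k) (by positivity)
    refine ((tendsto_add_atTop_iff_nat n1).2 h1).congr fun n => ?_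
    rw [hμ', integral_map (sk_top_measS β (n + n1)).aemeasurable (by fun_prop), ← integral_div]
    refine integral_congr_ae (Eventually.of_forall fun g => ?_)
    simp only
    rw [sk_top_std β (n + n1) (by have := (hge n).2; omega) g, div_pow]
  obtain ⟨ν, hν, hνi, hνm⟩ := sk_mm_main μ' (fun k => a k / s ^ k) t1 C ht1p (fun n => ⟨hint n, hC n⟩) hmom
  have ha1 : a 1 = 0 := by
    refine tendsto_nhds_unique (hm 1) (tendsto_const_nhds.congr' ?_)
    filter_upwards [eventually_ge_atTop 2] with n hn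
    simp only [pow_one]
    exact (sk_top_mean β n (by omega) ht0 (hE n hn).1).symm
  refine ⟨(ν : Measure ℝ), inferInstance, ?_, ?_, ⟨t1, ht1p, hνi⟩, fun f => ?_⟩
  · have := hνm 1
    simp only [pow_one] at this
    rw [this, ha1, zero_div]
  · rw [hνm 2, hs2, div_self ha2.ne']
  · rw [ProbabilityMeasure.tendsto_iff_forall_integral_tendsto] at hν
    refine (tendsto_add_atTop_iff_nat n1).1 ((hν f).congr fun n => ?_)
    rw [hμ', integral_map (sk_top_measS β (n + n1)).aemeasurable f.continuous.aestronglyMeasurable]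

end Claimed.Agent.R286
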