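import Mathlib

/-!
# Row 286 (S0533), unit TOP, file BOOT: THE STOPPED DRIFT LEMMA      (helper220; prefix `sk_bt_`)      Mathlib only, sorry free

`sk_bt_boot`: `f` absolutely continuous on `[a,b]`; whenever `f t ≤ L` the speed is `≤ G t`; `∫ G ≤ δ`; at ONE point `t0`, `f t0 + δ < L`.   Then `|f t - f t0| ≤ δ` on `[a,b]` ("continuity excludes a first violation", LL l.336-339).
-/

set_option autoImplicit false

namespace Claimed.Agent.R286

open MeasureTheory Set

/-- the integral of a nonnegative function over a sub-interval, any orientation -/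
theorem sk_bt_sub {G : ℝ → ℝ} {a b u v : ℝ} (hG : IntervalIntegrable G volume a b) (hG0 : ∀ t, 0 ≤ G t) (hu : u ∈ Icc a b) (hv : v ∈ Icc a b) :
    |∫ t in u..v, G t| ≤ ∫ t in a..b, G t := by
  have key : ∀ u v : ℝ, u ∈ Icc a b → v ∈ Icc a b → u ≤ v → |∫ t in u..v, G t| ≤ ∫ t in a..b, G t := by
    intro u v hu hv huv
    rw [abs_of_nonneg (intervalIntegral.integral_nonneg huv fun t _ => hG0 t)]
    exact intervalIntegral.integral_mono_interval hu.1 huv hv.2 (Filter.Eventually.of_forall fun t => hG0 t) hG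
  rcases le_total u v with h | h
  · exact key u v hu hv h
  · rw [intervalIntegral.integral_symm, abs_neg]
    exact key v u hv hu h

/-- **the stopped drift lemma** -/
theorem sk_bt_boot {f G : ℝ → ℝ} {a b t0 L δ : ℝ} (hab : a ≤ b) (hf : AbsolutelyContinuousOnInterval f a b) (ht0 : t0 ∈ Icc a b)
    (hG : IntervalIntegrable G volume a b) (hG0 : ∀ t, 0 ≤ G t) (hδ : ∫ t in a..b, G t ≤ δ)
    (hd : ∀ᵐ t, t ∈ Icc a b → f t ≤ L → |deriv f t| ≤ G t) (h0 : f t0 + δ < L) :
    ∀ t ∈ Icc a b, |f t - f t0| ≤ δ := by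
  have hsub : ∀ u ∈ Icc a b, uIcc t0 u ⊆ Icc a b := fun u hu => by
    rw [← uIcc_of_le hab]
    exact uIcc_subset_uIcc (by rwa [uIcc_of_le hab]) (by rwa [uIcc_of_le hab])
  have claim1 : ∀ u ∈ Icc a b, (∀ᵐ v, v ∈ uIoc t0 u → f v ≤ L) → |f u - f t0| ≤ δ := by
    intro u hu hL
    have hac : AbsolutelyContinuousOnInterval f t0 u := hf.mono (by rw [uIcc_of_le hab]; exact hsub u hu)
    rw [← hac.integral_deriv_eq_sub, ← Real.norm_eq_abs]
    have hGi : IntervalIntegrable G volume t0 u := hG.mono_set (by rw [uIcc_of_le hab]; exact hsub u hu)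
    refine (intervalIntegral.norm_integral_le_abs_of_norm_le ?_ hGi).trans ((sk_bt_sub hG hG0 ht0 hu).trans hδ)
    rw [ae_restrict_iff' measurableSet_uIoc]
    filter_upwards [hd, hL] with v h1 h2 hv
    rw [Real.norm_eq_abs]
    exact h1 (hsub u hu (uIoc_subset_uIcc hv)) (h2 hv)
  have hcont : ContinuousOn f (Icc a b) := by
    have := hf.continuousOn
    rwa [uIcc_of_le hab] at this
  have claim2 : ∀ t ∈ Icc a b, f t < L := by
    by_contra hcon
    push Not at hcon
    obtain ⟨t1, ht1, hLt⟩ := hcon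
    have hScomp : IsCompact (uIcc t0 t1 ∩ f ⁻¹' Ici L) := by
      have hcl : IsClosed (uIcc t0 t1 ∩ f ⁻¹' Ici L) := (hcont.mono (hsub t1 ht1)).preimage_isClosed_of_isClosed isClosed_Icc isClosed_Ici
      exact isCompact_uIcc.of_isClosed_subset hcl inter_subset_left
    obtain ⟨u, hu, hmin⟩ := hScomp.exists_isMinOn ⟨t1, right_mem_uIcc, hLt⟩ (f := fun u => |u - t0|) (by fun_prop)
    have huab : u ∈ Icc a b := hsub t1 ht1 hu.1
    have h3 : |f u - f t0| ≤ δ := by
      refine claim1 u huab ?_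
      have hne : ∀ᵐ v : ℝ, v ≠ u := by simp [ae_iff, measure_singleton]
      filter_upwards [hne] with v hvne hv
      by_contra hLv
      push Not at hLv
      have hvS : v ∈ uIcc t0 t1 ∩ f ⁻¹' Ici L := by
        refine ⟨?_, hLv.le⟩
        exact uIcc_subset_uIcc left_mem_uIcc hu.1 (uIoc_subset_uIcc hv)
      have h4 : |u - t0| ≤ |v - t0| := hmin hvS
      rcases le_total t0 u with h | h
      · rw [uIoc_of_le h] at hv
        rw [abs_of_nonneg (by linarith), abs_of_nonneg (by linarith [hv.1])] at h4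
        exact hvne (le_antisymm hv.2 (by linarith))
      · rw [uIoc_of_ge h] at hv
        rw [abs_of_nonpos (by linarith), abs_of_nonpos (by linarith [hv.2])] at h4
        have : v ≤ u := by linarith
        exact absurd hv.1 (not_lt.2 this)
    have h5 : L ≤ f u := hu.2
    have := (abs_le.1 h3).2
    linarith
  intro t ht
  exact claim1 t ht (Filter.Eventually.of_forall fun v hv => (claim2 v (hsub t ht (uIoc_subset_uIcc hv))).le)

end Claimed.Agent.R286
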