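import Mathlib

/-!
# Row 286 (S0533), unit TOP, file DISC: FINITE SUMS OVER THE SITE COUNTS      (helper220; prefix `sk_dc_`)      Mathlib only, sorry free

* `sk_dc_conv`    a convex combination `≤ L` has a contributing term `≤ L`
* `sk_dc_tel`     neighbour bounds telescope
* `sk_dc_shift`   moving the stencil from the sequence to the weights
* `sk_dc_avg`     a convex combination is close to each value it is made of
-/

set_option autoImplicit false

namespace Claimed.Agent.R286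

theorem sk_dc_conv {S : Finset ℕ} {w K : ℕ → ℝ} {L : ℝ} (hw : ∀ m ∈ S, 0 ≤ w m) (h1 : ∑ m ∈ S, w m = 1) (hL : ∑ m ∈ S, w m * K m ≤ L) :
    ∃ m ∈ S, w m ≠ 0 ∧ K m ≤ L := by
  by_contra hcon
  push Not at hcon
  have h2 : 0 < ∑ m ∈ S, w m * (K m - L) := by
    refine Finset.sum_pos' (fun m hm => ?_) ?_
    · by_cases h0 : w m = 0
      · rw [h0, zero_mul]
      · exact mul_nonneg (hw m hm) (sub_nonneg.2 (hcon m hm h0).le)
    · have : ∃ m ∈ S, w m ≠ 0 := by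
        by_contra h
        push Not at h
        rw [Finset.sum_eq_zero h] at h1
        exact zero_ne_one h1
      obtain ⟨m, hm, h0⟩ := this
      exact ⟨m, hm, mul_pos (lt_of_le_of_ne (hw m hm) (Ne.symm h0)) (sub_pos.2 (hcon m hm h0))⟩
  have h3 : ∑ m ∈ S, w m * (K m - L) = ∑ m ∈ S, w m * K m - L := by
    simp only [mul_sub]
    rw [Finset.sum_sub_distrib, ← Finset.sum_mul, h1, one_mul]
  linarith

theorem sk_dc_tel {Z : ℕ → ℝ} {a b : ℕ} {c : ℝ} (h : ∀ m, a ≤ m → m + 1 ≤ b → |Z (m + 1) - Z m| ≤ c) :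
    ∀ m m', a ≤ m → m ≤ m' → m' ≤ b → |Z m' - Z m| ≤ c * ((m' : ℝ) - m) := by
  intro m m' ha hmm
  induction m', hmm using Nat.le_induction with
  | base => intro _; simp
  | succ k hk ih =>
    intro hb
    have h1 := ih (by omega)
    have h2 := h k (by omega) hb
    calc |Z (k + 1) - Z m| = |(Z (k + 1) - Z k) + (Z k - Z m)| := by ring_nf
      _ ≤ |Z (k + 1) - Z k| + |Z k - Z m| := abs_add_le _ _
      _ ≤ c + c * ((k : ℝ) - m) := add_le_add h2 h1
      _ = c * (((k + 1 : ℕ) : ℝ) - m) := by push_cast; ring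

/-- both orders -/
theorem sk_dc_tel' {Z : ℕ → ℝ} {a b : ℕ} {c : ℝ} (h : ∀ m, a ≤ m → m + 1 ≤ b → |Z (m + 1) - Z m| ≤ c) (m m' : ℕ) (hm : a ≤ m ∧ m ≤ b) (hm' : a ≤ m' ∧ m' ≤ b) :
    |Z m' - Z m| ≤ c * |(m' : ℝ) - m| := by
  rcases le_total m m' with h1 | h1
  · have h2 : (0 : ℝ) ≤ (m' : ℝ) - m := sub_nonneg.2 (by exact_mod_cast h1)
    rw [abs_of_nonneg h2]
    exact sk_dc_tel h m m' hm.1 h1 hm'.2
  · have h2 : (0 : ℝ) ≤ (m : ℝ) - m' := sub_nonneg.2 (by exact_mod_cast h1)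
    rw [abs_sub_comm, abs_sub_comm (m' : ℝ), abs_of_nonneg h2]
    exact sk_dc_tel h m' m hm'.1 h1 hm.2

theorem sk_dc_shift {w : ℝ → ℝ} {n : ℝ} {a b r : ℕ} (c Z : ℕ → ℝ) (hlo : ∀ y : ℝ, y ≤ (a : ℝ) - 1 - n → w y = 0) (hhi : ∀ y : ℝ, (b : ℝ) + 1 - n ≤ y → w y = 0) :
    ∑ m ∈ Finset.Icc a b, w ((m : ℝ) - n) * ∑ j ∈ Finset.range (r + 1), c j * Z (m + j)
      = ∑ m ∈ Finset.Icc a (b + r), (∑ j ∈ Finset.range (r + 1), c j * w ((m : ℝ) - n - j)) * Z m := by
  simp only [Finset.mul_sum, Finset.sum_mul]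
  rw [Finset.sum_comm, Finset.sum_comm (s := Finset.Icc a (b + r))]
  refine Finset.sum_congr rfl fun j hj => ?_
  have hjr : j ≤ r := Nat.lt_succ_iff.1 (Finset.mem_range.1 hj)
  have e1 : ∑ m ∈ Finset.Icc a b, w ((m : ℝ) - n) * (c j * Z (m + j)) = ∑ m ∈ Finset.Icc (a + j) (b + j), c j * w ((m : ℝ) - n - j) * Z m := by
    rw [← Finset.image_add_right_Icc, Finset.sum_image (fun x _ y _ h => Nat.add_right_cancel h)]
    refine Finset.sum_congr rfl fun m _ => ?_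
    have : ((m + j : ℕ) : ℝ) - n - j = (m : ℝ) - n := by push_cast; ring
    rw [this]
    ring
  rw [e1]
  refine Finset.sum_subset (fun m hm => ?_) (fun m hm hm' => ?_)
  · rw [Finset.mem_Icc] at hm ⊢
    omega
  · rw [Finset.mem_Icc] at hm hm'
    have : m + 1 ≤ a + j ∨ b + j + 1 ≤ m := by omega
    rcases this with h | h
    · have h' : (m : ℝ) + 1 ≤ a + j := by exact_mod_cast h
      rw [hlo _ (by linarith)]
      ring
    · have h' : (b : ℝ) + j + 1 ≤ m := by exact_mod_cast h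
      rw [hhi _ (by linarith)]
      ring

theorem sk_dc_avg {S : Finset ℕ} {w K : ℕ → ℝ} {v d : ℝ} (hw : ∀ m ∈ S, 0 ≤ w m) (h1 : ∑ m ∈ S, w m = 1) (hd : ∀ m ∈ S, w m ≠ 0 → |K m - v| ≤ d) :
    |∑ m ∈ S, w m * K m - v| ≤ d := by
  have e : ∑ m ∈ S, w m * K m - v = ∑ m ∈ S, w m * (K m - v) := by
    simp only [mul_sub]
    rw [Finset.sum_sub_distrib, ← Finset.sum_mul, h1, one_mul]
  rw [e]
  refine (Finset.abs_sum_le_sum_abs _ _).trans ?_
  calc ∑ m ∈ S, |w m * (K m - v)| ≤ ∑ m ∈ S, w m * d := by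
        refine Finset.sum_le_sum fun m hm => ?_
        rw [abs_mul, abs_of_nonneg (hw m hm)]
        by_cases h0 : w m = 0
        · rw [h0, zero_mul, zero_mul]
        · exact mul_le_mul_of_nonneg_left (hd m hm h0) (hw m hm)
    _ = d := by rw [← Finset.sum_mul, h1, one_mul]

end Claimed.Agent.R286
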