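import Claimed.Agent.R286.Top.Sten

/-!
# Row 286 (S0533), folder Top, file Site : mollification in the number of sites      (helper4; prefix `sk_site_`)

LL Sec. 4.2 (`red:lem-site-smoothing`, first half); complements `Top/Sten.lean` (helper220), whose `skW` is used.
The weights are `w_m(n) = skW D (m - n)`, `skW D u = Φ((u+1)/D) - Φ(u/D)`, `Φ = Real.smoothTransition`: this is `∫_u^{u+1} D⁻¹ ρ(t/D) dt` for the
smooth density `ρ = Φ'`, so that `∑_m w_m(n) = 1` EXACTLY (telescoping): the "smooth sum-integral comparison" of the paper is not needed.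
* `sk_site_nonneg`, `sk_site_le_one`, `sk_site_supp` (`skW D u ≠ 0 → -1 < u < D`), `sk_site_sum` (exact partition of unity)
* `sk_site_contDiff`, `sk_site_deriv_bd` : `|iteratedDeriv k (skW D) u| ≤ B_k D^(-(k+1))`
* `sk_site_stencil` : `|∑_{j ≤ r} c_j skW D (u - j) + (skW D)'(u)| ≤ A D^(-(r+2))` for a stencil `c` of order `r`
* `sk_site_parts` : `∑_m w_m ∑_j c_j Z_{m+j} = ∑_m Z_m ∑_j c_j w_{m-j}`;   `sk_site_main` : the site-derivative formula with error `A (D + r + 2) D^(-(r+2)) sup |Z|`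
-/

set_option autoImplicit false

namespace Claimed.Agent.R286

open Filter Topology

/-- all derivatives of the smooth transition are bounded -/
theorem sk_site_trans_bd (k : ℕ) : ∃ B : ℝ, 0 ≤ B ∧ ∀ x : ℝ, |iteratedDeriv k Real.smoothTransition x| ≤ B := by
  have hc : Continuous (iteratedDeriv k Real.smoothTransition) :=
    (Real.smoothTransition.contDiff (n := (k : ℕ∞))).continuous_iteratedDeriv k le_rfl
  obtain ⟨B0, hB0⟩ := (isCompact_Icc (a := (0 : ℝ)) (b := 1)).exists_bound_of_continuousOn hc.continuousOn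
  refine ⟨max B0 1, le_trans zero_le_one (le_max_right _ _), fun x => ?_⟩
  rcases lt_or_ge x 0 with hx | hx
  · have h1 : Real.smoothTransition =ᶠ[𝓝 x] fun _ => (0 : ℝ) := by
      filter_upwards [Iio_mem_nhds hx] with y hy using Real.smoothTransition.zero_of_nonpos (le_of_lt hy)
    rw [h1.iteratedDeriv_eq k, iteratedDeriv_const]
    split_ifs <;> simp
  · rcases le_or_gt x 1 with hx1 | hx1
    · exact (hB0 x ⟨hx, hx1⟩).trans (le_max_left _ _)
    · have h1 : Real.smoothTransition =ᶠ[𝓝 x] fun _ => (1 : ℝ) := by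
        filter_upwards [Ioi_mem_nhds hx1] with y hy using Real.smoothTransition.one_of_one_le (le_of_lt hy)
      rw [h1.iteratedDeriv_eq k, iteratedDeriv_const]
      split_ifs <;> simp

theorem sk_site_nonneg {D : ℝ} (hD : 0 < D) (u : ℝ) : 0 ≤ skW D u := by
  unfold skW
  have : u / D ≤ (u + 1) / D := by gcongr; linarith
  linarith [Real.smoothTransition.monotone this]

theorem sk_site_le_one (D u : ℝ) : skW D u ≤ 1 := by
  unfold skW
  linarith [Real.smoothTransition.le_one ((u + 1) / D), Real.smoothTransition.nonneg (u / D)]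

theorem sk_site_zero_left {D : ℝ} (hD : 0 < D) {u : ℝ} (hu : u ≤ -1) : skW D u = 0 := by
  unfold skW
  rw [Real.smoothTransition.zero_of_nonpos (div_nonpos_of_nonpos_of_nonneg (by linarith) hD.le),
    Real.smoothTransition.zero_of_nonpos (div_nonpos_of_nonpos_of_nonneg (by linarith) hD.le), sub_self]

theorem sk_site_zero_right {D : ℝ} (hD : 0 < D) {u : ℝ} (hu : D ≤ u) : skW D u = 0 := by
  unfold skW
  rw [Real.smoothTransition.one_of_one_le ((one_le_div hD).2 (by linarith)),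
    Real.smoothTransition.one_of_one_le ((one_le_div hD).2 hu), sub_self]

theorem sk_site_supp {D : ℝ} (hD : 0 < D) {u : ℝ} (h : skW D u ≠ 0) : -1 < u ∧ u < D := by
  constructor
  · by_contra hc
    exact h (sk_site_zero_left hD (not_lt.1 hc))
  · by_contra hc
    exact h (sk_site_zero_right hD (not_lt.1 hc))

/-- **exact partition of unity** -/
theorem sk_site_sum {D : ℝ} (hD : 0 < D) {n : ℝ} (hn : 0 ≤ n) {M : ℕ} (hM : n + D ≤ M) :
    ∑ m ∈ Finset.range M, skW D ((m : ℝ) - n) = 1 := by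
  have h := Finset.sum_range_sub (fun m : ℕ => Real.smoothTransition (((m : ℝ) - n) / D)) M
  have h1 : ∀ m : ℕ, skW D ((m : ℝ) - n) =
      Real.smoothTransition ((((m + 1 : ℕ) : ℝ) - n) / D) - Real.smoothTransition (((m : ℝ) - n) / D) := by
    intro m
    unfold skW
    congr 2
    push_cast
    ring
  simp only [h1]
  rw [h, Real.smoothTransition.one_of_one_le ((one_le_div hD).2 (by linarith)),
    Real.smoothTransition.zero_of_nonpos (div_nonpos_of_nonpos_of_nonneg (by simpa using hn) hD.le), sub_zero]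

theorem sk_site_contDiff (D : ℝ) : ContDiff ℝ (⊤ : ℕ∞) (skW D) := by
  unfold skW
  exact (Real.smoothTransition.contDiff.comp (by fun_prop)).sub (Real.smoothTransition.contDiff.comp (by fun_prop))

/-- the derivatives of the profile -/
theorem sk_site_iter (D : ℝ) (k : ℕ) (u : ℝ) : iteratedDeriv k (skW D) u =
    (D⁻¹) ^ k * (iteratedDeriv k Real.smoothTransition (D⁻¹ * (u + 1)) - iteratedDeriv k Real.smoothTransition (D⁻¹ * u)) := by
  have hT : ContDiff ℝ (k : ℕ∞) Real.smoothTransition := Real.smoothTransition.contDiff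
  have h1 := iteratedDeriv_comp_const_mul (n := k) (f := Real.smoothTransition) (by exact_mod_cast hT) D⁻¹
  have h2 := iteratedDeriv_comp_add_const k (fun x => Real.smoothTransition (D⁻¹ * x)) 1
  have hc1 : ContDiff ℝ (k : ℕ∞) (fun x : ℝ => Real.smoothTransition (D⁻¹ * x)) := hT.comp (by fun_prop)
  have hc2 : ContDiff ℝ (k : ℕ∞) (fun x : ℝ => Real.smoothTransition (D⁻¹ * (x + 1))) := hT.comp (by fun_prop)
  have he : skW D = (fun x : ℝ => Real.smoothTransition (D⁻¹ * (x + 1))) - fun x : ℝ => Real.smoothTransition (D⁻¹ * x) := by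
    funext x
    simp only [skW, Pi.sub_apply, div_eq_inv_mul]
  rw [he, iteratedDeriv_sub (by exact_mod_cast hc2.contDiffAt) (by exact_mod_cast hc1.contDiffAt), h2, h1]
  ring

/-- `|W^{(k)}| ≤ B_k D^{-(k+1)}` -/
theorem sk_site_deriv_bd (k : ℕ) : ∃ B : ℝ, 0 ≤ B ∧ ∀ (D : ℝ), 0 < D → ∀ u : ℝ, |iteratedDeriv k (skW D) u| ≤ B * (D⁻¹) ^ (k + 1) := by
  obtain ⟨B, hB0, hB⟩ := sk_site_trans_bd (k + 1)
  refine ⟨B, hB0, fun D hD u => ?_⟩
  have hT : ContDiff ℝ ((k + 1 : ℕ) : ℕ∞) Real.smoothTransition := Real.smoothTransition.contDiff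
  have hdiff : ∀ x ∈ (Set.univ : Set ℝ), DifferentiableAt ℝ (iteratedDeriv k Real.smoothTransition) x := by
    intro x _
    have := (hT.differentiable_iteratedDeriv k (by exact_mod_cast Nat.lt_succ_self k)) x
    exact this
  have hmv := Convex.norm_image_sub_le_of_norm_deriv_le (𝕜 := ℝ) (f := iteratedDeriv k Real.smoothTransition) (s := Set.univ)
    (x := D⁻¹ * u) (y := D⁻¹ * (u + 1)) (C := B) hdiff
    (fun x _ => by rw [← iteratedDeriv_succ]; exact hB x) convex_univ (Set.mem_univ _) (Set.mem_univ _)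
  rw [sk_site_iter, abs_mul, abs_of_nonneg (by positivity : 0 ≤ (D⁻¹) ^ k)]
  have h3 : ‖D⁻¹ * (u + 1) - D⁻¹ * u‖ = D⁻¹ := by
    have : D⁻¹ * (u + 1) - D⁻¹ * u = D⁻¹ := by ring
    rw [this, Real.norm_eq_abs, abs_of_pos (inv_pos.2 hD)]
  rw [h3, Real.norm_eq_abs] at hmv
  calc (D⁻¹) ^ k * |iteratedDeriv k Real.smoothTransition (D⁻¹ * (u + 1)) - iteratedDeriv k Real.smoothTransition (D⁻¹ * u)|
      ≤ (D⁻¹) ^ k * (B * D⁻¹) := by gcongr
    _ = B * (D⁻¹) ^ (k + 1) := by ring

/-- Taylor's formula at `0` for a smooth function on the line, with a global bound of the next derivative -/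
theorem sk_site_taylor (g : ℝ → ℝ) (hg : ContDiff ℝ (⊤ : ℕ∞) g) (r : ℕ) (K : ℝ) (hK : ∀ x, |iteratedDeriv (r + 1) g x| ≤ K) (x : ℝ) :
    |g x - ∑ k ∈ Finset.range (r + 1), iteratedDeriv k g 0 / (k.factorial : ℝ) * x ^ k| ≤ K * |x| ^ (r + 1) / ((r + 1).factorial : ℝ) := by
  rcases eq_or_ne x 0 with rfl | hx
  · rw [Finset.sum_range_succ']
    simp
  · have hcd : ContDiffOn ℝ ((r : WithTop ℕ∞) + 1) g (Set.uIcc 0 x) := by
      have : ContDiff ℝ ((r : WithTop ℕ∞) + 1) g := hg.of_le (by exact_mod_cast le_top)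
      exact this.contDiffOn
    obtain ⟨x', -, hx'⟩ := taylor_mean_remainder_lagrange_iteratedDeriv (f := g) (x₀ := 0) (x := x) (n := r) (Ne.symm hx) hcd
    have hU : UniqueDiffOn ℝ (Set.uIcc 0 x) := by
      rw [Set.uIcc]
      exact uniqueDiffOn_Icc (by
        rcases lt_or_gt_of_ne hx with h | h
        · simp [h]
        · simp [h])
    have hT : taylorWithinEval g r (Set.uIcc 0 x) 0 x = ∑ k ∈ Finset.range (r + 1), iteratedDeriv k g 0 / (k.factorial : ℝ) * x ^ k := by
      rw [taylor_within_apply]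
      refine Finset.sum_congr rfl fun k _ => ?_
      rw [iteratedDerivWithin_eq_iteratedDeriv hU ((hg.of_le (by exact_mod_cast le_top)).contDiffAt) Set.left_mem_uIcc]
      simp only [sub_zero, smul_eq_mul]
      ring
    rw [← hT, hx', sub_zero, abs_div, abs_mul, abs_pow, abs_of_pos (by positivity : (0 : ℝ) < ((r + 1).factorial : ℝ))]
    gcongr
    exact hK x'

/-- **the stencil error** : `∑_j c_j W(u - j) = - W'(u) + O(D^{-(r+2)})` -/
theorem sk_site_stencil (r : ℕ) (hr : 1 ≤ r) (c : ℕ → ℝ)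
    (hc : ∀ P : Polynomial ℝ, P.natDegree ≤ r → ∑ j ∈ Finset.range (r + 1), c j * P.eval (j : ℝ) = P.derivative.eval 0) :
    ∃ A : ℝ, 0 ≤ A ∧ ∀ D : ℝ, 0 < D → ∀ u : ℝ,
      |∑ j ∈ Finset.range (r + 1), c j * skW D (u - j) + deriv (skW D) u| ≤ A * (D⁻¹) ^ (r + 2) := by
  obtain ⟨B, hB0, hB⟩ := sk_site_deriv_bd (r + 1)
  refine ⟨(∑ j ∈ Finset.range (r + 1), |c j| * ((j : ℝ) ^ (r + 1) / ((r + 1).factorial : ℝ))) * B,
    mul_nonneg (Finset.sum_nonneg fun j _ => by positivity) hB0, fun D hD u => ?_⟩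
  set g : ℝ → ℝ := fun t => skW D (u - t) with hg
  have hgc : ContDiff ℝ (⊤ : ℕ∞) g := (sk_site_contDiff D).comp (by fun_prop)
  have hit : ∀ (k : ℕ) (t : ℝ), iteratedDeriv k g t = (-1) ^ k * iteratedDeriv k (skW D) (u - t) := by
    intro k t
    have := congrFun (iteratedDeriv_comp_const_sub k (skW D) u) t
    simpa [hg, smul_eq_mul] using this
  have hK : ∀ x, |iteratedDeriv (r + 1) g x| ≤ B * (D⁻¹) ^ (r + 2) := by
    intro x
    rw [hit, abs_mul, abs_pow, abs_neg, abs_one, one_pow, one_mul]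
    exact hB D hD _
  set a : ℕ → ℝ := fun k => iteratedDeriv k g 0 / (k.factorial : ℝ) with ha
  set P : Polynomial ℝ := ∑ k ∈ Finset.range (r + 1), Polynomial.C (a k) * Polynomial.X ^ k with hP
  have hdeg : P.natDegree ≤ r := by
    refine Polynomial.natDegree_sum_le_of_forall_le _ _ fun k hk => ?_
    exact (Polynomial.natDegree_C_mul_X_pow_le _ _).trans (Nat.lt_succ_iff.1 (Finset.mem_range.1 hk))
  have heval : ∀ x : ℝ, P.eval x = ∑ k ∈ Finset.range (r + 1), a k * x ^ k := by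
    intro x
    simp only [hP, Polynomial.eval_finsetSum, Polynomial.eval_mul, Polynomial.eval_C, Polynomial.eval_pow, Polynomial.eval_X]
  have hder : P.derivative.eval 0 = - deriv (skW D) u := by
    rw [← Polynomial.coeff_zero_eq_eval_zero, Polynomial.coeff_derivative]
    have h1 : P.coeff (0 + 1) = a 1 := by
      simp only [hP, Polynomial.finsetSum_coeff, Polynomial.coeff_C_mul_X_pow]
      rw [Finset.sum_eq_single 1]
      · simp
      · intro b _ hb
        rw [if_neg (by omega)]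
      · intro h
        exact absurd (Finset.mem_range.2 (by omega)) h
    rw [h1, ha]
    simp only [hit, iteratedDeriv_one, sub_zero]
    simp
  have hsplit : ∑ j ∈ Finset.range (r + 1), c j * skW D (u - j) + deriv (skW D) u
      = ∑ j ∈ Finset.range (r + 1), c j * (g j - P.eval (j : ℝ)) := by
    have h2 := hc P hdeg
    rw [hder] at h2
    simp only [mul_sub, Finset.sum_sub_distrib]
    rw [h2]
    simp [hg]
  rw [hsplit]
  calc |∑ j ∈ Finset.range (r + 1), c j * (g j - P.eval (j : ℝ))|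
      ≤ ∑ j ∈ Finset.range (r + 1), |c j| * |g j - P.eval (j : ℝ)| := by
        refine (Finset.abs_sum_le_sum_abs _ _).trans (le_of_eq ?_)
        exact Finset.sum_congr rfl fun j _ => abs_mul _ _
    _ ≤ ∑ j ∈ Finset.range (r + 1), |c j| * ((j : ℝ) ^ (r + 1) / ((r + 1).factorial : ℝ) * (B * (D⁻¹) ^ (r + 2))) := by
        refine Finset.sum_le_sum fun j _ => ?_
        refine mul_le_mul_of_nonneg_left ?_ (abs_nonneg _)
        have h3 := sk_site_taylor g hgc r _ hK (j : ℝ)
        rw [heval]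
        refine h3.trans (le_of_eq ?_)
        rw [abs_of_nonneg (Nat.cast_nonneg j)]
        ring
    _ = (∑ j ∈ Finset.range (r + 1), |c j| * ((j : ℝ) ^ (r + 1) / ((r + 1).factorial : ℝ))) * B * (D⁻¹) ^ (r + 2) := by
        rw [Finset.sum_mul, Finset.sum_mul]
        refine Finset.sum_congr rfl fun j _ => ?_
        ring

/-- one shifted sum -/
theorem sk_site_shift {D : ℝ} (hD : 0 < D) {n : ℝ} (hn : 0 ≤ n) {M : ℕ} (hM : n + D ≤ M) (r j : ℕ) (hj : j ≤ r) (Z : ℕ → ℝ) :
    ∑ m ∈ Finset.range M, skW D ((m : ℝ) - n) * Z (m + j) = ∑ m ∈ Finset.range (M + r), Z m * skW D ((m : ℝ) - n - j) := by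
  have e1 : M + r = j + (M + (r - j)) := by omega
  rw [e1, Finset.sum_range_add, Finset.sum_range_add]
  have h1 : ∑ x ∈ Finset.range j, Z x * skW D ((x : ℝ) - n - j) = 0 := by
    refine Finset.sum_eq_zero fun x hx => ?_
    have hx' : (x : ℝ) + 1 ≤ j := by exact_mod_cast Finset.mem_range.1 hx
    rw [sk_site_zero_left hD (by linarith), mul_zero]
  have h2 : ∑ x ∈ Finset.range (r - j), Z (j + (M + x)) * skW D (((j + (M + x) : ℕ) : ℝ) - n - j) = 0 := by
    refine Finset.sum_eq_zero fun x _ => ?_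
    have hx' : (0 : ℝ) ≤ x := Nat.cast_nonneg x
    rw [sk_site_zero_right hD (by push_cast; linarith), mul_zero]
  rw [h1, h2, zero_add, add_zero]
  refine Finset.sum_congr rfl fun m _ => ?_
  have : ((j + m : ℕ) : ℝ) - n - j = (m : ℝ) - n := by push_cast; ring
  rw [this, add_comm m j, mul_comm]

/-- **summation by parts** : the stencil is moved from `Z` to the weights -/
theorem sk_site_parts {D : ℝ} (hD : 0 < D) {n : ℝ} (hn : 0 ≤ n) {M : ℕ} (hM : n + D ≤ M) (r : ℕ) (c Z : ℕ → ℝ) :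
    ∑ m ∈ Finset.range M, skW D ((m : ℝ) - n) * ∑ j ∈ Finset.range (r + 1), c j * Z (m + j)
      = ∑ m ∈ Finset.range (M + r), Z m * ∑ j ∈ Finset.range (r + 1), c j * skW D ((m : ℝ) - n - j) := by
  simp only [Finset.mul_sum]
  rw [Finset.sum_comm]
  conv_rhs => rw [Finset.sum_comm]
  refine Finset.sum_congr rfl fun j hj => ?_
  have h := sk_site_shift hD hn hM r j (Nat.lt_succ_iff.1 (Finset.mem_range.1 hj)) Z
  calc ∑ m ∈ Finset.range M, skW D ((m : ℝ) - n) * (c j * Z (m + j))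
      = c j * ∑ m ∈ Finset.range M, skW D ((m : ℝ) - n) * Z (m + j) := by
        rw [Finset.mul_sum]
        exact Finset.sum_congr rfl fun m _ => by ring
    _ = c j * ∑ m ∈ Finset.range (M + r), Z m * skW D ((m : ℝ) - n - j) := by rw [h]
    _ = ∑ m ∈ Finset.range (M + r), Z m * (c j * skW D ((m : ℝ) - n - j)) := by
        rw [Finset.mul_sum]
        exact Finset.sum_congr rfl fun m _ => by ring

/-- **LL Lemma 4.3, first display** (crude count of the sites: the factor `M + r`; the order `r` is at our disposal) :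
`d/dn ∑_m w_m(n) Z_m = ∑_m w_m(n) ∑_j c_j Z_{m+j} + O((M + r) D^{-(r+2)} sup |Z|)`, where `d/dn w_m(n) = - W'(m - n)` -/
theorem sk_site_main (r : ℕ) (hr : 1 ≤ r) (c : ℕ → ℝ)
    (hc : ∀ P : Polynomial ℝ, P.natDegree ≤ r → ∑ j ∈ Finset.range (r + 1), c j * P.eval (j : ℝ) = P.derivative.eval 0) :
    ∃ A : ℝ, 0 ≤ A ∧ ∀ D : ℝ, 0 < D → ∀ n : ℝ, 0 ≤ n → ∀ M : ℕ, n + D ≤ M → ∀ (Z : ℕ → ℝ) (S : ℝ), (∀ m, m < M + r → |Z m| ≤ S) →
      |∑ m ∈ Finset.range (M + r), (- deriv (skW D) ((m : ℝ) - n)) * Z m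
        - ∑ m ∈ Finset.range M, skW D ((m : ℝ) - n) * ∑ j ∈ Finset.range (r + 1), c j * Z (m + j)|
        ≤ A * (D⁻¹) ^ (r + 2) * ((M + r : ℕ) : ℝ) * S := by
  obtain ⟨A, hA0, hA⟩ := sk_site_stencil r hr c hc
  refine ⟨A, hA0, fun D hD n hn M hM Z S hZ => ?_⟩
  rw [sk_site_parts hD hn hM r c Z, ← Finset.sum_sub_distrib]
  calc |∑ m ∈ Finset.range (M + r), (- deriv (skW D) ((m : ℝ) - n) * Z m
          - Z m * ∑ j ∈ Finset.range (r + 1), c j * skW D ((m : ℝ) - n - j))|
      ≤ ∑ m ∈ Finset.range (M + r), |(- deriv (skW D) ((m : ℝ) - n) * Z m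
          - Z m * ∑ j ∈ Finset.range (r + 1), c j * skW D ((m : ℝ) - n - j))| := Finset.abs_sum_le_sum_abs _ _
    _ ≤ ∑ _m ∈ Finset.range (M + r), A * (D⁻¹) ^ (r + 2) * S := by
        refine Finset.sum_le_sum fun m hm => ?_
        have h1 : - deriv (skW D) ((m : ℝ) - n) * Z m - Z m * ∑ j ∈ Finset.range (r + 1), c j * skW D ((m : ℝ) - n - j)
            = - ((∑ j ∈ Finset.range (r + 1), c j * skW D ((m : ℝ) - n - j) + deriv (skW D) ((m : ℝ) - n)) * Z m) := by ring
        rw [h1, abs_neg, abs_mul]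
        exact mul_le_mul (hA D hD _) (hZ m (Finset.mem_range.1 hm)) (abs_nonneg _) (by positivity)
    _ = A * (D⁻¹) ^ (r + 2) * ((M + r : ℕ) : ℝ) * S := by
        rw [Finset.sum_const, Finset.card_range, nsmul_eq_mul]
        ring

/-- the derivative of a weight in the real centre -/
theorem sk_site_hasDerivAt (D : ℝ) (m n : ℝ) : HasDerivAt (fun y : ℝ => skW D (m - y)) (- deriv (skW D) (m - n)) n := by
  have h1 : HasDerivAt (skW D) (deriv (skW D) (m - n)) (m - n) :=
    ((sk_site_contDiff D).differentiable (by simp) _).hasDerivAt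
  have h2 : HasDerivAt (fun y : ℝ => m - y) (-1) n := by
    simpa using (hasDerivAt_id n).const_sub m
  have h3 : HasDerivAt (fun y : ℝ => skW D (m - y)) (deriv (skW D) (m - n) * -1) n := h1.comp n h2
  rwa [mul_neg_one] at h3

/-- bound of the first derivative of a weight -/
theorem sk_site_deriv_le : ∃ B : ℝ, 0 ≤ B ∧ ∀ D : ℝ, 0 < D → ∀ u : ℝ, |deriv (skW D) u| ≤ B * (D⁻¹) ^ 2 := by
  obtain ⟨B, hB0, hB⟩ := sk_site_deriv_bd 1
  refine ⟨B, hB0, fun D hD u => ?_⟩
  have := hB D hD u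
  rwa [iteratedDeriv_one] at this

end Claimed.Agent.R286
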