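import Claimed.Agent.R286.Top.Seg
import Claimed.Agent.R286.Top.Site

/-!
# Row 286 (S0533), unit TOP, file SEGS: THE SITE AVERAGE ALONG THE SIZE SEGMENT      (helper220; prefix `sk_ss_`)      Mathlib only, sorry free

Moving weights `W m θ = skW D (m - n0 e^θ)`.   `Kb θ = ∑_{m ∈ [a,b]} W m θ * (s * m * ψ θ m)`.
* `sk_ss_sum_one`   the weights sum to one over `[a,b]`
* `sk_ss_ident`     `Kb' = s n ∑ W (ψ̇_m + ∑_j c_j Z_{m+j}) + s ∑ W (m - n) ψ̇_m - s n ∑ e_m Z_m`      (LL (4.2)-(4.3), `Z_m = m ψ_m`, `e_m` = the stencil error of the weights)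
* `sk_ss_bound`     the three terms
* `sk_ss_siz`       the stopped drift along the size segment
-/

set_option autoImplicit false

namespace Claimed.Agent.R286

open MeasureTheory Set

theorem sk_ss_sum_one {D n : ℝ} (hD : 0 < D) {a b : ℕ} (ha : (a : ℝ) ≤ n) (hb : n + D ≤ b + 1) : ∑ m ∈ Finset.Icc a b, skW D ((m : ℝ) - n) = 1 := by
  have h1 : ∑ m ∈ Finset.range (b + 1), skW D ((m : ℝ) - n) = 1 :=
    sk_st_w_sum_one hD ((Nat.cast_nonneg a).trans ha) (by push_cast; exact hb)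
  rw [← h1]
  refine Finset.sum_subset (fun m hm => ?_) (fun m hm hm' => ?_)
  · rw [Finset.mem_Icc] at hm
    exact Finset.mem_range.2 (by omega)
  · rw [Finset.mem_range] at hm
    rw [Finset.mem_Icc] at hm'
    have h2 : m + 1 ≤ a := by omega
    have h3 : (m : ℝ) + 1 ≤ a := by exact_mod_cast h2
    exact sk_site_zero_left hD (by linarith)

theorem sk_ss_ident {r : ℕ} (c : ℕ → ℝ) {D : ℝ} (hD : 0 < D) {a b : ℕ} {n : ℝ} (ha : (a : ℝ) ≤ n) (hb : n + D ≤ b + 1) (s : ℝ) (Z p : ℕ → ℝ) :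
    ∑ m ∈ Finset.Icc a b, ((-deriv (skW D) ((m : ℝ) - n) * n) * (s * Z m) + skW D ((m : ℝ) - n) * (s * m * p m))
      = s * n * ∑ m ∈ Finset.Icc a b, skW D ((m : ℝ) - n) * (p m + ∑ j ∈ Finset.range (r + 1), c j * Z (m + j))
        + s * ∑ m ∈ Finset.Icc a b, skW D ((m : ℝ) - n) * (((m : ℝ) - n) * p m)
        - s * n * ∑ m ∈ Finset.Icc a (b + r), (∑ j ∈ Finset.range (r + 1), c j * skW D ((m : ℝ) - n - j) + deriv (skW D) ((m : ℝ) - n)) * Z m := by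
  have e1 : ∑ m ∈ Finset.Icc a (b + r), (∑ j ∈ Finset.range (r + 1), c j * skW D ((m : ℝ) - n - j) + deriv (skW D) ((m : ℝ) - n)) * Z m
      = ∑ m ∈ Finset.Icc a b, skW D ((m : ℝ) - n) * ∑ j ∈ Finset.range (r + 1), c j * Z (m + j) + ∑ m ∈ Finset.Icc a b, deriv (skW D) ((m : ℝ) - n) * Z m := by
    rw [sk_dc_shift (w := skW D) (n := n) (a := a) (b := b) (r := r) c Z (fun y hy => sk_site_zero_left hD (by linarith)) (fun y hy => sk_site_zero_right hD (by linarith))]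
    simp only [add_mul]
    rw [Finset.sum_add_distrib]
    congr 1
    symm
    refine Finset.sum_subset (fun m hm => ?_) (fun m hm hm' => ?_)
    · rw [Finset.mem_Icc] at hm ⊢
      omega
    · rw [Finset.mem_Icc] at hm hm'
      have h2 : b + 1 ≤ m := by omega
      have h3 : (b : ℝ) + 1 ≤ m := by exact_mod_cast h2
      rw [sk_st_w_deriv_zero hD (sk_site_zero_right hD (by linarith)), zero_mul]
  rw [e1]
  have hA : ∑ m ∈ Finset.Icc a b, (-deriv (skW D) ((m : ℝ) - n) * n) * (s * Z m) = -(s * n) * ∑ m ∈ Finset.Icc a b, deriv (skW D) ((m : ℝ) - n) * Z m := by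
    rw [Finset.mul_sum]
    exact Finset.sum_congr rfl fun m _ => by ring
  have hB : ∑ m ∈ Finset.Icc a b, skW D ((m : ℝ) - n) * (s * m * p m)
      = s * ∑ m ∈ Finset.Icc a b, skW D ((m : ℝ) - n) * (((m : ℝ) - n) * p m) + s * n * ∑ m ∈ Finset.Icc a b, skW D ((m : ℝ) - n) * p m := by
    rw [Finset.mul_sum, Finset.mul_sum, ← Finset.sum_add_distrib]
    exact Finset.sum_congr rfl fun m _ => by ring
  have hC : ∑ m ∈ Finset.Icc a b, skW D ((m : ℝ) - n) * (p m + ∑ j ∈ Finset.range (r + 1), c j * Z (m + j))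
      = ∑ m ∈ Finset.Icc a b, skW D ((m : ℝ) - n) * p m + ∑ m ∈ Finset.Icc a b, skW D ((m : ℝ) - n) * ∑ j ∈ Finset.range (r + 1), c j * Z (m + j) := by
    rw [← Finset.sum_add_distrib]
    exact Finset.sum_congr rfl fun m _ => by ring
  rw [Finset.sum_add_distrib, hA, hB, hC]
  ring

theorem sk_ss_bound {r : ℕ} {c : ℕ → ℝ} {D E : ℝ} (hD : 1 ≤ D) (hE : ∀ u, |∑ j ∈ Finset.range (r + 1), c j * skW D (u - j) + deriv (skW D) u| ≤ E)
    {a b : ℕ} {n n1 : ℝ} (ha : (a : ℝ) ≤ n) (hb : n + D ≤ b + 1) (hn : n ≤ n1) {s : ℝ} (hs : 0 ≤ s) {Z p Am : ℕ → ℝ} {g Cb : ℝ}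
    (hAm : ∀ m ∈ Finset.Icc a b, skW D ((m : ℝ) - n) ≠ 0 → |p m + ∑ j ∈ Finset.range (r + 1), c j * Z (m + j)| ≤ Am m)
    (hAm0 : ∀ m, 0 ≤ Am m) (hg : ∀ m ∈ Finset.Icc a b, |p m| ≤ g) (hZ : ∀ m ∈ Finset.Icc a (b + r), |Z m| ≤ Cb) (hCb : 0 ≤ Cb) :
    |∑ m ∈ Finset.Icc a b, ((-deriv (skW D) ((m : ℝ) - n) * n) * (s * Z m) + skW D ((m : ℝ) - n) * (s * m * p m))|
      ≤ s * n1 * ∑ m ∈ Finset.Icc a b, skW D ((m : ℝ) - n) * Am m + s * D * g + s * n1 * (((b + r + 1 : ℕ) : ℝ) * E * Cb) := by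
  have hD0 : 0 < D := lt_of_lt_of_le one_pos hD
  have hn0 : 0 ≤ n := (Nat.cast_nonneg a).trans ha
  have hE0 : 0 ≤ E := (abs_nonneg _).trans (hE 0)
  have hw0 : ∀ y, 0 ≤ skW D y := sk_st_w_nonneg hD0
  rw [sk_ss_ident (r := r) c hD0 ha hb s Z p]
  have t1 : |∑ m ∈ Finset.Icc a b, skW D ((m : ℝ) - n) * (p m + ∑ j ∈ Finset.range (r + 1), c j * Z (m + j))| ≤ ∑ m ∈ Finset.Icc a b, skW D ((m : ℝ) - n) * Am m := by
    refine (Finset.abs_sum_le_sum_abs _ _).trans (Finset.sum_le_sum fun m hm => ?_)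
    rw [abs_mul, abs_of_nonneg (hw0 _)]
    by_cases h0 : skW D ((m : ℝ) - n) = 0
    · rw [h0, zero_mul, zero_mul]
    · exact mul_le_mul_of_nonneg_left (hAm m hm h0) (hw0 _)
  have t2 : |∑ m ∈ Finset.Icc a b, skW D ((m : ℝ) - n) * (((m : ℝ) - n) * p m)| ≤ D * g := by
    refine (Finset.abs_sum_le_sum_abs _ _).trans ?_
    calc ∑ m ∈ Finset.Icc a b, |skW D ((m : ℝ) - n) * (((m : ℝ) - n) * p m)| ≤ ∑ m ∈ Finset.Icc a b, skW D ((m : ℝ) - n) * (D * g) := by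
          refine Finset.sum_le_sum fun m hm => ?_
          rw [abs_mul, abs_of_nonneg (hw0 _)]
          by_cases h0 : skW D ((m : ℝ) - n) = 0
          · rw [h0, zero_mul, zero_mul]
          · refine mul_le_mul_of_nonneg_left ?_ (hw0 _)
            rw [abs_mul]
            have h1 := sk_st_w_supp hD0 h0
            exact mul_le_mul (abs_le.2 ⟨by linarith, h1.2.le⟩) (hg m hm) (abs_nonneg _) hD0.le
      _ = D * g := by rw [← Finset.sum_mul, sk_ss_sum_one hD0 ha hb, one_mul]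
  have t3 : |∑ m ∈ Finset.Icc a (b + r), (∑ j ∈ Finset.range (r + 1), c j * skW D ((m : ℝ) - n - j) + deriv (skW D) ((m : ℝ) - n)) * Z m| ≤ ((b + r + 1 : ℕ) : ℝ) * E * Cb := by
    refine (Finset.abs_sum_le_sum_abs _ _).trans ?_
    calc ∑ m ∈ Finset.Icc a (b + r), |(∑ j ∈ Finset.range (r + 1), c j * skW D ((m : ℝ) - n - j) + deriv (skW D) ((m : ℝ) - n)) * Z m| ≤ ∑ _m ∈ Finset.Icc a (b + r), E * Cb := by
          refine Finset.sum_le_sum fun m hm => ?_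
          rw [abs_mul]
          exact mul_le_mul (hE _) (hZ m hm) (abs_nonneg _) hE0
      _ = ((Finset.Icc a (b + r)).card : ℝ) * (E * Cb) := by rw [Finset.sum_const, nsmul_eq_mul]
      _ ≤ ((b + r + 1 : ℕ) : ℝ) * (E * Cb) := by
          refine mul_le_mul_of_nonneg_right ?_ (mul_nonneg hE0 hCb)
          rw [Nat.card_Icc]
          exact_mod_cast Nat.sub_le _ _
      _ = ((b + r + 1 : ℕ) : ℝ) * E * Cb := by ring
  have hS0 : 0 ≤ ∑ m ∈ Finset.Icc a b, skW D ((m : ℝ) - n) * Am m := Finset.sum_nonneg fun m _ => mul_nonneg (hw0 _) (hAm0 m)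
  have hT0 : 0 ≤ ((b + r + 1 : ℕ) : ℝ) * E * Cb := by positivity
  have hsn : s * n ≤ s * n1 := mul_le_mul_of_nonneg_left hn hs
  have hsn0 : 0 ≤ s * n := mul_nonneg hs hn0
  refine (abs_sub _ _).trans (add_le_add ((abs_add_le _ _).trans (add_le_add ?_ ?_)) ?_)
  · rw [abs_mul, abs_of_nonneg hsn0]
    exact mul_le_mul hsn t1 (abs_nonneg _) (hsn0.trans hsn)
  · rw [abs_mul, abs_of_nonneg hs, mul_assoc]
    exact mul_le_mul_of_nonneg_left t2 hs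
  · rw [abs_mul, abs_of_nonneg hsn0]
    exact mul_le_mul hsn t3 (abs_nonneg _) (hsn0.trans hsn)

/-- **the stopped drift along the size segment** -/
theorem sk_ss_siz {r : ℕ} {c : ℕ → ℝ} {D E : ℝ} (hD : 1 ≤ D) (hE : ∀ u, |∑ j ∈ Finset.range (r + 1), c j * skW D (u - j) + deriv (skW D) u| ≤ E)
    {a b : ℕ} {n0 Θ : ℝ} (hΘ : 0 ≤ Θ) (hn0 : (a : ℝ) ≤ n0) (hn1 : n0 * Real.exp Θ + D ≤ b + 1)
    {ψ : ℝ → ℕ → ℝ} (hac : ∀ m ∈ Finset.Icc a b, AbsolutelyContinuousOnInterval (fun θ => ψ θ m) 0 Θ)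
    {s L Cn Cb : ℝ} (hs : 0 ≤ s) (hCn : 0 ≤ Cn) (hCb : 0 ≤ Cb)
    (hnb : ∀ θ ∈ Icc (0 : ℝ) Θ, ∀ m, a ≤ m → m + 1 ≤ b + r → |((m + 1 : ℕ) : ℝ) * ψ θ (m + 1) - m * ψ θ m| ≤ Cn)
    (hosc : s * Cn * (D + r + 1) ≤ 2 * L)
    (hbd : ∀ θ ∈ Icc (0 : ℝ) Θ, ∀ m ∈ Finset.Icc a (b + r), |(m : ℝ) * ψ θ m| ≤ Cb)
    {g : ℝ → ℝ} (hg0 : ∀ θ, 0 ≤ g θ) (hg : IntervalIntegrable g volume 0 Θ)
    (hgd : ∀ m ∈ Finset.Icc a b, ∀ᵐ θ, θ ∈ Icc (0 : ℝ) Θ → |deriv (fun θ => ψ θ m) θ| ≤ g θ)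
    {A : ℕ → ℝ → ℝ} (hA0 : ∀ m θ, 0 ≤ A m θ)
    (hAi : IntervalIntegrable (fun θ => ∑ m ∈ Finset.Icc a b, skW D ((m : ℝ) - n0 * Real.exp θ) * A m θ) volume 0 Θ)
    (hA : ∀ m ∈ Finset.Icc a b, ∀ θ, (∀ j ∈ Finset.range (r + 1), s * ((m + j : ℕ) : ℝ) * ψ θ (m + j) ≤ 3 * L) →
      |deriv (fun θ => ψ θ m) θ + ∑ j ∈ Finset.range (r + 1), c j * (((m + j : ℕ) : ℝ) * ψ θ (m + j))| ≤ A m θ)
    {δ : ℝ} (hδ : s * (n0 * Real.exp Θ) * (∫ θ in (0 : ℝ)..Θ, ∑ m ∈ Finset.Icc a b, skW D ((m : ℝ) - n0 * Real.exp θ) * A m θ) + s * D * (∫ θ in (0 : ℝ)..Θ, g θ)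
      + s * (n0 * Real.exp Θ) * (((b + r + 1 : ℕ) : ℝ) * E * Cb) * Θ ≤ δ)
    (h0 : ∑ m ∈ Finset.Icc a b, skW D ((m : ℝ) - n0 * Real.exp 0) * (s * m * ψ 0 m) + δ < L) :
    ∀ θ ∈ Icc (0 : ℝ) Θ, |∑ m ∈ Finset.Icc a b, skW D ((m : ℝ) - n0 * Real.exp θ) * (s * m * ψ θ m)
      - ∑ m ∈ Finset.Icc a b, skW D ((m : ℝ) - n0 * Real.exp 0) * (s * m * ψ 0 m)| ≤ δ := by
  have hD0 : 0 < D := lt_of_lt_of_le one_pos hD
  have hn00 : 0 ≤ n0 := (Nat.cast_nonneg a).trans hn0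
  have hE0 : 0 ≤ E := (abs_nonneg _).trans (hE 0)
  have hw0 : ∀ y, 0 ≤ skW D y := sk_st_w_nonneg hD0
  have hnlo : ∀ θ ∈ Icc (0 : ℝ) Θ, (a : ℝ) ≤ n0 * Real.exp θ := fun θ hθ =>
    hn0.trans (le_mul_of_one_le_right hn00 (Real.one_le_exp hθ.1))
  have hnhi : ∀ θ ∈ Icc (0 : ℝ) Θ, n0 * Real.exp θ ≤ n0 * Real.exp Θ := fun θ hθ =>
    mul_le_mul_of_nonneg_left (Real.exp_le_exp.2 hθ.2) hn00
  have hWc : ∀ m : ℕ, ContDiff ℝ 1 (fun θ => skW D ((m : ℝ) - n0 * Real.exp θ)) := fun m =>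
    (sk_st_w_contDiff D 1).comp (contDiff_const.sub (contDiff_const.mul Real.contDiff_exp))
  have hWd : ∀ (m : ℕ) (θ : ℝ), HasDerivAt (fun θ => skW D ((m : ℝ) - n0 * Real.exp θ)) (-deriv (skW D) ((m : ℝ) - n0 * Real.exp θ) * (n0 * Real.exp θ)) θ := fun m θ =>
    HasDerivAt.comp (h₂ := fun y : ℝ => skW D ((m : ℝ) - y)) θ (sk_site_hasDerivAt D m (n0 * Real.exp θ)) ((Real.hasDerivAt_exp θ).const_mul n0)
  have hacK : AbsolutelyContinuousOnInterval (fun θ => ∑ m ∈ Finset.Icc a b, skW D ((m : ℝ) - n0 * Real.exp θ) * (s * m * ψ θ m)) 0 Θ :=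
    sk_sg_ac_sum _ fun m hm => (hWc m).contDiffOn.absolutelyContinuousOnInterval.fun_mul ((hac m hm).const_mul (s * m))
  have hGi : IntervalIntegrable (fun θ => s * (n0 * Real.exp Θ) * (∑ m ∈ Finset.Icc a b, skW D ((m : ℝ) - n0 * Real.exp θ) * A m θ) + s * D * g θ
      + s * (n0 * Real.exp Θ) * (((b + r + 1 : ℕ) : ℝ) * E * Cb)) volume 0 Θ :=
    ((hAi.const_mul _).add (hg.const_mul _)).add intervalIntegrable_const
  refine sk_bt_boot hΘ hacK ⟨le_rfl, hΘ⟩ hGi (fun θ => ?_) ?_ ?_ h0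
  · have h1 : 0 ≤ ∑ m ∈ Finset.Icc a b, skW D ((m : ℝ) - n0 * Real.exp θ) * A m θ := Finset.sum_nonneg fun m _ => mul_nonneg (hw0 _) (hA0 m θ)
    have h2 := hg0 θ
    have h3 := Real.exp_pos Θ
    positivity
  · rw [intervalIntegral.integral_add ((hAi.const_mul _).add (hg.const_mul _)) intervalIntegrable_const,
      intervalIntegral.integral_add (hAi.const_mul _) (hg.const_mul _), intervalIntegral.integral_const_mul, intervalIntegral.integral_const_mul,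
      intervalIntegral.integral_const, smul_eq_mul, sub_zero]
    refine le_trans (le_of_eq ?_) hδ
    ring
  · filter_upwards [sk_sg_ae_all _ hΘ hac, (Finset.eventually_all (Finset.Icc a b)).2 hgd] with θ hdiff hgθ hθ hL
    have hder : HasDerivAt (fun θ => ∑ m ∈ Finset.Icc a b, skW D ((m : ℝ) - n0 * Real.exp θ) * (s * m * ψ θ m))
        (∑ m ∈ Finset.Icc a b, ((-deriv (skW D) ((m : ℝ) - n0 * Real.exp θ) * (n0 * Real.exp θ)) * (s * m * ψ θ m)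
          + skW D ((m : ℝ) - n0 * Real.exp θ) * (s * m * deriv (fun θ => ψ θ m) θ))) θ :=
      HasDerivAt.fun_sum fun m hm => (hWd m θ).mul ((hdiff hθ m hm).hasDerivAt.const_mul (s * m))
    rw [hder.deriv]
    have hb' : n0 * Real.exp θ + D ≤ b + 1 := by linarith [hnhi θ hθ]
    obtain ⟨m0, hm0, hwm0, hKm0⟩ := sk_dc_conv (S := Finset.Icc a b) (w := fun m : ℕ => skW D ((m : ℝ) - n0 * Real.exp θ)) (K := fun m : ℕ => s * m * ψ θ m)
      (fun m _ => hw0 _) (sk_ss_sum_one hD0 (hnlo θ hθ) hb') hL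
    have hstop : ∀ m ∈ Finset.Icc a b, skW D ((m : ℝ) - n0 * Real.exp θ) ≠ 0 → ∀ j ∈ Finset.range (r + 1), s * ((m + j : ℕ) : ℝ) * ψ θ (m + j) ≤ 3 * L := by
      intro m hm hwm j hj
      have hj' : j ≤ r := Nat.lt_succ_iff.1 (Finset.mem_range.1 hj)
      have hjr : (j : ℝ) ≤ r := by exact_mod_cast hj'
      rw [Finset.mem_Icc] at hm hm0
      have h1 := sk_dc_tel' (Z := fun m : ℕ => (m : ℝ) * ψ θ m) (a := a) (b := b + r) (c := Cn) (hnb θ hθ) m0 (m + j) ⟨hm0.1, by omega⟩ ⟨by omega, by omega⟩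
      have s1 := sk_st_w_supp hD0 hwm
      have s2 := sk_st_w_supp hD0 hwm0
      have h2 : |((m + j : ℕ) : ℝ) - m0| ≤ D + r + 1 := by
        push_cast
        have hj0 : (0 : ℝ) ≤ j := Nat.cast_nonneg j
        exact abs_le.2 ⟨by linarith [s1.1, s2.2], by linarith [s1.2, s2.1]⟩
      have h3 : ((m + j : ℕ) : ℝ) * ψ θ (m + j) ≤ (m0 : ℝ) * ψ θ m0 + Cn * (D + r + 1) := by
        have := (abs_le.1 (h1.trans (mul_le_mul_of_nonneg_left h2 hCn))).2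
        linarith
      calc s * ((m + j : ℕ) : ℝ) * ψ θ (m + j) = s * (((m + j : ℕ) : ℝ) * ψ θ (m + j)) := by ring
        _ ≤ s * ((m0 : ℝ) * ψ θ m0 + Cn * (D + r + 1)) := mul_le_mul_of_nonneg_left h3 hs
        _ = s * m0 * ψ θ m0 + s * Cn * (D + r + 1) := by ring
        _ ≤ 3 * L := by linarith
    have hfin := sk_ss_bound (r := r) (c := c) hD hE (hnlo θ hθ) hb' (hnhi θ hθ) hs (Z := fun m : ℕ => (m : ℝ) * ψ θ m) (p := fun m : ℕ => deriv (fun θ => ψ θ m) θ)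
      (Am := fun m => A m θ) (g := g θ) (Cb := Cb) (fun m hm hwm => hA m hm θ (hstop m hm hwm)) (fun m => hA0 m θ) (fun m hm => hgθ m hm hθ) (hbd θ hθ) hCb
    refine le_trans (le_of_eq ?_) hfin
    congr 1
    refine Finset.sum_congr rfl fun m _ => ?_
    ring

end Claimed.Agent.R286
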