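import Claimed.Agent.R286.Top.Path
import Claimed.Agent.R286.Top.SegS

/-!
# Row 286 (S0533), unit TOP, file DYDEF: THE SITE AVERAGES OF ONE DYAD COMPARISON      (helper220; prefix `sk_dy_`, `sk`)

Sites `m ∈ [N, 3N - r]`, weights `skW D (m - centre)`.
* `skCtr N N' e`   the centre at the end `e` (`N`, `N'`)
* `SkPath.Kd`      the site average of `K_m = s m ψ_m` on the direct segment `(e, i)`, frozen weights
* `SkPath.Ks`      the same on the size segment, centre `N e^θ`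
-/

set_option autoImplicit false

namespace Claimed.Agent.R286

open MeasureTheory Set

/-- the centre at the end `e` -/
noncomputable def skCtr (N N' : ℕ) (e : Fin 2) : ℝ := if e = 0 then (N : ℝ) else N'

/-- the site average on a direct segment -/
noncomputable def SkPath.Kd (P : SkPath) (N N' r : ℕ) (s D : ℝ) (γ : Fin P.k → ℝ) (e : Fin 2) (i : Fin 3) (τ : ℝ) : ℝ :=
  ∑ m ∈ Finset.Icc N (3 * N - r), skW D ((m : ℝ) - skCtr N N' e) * (s * m * P.dir e i γ τ m)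

/-- the site average on the size segment -/
noncomputable def SkPath.Ks (P : SkPath) (N r : ℕ) (s D : ℝ) (γ : Fin P.k → ℝ) (θ : ℝ) : ℝ :=
  ∑ m ∈ Finset.Icc N (3 * N - r), skW D ((m : ℝ) - N * Real.exp θ) * (s * m * P.siz γ θ m)

theorem sk_dy_eqns_cite : True := by
  have := @skCtr.eq_1
  have := @SkPath.Kd.eq_1
  have := @SkPath.Ks.eq_1
  trivial

theorem sk_dy_ctr_lo {N N' : ℕ} (hNN : N ≤ N') (e : Fin 2) : (N : ℝ) ≤ skCtr N N' e := by
  unfold skCtr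
  split_ifs
  · exact le_rfl
  · exact_mod_cast hNN

theorem sk_dy_ctr_hi {N N' : ℕ} (hNN : N ≤ N') (e : Fin 2) : skCtr N N' e ≤ N' := by
  unfold skCtr
  split_ifs
  · exact_mod_cast hNN
  · exact le_rfl

/-- the upper end of the sites -/
theorem sk_dy_top {N r : ℕ} {D : ℝ} (hD : 1 ≤ D) (hr : 2 * (N : ℝ) + D + r ≤ 3 * N + 1) : r ≤ 3 * N ∧ ((3 * N - r : ℕ) : ℝ) = 3 * N - r := by
  have h1 : (r : ℝ) ≤ N := by linarith
  have h2 : r ≤ N := by exact_mod_cast h1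
  refine ⟨by omega, ?_⟩
  rw [Nat.cast_sub (by omega)]
  push_cast
  ring

/-- the weights with a centre in `[N, N']` sum to one -/
theorem sk_dy_sum_one {N N' r : ℕ} {D n : ℝ} (hN2 : N' ≤ 2 * N) (hD : 1 ≤ D) (hr : 2 * (N : ℝ) + D + r ≤ 3 * N + 1) (h1 : (N : ℝ) ≤ n) (h2 : n ≤ N') :
    ∑ m ∈ Finset.Icc N (3 * N - r), skW D ((m : ℝ) - n) = 1 := by
  refine sk_ss_sum_one (lt_of_lt_of_le one_pos hD) h1 ?_
  rw [(sk_dy_top hD hr).2]
  have h3 : (N' : ℝ) ≤ 2 * N := by exact_mod_cast hN2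
  linarith

theorem sk_dy_aD_nonneg (P : SkPath) (s L : ℝ) (e : Fin 2) (i : Fin 3) (m : ℕ) (p : (Fin P.k → ℝ) × ℝ) : 0 ≤ P.aD s L e i m p := by
  unfold SkPath.aD
  split_ifs
  · exact abs_nonneg _
  · exact le_rfl

theorem sk_dy_aS_nonneg (P : SkPath) (s L : ℝ) (r : ℕ) (c : ℕ → ℝ) (m : ℕ) (p : (Fin P.k → ℝ) × ℝ) : 0 ≤ P.aS s L r c m p := by
  unfold SkPath.aS
  split_ifs
  · exact abs_nonneg _
  · exact le_rfl

/-- `N e^Θ = N'` -/
theorem sk_dy_exp_log {N N' : ℕ} (hN : 1 ≤ N) (hNN : N ≤ N') : (N : ℝ) * Real.exp (Real.log (N' / N)) = N' := by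
  have h1 : (0 : ℝ) < N := by exact_mod_cast hN
  have h2 : (0 : ℝ) < N' := by exact_mod_cast (lt_of_lt_of_le hN hNN)
  rw [Real.exp_log (div_pos h2 h1)]
  field_simp

theorem sk_dy_log_nonneg {N N' : ℕ} (hN : 1 ≤ N) (hNN : N ≤ N') : 0 ≤ Real.log ((N' : ℝ) / N) := by
  have h1 : (0 : ℝ) < N := by exact_mod_cast hN
  exact Real.log_nonneg ((one_le_div h1).2 (by exact_mod_cast hNN))

theorem sk_dy_log_le {N N' : ℕ} (hN : 1 ≤ N) (hNN : N ≤ N') (hN2 : N' ≤ 2 * N) : Real.log ((N' : ℝ) / N) ≤ 1 := by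
  have h1 : (0 : ℝ) < N := by exact_mod_cast hN
  have h2 : (0 : ℝ) < N' := by exact_mod_cast (lt_of_lt_of_le hN hNN)
  have h3 : (N' : ℝ) / N ≤ 2 := (div_le_iff₀ h1).2 (by exact_mod_cast hN2)
  have h4 := Real.log_le_sub_one_of_pos (div_pos h2 h1)
  linarith

end Claimed.Agent.R286
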