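import Mathlib

/-!
# Row 286 (S0533), unit TOP, file SEL: CHOICE OF THE PATH PARAMETERS      (owner: helper61, statement helper220; prefix `sk_sl_`)      Mathlib only, sorry free

`sk_sl_sel`: finitely many integrable functions on `Ω × ℝ` (each with its own measure on `ℝ`); `μ` a probability.   Some `γ` has all sections integrable and the `κ`-combination of the section integrals is at most its mean.
Proof: `Integrable.prod_right_ae`, `Integrable.integral_prod_left`, `integral_prod`, `integral_finset_sum`, `exists_notMem_null_le_integral`.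
-/

set_option autoImplicit false

namespace Claimed.Agent.R286

open MeasureTheory Set

theorem sk_sl_sel {Ω ι : Type} [MeasurableSpace Ω] (μ : Measure Ω) [IsProbabilityMeasure μ] (T : Finset ι) (ν : ι → Measure ℝ) [∀ a, SFinite (ν a)]
    (F : ι → Ω × ℝ → ℝ) (κ : ι → ℝ) (hF : ∀ a ∈ T, Integrable (F a) (μ.prod (ν a))) :
    ∃ γ : Ω, (∀ a ∈ T, Integrable (fun t => F a (γ, t)) (ν a)) ∧
      ∑ a ∈ T, κ a * ∫ t, F a (γ, t) ∂ν a ≤ ∑ a ∈ T, κ a * ∫ p, F a p ∂(μ.prod (ν a)) := by
  classical
  have hg : Integrable (fun γ : Ω => ∑ a ∈ T, κ a * ∫ t, F a (γ, t) ∂ν a) μ :=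
    integrable_finsetSum T fun a ha => (hF a ha).integral_prod_left.const_mul (κ a)
  have hN : μ {γ : Ω | ¬ ∀ a ∈ T, Integrable (fun t => F a (γ, t)) (ν a)} = 0 := by
    have : ∀ᵐ γ ∂μ, ∀ a ∈ T, Integrable (fun t => F a (γ, t)) (ν a) :=
      (Finset.eventually_all T).2 fun a ha => (hF a ha).prod_right_ae
    exact this
  obtain ⟨γ, hγ, hle⟩ := exists_notMem_null_le_integral hg hN
  refine ⟨γ, by simpa using hγ, hle.trans (le_of_eq ?_)⟩
  rw [integral_finsetSum T fun a ha => (hF a ha).integral_prod_left.const_mul (κ a)]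
  refine Finset.sum_congr rfl fun a ha => ?_
  rw [integral_const_mul, integral_prod _ (hF a ha)]

end Claimed.Agent.R286
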