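import Claimed.Agent.R286.Top.DyDef
import Claimed.Agent.R286.Top.Sel

/-!
# Row 286 (S0533), unit TOP, file DYSEL: CHOICE OF THE PATH PARAMETERS FOR ONE DYAD COMPARISON      (helper220; prefix `sk_dl_`)      sorry free

`sk_sl_sel` with the index type `Option (Fin 2 × Fin 3 × ℕ)`: `some (e, i, m)` ↦ `P.aD s L e i m` on `volume.restrict (Icc 0 1)`, coefficient `skW D (m - skCtr N N' e)`;   `none` ↦ `p ↦ ∑_m W m p.2 * P.aS s L r c m p` on `volume.restrict (Icc 0 Θ)`, coefficient `1`,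
`W m θ = if m ∈ Icc N (3N - r) then skW D (m - N e^θ) else 0` (fed to `inc_siz`).
-/

set_option autoImplicit false

namespace Claimed.Agent.R286

open MeasureTheory Set

theorem sk_dl_sel {P : SkPath} {β : ℝ} {N N' : ℕ} {s L : ℝ} {r : ℕ} {c : ℕ → ℝ} {C c0 D : ℝ} (h : P.Ok β N N' s L r c C c0)
    (hN : 1 ≤ N) (hNN : N ≤ N') (hN2 : N' ≤ 2 * N) (hD : 1 ≤ D) (hr : 2 * (N : ℝ) + D + r ≤ 3 * N + 1) :
    ∃ γ : Fin P.k → ℝ,
      (∀ e i, ∀ m ∈ Finset.Icc N (3 * N - r), IntervalIntegrable (fun τ => P.aD s L e i m (γ, τ)) volume 0 1) ∧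
      IntervalIntegrable (fun θ => ∑ m ∈ Finset.Icc N (3 * N - r), skW D ((m : ℝ) - N * Real.exp θ) * P.aS s L r c m (γ, θ)) volume 0 (Real.log (N' / N)) ∧
      (∑ e : Fin 2, ∑ i : Fin 3, ∑ m ∈ Finset.Icc N (3 * N - r), skW D ((m : ℝ) - skCtr N N' e) * ∫ τ in (0 : ℝ)..1, P.aD s L e i m (γ, τ))
        + (∫ θ in (0 : ℝ)..(Real.log (N' / N)), ∑ m ∈ Finset.Icc N (3 * N - r), skW D ((m : ℝ) - N * Real.exp θ) * P.aS s L r c m (γ, θ))
        ≤ 7 * (C * skX N ^ (5 + c0)) := by
  classical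
  have := h.prob
  have hD0 : 0 < D := lt_of_lt_of_le one_pos hD
  have hΘ0 := sk_dy_log_nonneg hN hNN
  obtain ⟨hr3, -⟩ := sk_dy_top hD hr
  have hw0 : ∀ y, 0 ≤ skW D y := sk_st_w_nonneg hD0
  have hcont : ∀ m : ℕ, Continuous (fun θ : ℝ => skW D ((m : ℝ) - N * Real.exp θ)) := fun m =>
    (sk_st_w_contDiff D 0).continuous.comp (by fun_prop)
  -- the size integrand
  have hinc := h.inc_siz (fun m θ => if m ∈ Finset.Icc N (3 * N - r) then skW D ((m : ℝ) - N * Real.exp θ) else 0)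
    (fun m => by
      by_cases hm : m ∈ Finset.Icc N (3 * N - r)
      · simp only [if_pos hm]
        exact hcont m
      · simp only [if_neg hm]
        exact continuous_const)
    (fun m θ => by
      split_ifs
      · exact hw0 _
      · exact le_rfl)
    (fun θ => by
      refine le_trans (Finset.sum_le_sum fun m _ => ?_) (sk_st_w_sum_le D ((N : ℝ) * Real.exp θ) (3 * N + 1))
      split_ifs
      · exact le_rfl
      · exact hw0 _)
    (fun m θ hne => by
      by_cases hm : m ∈ Finset.Icc N (3 * N - r)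
      · rw [Finset.mem_Icc] at hm
        omega
      · rw [if_neg hm] at hne
        exact absurd rfl hne)
  have hsumW : ∀ p : (Fin P.k → ℝ) × ℝ, ∑ m ∈ Finset.range (3 * N + 1), (if m ∈ Finset.Icc N (3 * N - r) then skW D ((m : ℝ) - N * Real.exp p.2) else 0) * P.aS s L r c m p
      = ∑ m ∈ Finset.Icc N (3 * N - r), skW D ((m : ℝ) - N * Real.exp p.2) * P.aS s L r c m p := by
    intro p
    symm
    refine Finset.sum_subset_zero_on_sdiff (fun m hm => ?_) (fun m hm => ?_) (fun m hm => ?_)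
    · rw [Finset.mem_Icc] at hm
      exact Finset.mem_range.2 (by omega)
    · rw [if_neg (Finset.mem_sdiff.1 hm).2, zero_mul]
    · rw [if_pos hm]
  simp only [hsumW] at hinc
  have hGint : Integrable (fun p : (Fin P.k → ℝ) × ℝ => ∑ m ∈ Finset.Icc N (3 * N - r), skW D ((m : ℝ) - N * Real.exp p.2) * P.aS s L r c m p)
      (P.μ.prod (volume.restrict (Icc (0 : ℝ) (Real.log (N' / N))))) := by
    refine integrable_finsetSum _ fun m hm => ?_
    rw [Finset.mem_Icc] at hm
    refine (h.int_siz m (by omega) (by omega)).bdd_mul (c := 1) ((hcont m).comp continuous_snd).aestronglyMeasurable (Filter.Eventually.of_forall fun p => ?_)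
    rw [Real.norm_eq_abs, abs_of_nonneg (hw0 _)]
    exact sk_site_le_one D _
  -- the selection
  have : ∀ a : Option (Fin 2 × Fin 3 × ℕ), SFinite (a.elim (volume.restrict (Icc (0 : ℝ) (Real.log (N' / N)))) (fun _ => volume.restrict (Icc (0 : ℝ) 1))) := by
    intro a
    cases a <;> simp only [Option.elim] <;> infer_instance
  obtain ⟨γ, hsec, hle⟩ := sk_sl_sel P.μ (Finset.insertNone ((Finset.univ : Finset (Fin 2)) ×ˢ ((Finset.univ : Finset (Fin 3)) ×ˢ Finset.Icc N (3 * N - r))))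
    (fun a => a.elim (volume.restrict (Icc (0 : ℝ) (Real.log (N' / N)))) (fun _ => volume.restrict (Icc (0 : ℝ) 1)))
    (fun a => a.elim (fun p : (Fin P.k → ℝ) × ℝ => ∑ m ∈ Finset.Icc N (3 * N - r), skW D ((m : ℝ) - N * Real.exp p.2) * P.aS s L r c m p) (fun a => P.aD s L a.1 a.2.1 a.2.2))
    (fun a => a.elim 1 (fun a => skW D ((a.2.2 : ℝ) - skCtr N N' a.1)))
    (fun a ha => by
      cases a with
      | none => exact hGint
      | some a =>
        have hm := (Finset.mem_product.1 (Finset.mem_product.1 (Finset.some_mem_insertNone.1 ha)).2).2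
        rw [Finset.mem_Icc] at hm
        exact h.int_dir a.1 a.2.1 a.2.2 (by omega) (by omega))
  refine ⟨γ, fun e i m hm => ?_, ?_, ?_⟩
  · rw [intervalIntegrable_iff_integrableOn_Icc_of_le zero_le_one]
    exact hsec (some (e, i, m)) (Finset.some_mem_insertNone.2 (Finset.mem_product.2 ⟨Finset.mem_univ _, Finset.mem_product.2 ⟨Finset.mem_univ _, hm⟩⟩))
  · rw [intervalIntegrable_iff_integrableOn_Icc_of_le hΘ0]
    exact hsec none Finset.none_mem_insertNone
  · rw [Finset.sum_insertNone, Finset.sum_insertNone, Finset.sum_product, Finset.sum_product] at hle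
    simp only [Finset.sum_product, Option.elim, one_mul] at hle
    have e1 : ∀ (e : Fin 2) (i : Fin 3) (m : ℕ), ∫ τ in (0 : ℝ)..1, P.aD s L e i m (γ, τ) = ∫ τ, P.aD s L e i m (γ, τ) ∂(volume.restrict (Icc (0 : ℝ) 1)) := by
      intro e i m
      rw [intervalIntegral.integral_of_le zero_le_one, integral_Icc_eq_integral_Ioc]
    have e2 : ∫ θ in (0 : ℝ)..(Real.log (N' / N)), ∑ m ∈ Finset.Icc N (3 * N - r), skW D ((m : ℝ) - N * Real.exp θ) * P.aS s L r c m (γ, θ)
        = ∫ θ, ∑ m ∈ Finset.Icc N (3 * N - r), skW D ((m : ℝ) - N * Real.exp θ) * P.aS s L r c m (γ, θ) ∂(volume.restrict (Icc (0 : ℝ) (Real.log (N' / N)))) := by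
      rw [intervalIntegral.integral_of_le hΘ0, integral_Icc_eq_integral_Ioc]
    simp only [e1]
    rw [e2]
    have h6 : ∑ e : Fin 2, ∑ i : Fin 3, ∑ m ∈ Finset.Icc N (3 * N - r), skW D ((m : ℝ) - skCtr N N' e) * ∫ p, P.aD s L e i m p ∂(P.μ.prod (volume.restrict (Icc (0 : ℝ) 1)))
        ≤ 6 * (C * skX N ^ (5 + c0)) := by
      have h7 : ∀ (e : Fin 2) (i : Fin 3), ∑ m ∈ Finset.Icc N (3 * N - r), skW D ((m : ℝ) - skCtr N N' e) * ∫ p, P.aD s L e i m p ∂(P.μ.prod (volume.restrict (Icc (0 : ℝ) 1)))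
          ≤ C * skX N ^ (5 + c0) := by
        intro e i
        calc ∑ m ∈ Finset.Icc N (3 * N - r), skW D ((m : ℝ) - skCtr N N' e) * ∫ p, P.aD s L e i m p ∂(P.μ.prod (volume.restrict (Icc (0 : ℝ) 1)))
            ≤ ∑ m ∈ Finset.Icc N (3 * N - r), skW D ((m : ℝ) - skCtr N N' e) * (C * skX N ^ (5 + c0)) := by
              refine Finset.sum_le_sum fun m hm => ?_
              rw [Finset.mem_Icc] at hm
              exact mul_le_mul_of_nonneg_left (h.inc_dir e i m (by omega) (by omega)) (hw0 _)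
          _ = C * skX N ^ (5 + c0) := by rw [← Finset.sum_mul, sk_dy_sum_one hN2 hD hr (sk_dy_ctr_lo hNN e) (sk_dy_ctr_hi hNN e), one_mul]
      calc ∑ e : Fin 2, ∑ i : Fin 3, ∑ m ∈ Finset.Icc N (3 * N - r), skW D ((m : ℝ) - skCtr N N' e) * ∫ p, P.aD s L e i m p ∂(P.μ.prod (volume.restrict (Icc (0 : ℝ) 1)))
          ≤ ∑ _e : Fin 2, ∑ _i : Fin 3, C * skX N ^ (5 + c0) := Finset.sum_le_sum fun e _ => Finset.sum_le_sum fun i _ => h7 e i
        _ = 6 * (C * skX N ^ (5 + c0)) := by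
            simp only [Finset.sum_const, Finset.card_univ, Fintype.card_fin, nsmul_eq_mul]
            push_cast
            ring
    linarith

end Claimed.Agent.R286
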