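import Mathlib

/-!
# Row 286 (S0533), folder Top, file Laws : the abstract theorem on a sequence of laws   (helper66; prefix `sklw_`)

LL Theorem 1.2 from the dyadic transform comparison (LL Prop. 4.4 = `red:prop-dyadic`), the PE exponent theorem and the
log-concave tail bound, for an ABSTRACT sequence of probability laws `μ n` on `ℝ` (law of the centred free energy at scale `n^(1/6)`).
No complex analysis and no cumulants: the Laplace transforms themselves are interpolated at the nodes `0, δ, …, kδ`, `δ = x^ε`.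
-/

set_option autoImplicit false

namespace Claimed.Agent.R286

open MeasureTheory ProbabilityTheory Filter Topology


/-- Taylor remainder of the real exponential. -/
lemma sklw_exp_taylor (u : ℝ) (n : ℕ) :
    |Real.exp u - ∑ m ∈ Finset.range n, u ^ m / (m.factorial : ℝ)| ≤ |u| ^ n * Real.exp |u| := by
  have h := Complex.norm_exp_sub_sum_le_norm_mul_exp (u : ℂ) n
  have e1 : Complex.exp (u : ℂ) - ∑ m ∈ Finset.range n, (u : ℂ) ^ m / (m.factorial : ℂ)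
      = ((Real.exp u - ∑ m ∈ Finset.range n, u ^ m / (m.factorial : ℝ) : ℝ) : ℂ) := by
    push_cast
    rfl
  rw [e1, Complex.norm_real, Complex.norm_real] at h
  simpa [Real.norm_eq_abs] using h

/-- Coefficient extraction at the nodes `0,…,k`. -/
lemma sklw_vander (k : ℕ) : ∃ A : ℝ, 0 ≤ A ∧ ∀ (e : Fin (k+1) → ℝ) (B : ℝ),
    (∀ i : Fin (k+1), |∑ j : Fin (k+1), e j * ((i : ℕ) : ℝ) ^ (j : ℕ)| ≤ B) →
      ∀ j, |e j| ≤ A * B := by
  classical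
  set v : Fin (k+1) → ℝ := fun i => ((i : ℕ) : ℝ) with hv
  set V : Matrix (Fin (k+1)) (Fin (k+1)) ℝ := Matrix.vandermonde v with hV
  have hinj : Function.Injective v := by
    intro a b hab
    have : ((a : ℕ) : ℝ) = ((b : ℕ) : ℝ) := hab
    exact Fin.ext (by exact_mod_cast this)
  have hdet : V.det ≠ 0 := Matrix.det_vandermonde_ne_zero_iff.mpr hinj
  have hunit : IsUnit V.det := isUnit_iff_ne_zero.mpr hdet
  refine ⟨∑ j, ∑ i, |V⁻¹ j i|, by positivity, ?_⟩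
  intro e B hB j
  have hB0 : 0 ≤ B := le_trans (abs_nonneg _) (hB 0)
  have hmul : V⁻¹.mulVec (V.mulVec e) = e := by
    rw [Matrix.mulVec_mulVec, Matrix.nonsing_inv_mul _ hunit, Matrix.one_mulVec]
  have hVe : ∀ i, |V.mulVec e i| ≤ B := by
    intro i
    have : V.mulVec e i = ∑ j : Fin (k+1), e j * ((i : ℕ) : ℝ) ^ (j : ℕ) := by
      simp only [Matrix.mulVec, dotProduct, hV, Matrix.vandermonde_apply, hv]
      exact Finset.sum_congr rfl (fun j _ => mul_comm _ _)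
    rw [this]; exact hB i
  calc |e j| = |V⁻¹.mulVec (V.mulVec e) j| := by rw [hmul]
    _ = |∑ i, V⁻¹ j i * V.mulVec e i| := by simp only [Matrix.mulVec, dotProduct]
    _ ≤ ∑ i, |V⁻¹ j i * V.mulVec e i| := Finset.abs_sum_le_sum_abs _ _
    _ ≤ ∑ i, |V⁻¹ j i| * B := by
        refine Finset.sum_le_sum (fun i _ => ?_)
        rw [abs_mul]
        exact mul_le_mul_of_nonneg_left (hVe i) (abs_nonneg _)
    _ = (∑ i, |V⁻¹ j i|) * B := by rw [Finset.sum_mul]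
    _ ≤ (∑ j, ∑ i, |V⁻¹ j i|) * B := by
        refine mul_le_mul_of_nonneg_right ?_ hB0
        exact Finset.single_le_sum (f := fun j => ∑ i, |V⁻¹ j i|)
          (fun j _ => Finset.sum_nonneg (fun i _ => abs_nonneg _)) (Finset.mem_univ j)

/-- A sequence with geometrically small dyadic oscillation converges at a power rate. -/
lemma sklw_dyadic_limit (u : ℕ → ℝ) (c C : ℝ) (hc : 0 < c) (hC : 0 ≤ C)
    (h : ∀ᶠ j : ℕ in atTop, ∀ N' : ℕ, 2 ^ j ≤ N' → N' ≤ 2 ^ (j+1) →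
      |u N' - u (2 ^ j)| ≤ C * ((2:ℝ) ^ j) ^ (-c)) :
    ∃ a C' : ℝ, ∀ᶠ n : ℕ in atTop, |u n - a| ≤ C' * (n:ℝ) ^ (-c) := by
  obtain ⟨j₀, hj₀⟩ := eventually_atTop.mp h
  set ρ : ℝ := (2:ℝ) ^ (-c) with hρ
  have hρ0 : 0 < ρ := Real.rpow_pos_of_pos (by norm_num) _
  have hρ1 : ρ < 1 := Real.rpow_lt_one_of_one_lt_of_neg (by norm_num) (by linarith)
  have hpow : ∀ j : ℕ, ((2:ℝ) ^ j) ^ (-c) = ρ ^ j := by
    intro j
    rw [hρ, ← Real.rpow_natCast, ← Real.rpow_natCast, ← Real.rpow_mul (by norm_num),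
      ← Real.rpow_mul (by norm_num), mul_comm]
  set f : ℕ → ℝ := fun j => u (2 ^ (j + j₀)) with hf
  have hstep : ∀ n, dist (f n) (f (n+1)) ≤ (C * ρ ^ j₀) * ρ ^ n := by
    intro n
    have h1 := hj₀ (n + j₀) (by omega) (2 ^ (n + j₀ + 1)) (Nat.pow_le_pow_right (by norm_num) (by omega)) le_rfl
    rw [hpow] at h1
    rw [dist_comm, Real.dist_eq]
    have : f (n+1) = u (2 ^ (n + j₀ + 1)) := by
      simp only [hf]; congr 2; omega
    rw [this]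
    calc |u (2 ^ (n + j₀ + 1)) - f n| ≤ C * ρ ^ (n + j₀) := h1
      _ = (C * ρ ^ j₀) * ρ ^ n := by rw [pow_add]; ring
  have hcau : CauchySeq f := cauchySeq_of_le_geometric ρ (C * ρ ^ j₀) hρ1 hstep
  obtain ⟨a, ha⟩ := cauchySeq_tendsto_of_complete hcau
  have hdist : ∀ n, dist (f n) a ≤ (C * ρ ^ j₀) * ρ ^ n / (1 - ρ) :=
    dist_le_of_le_geometric_of_tendsto ρ (C * ρ ^ j₀) hρ1 hstep ha
  refine ⟨a, C * (1 + 1 / (1 - ρ)) * (2:ℝ) ^ c, ?_⟩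
  refine eventually_atTop.mpr ⟨2 ^ j₀, fun n hn => ?_⟩
  have hn0 : n ≠ 0 := by
    have : 0 < 2 ^ j₀ := by positivity
    omega
  set j := Nat.log 2 n with hj
  have hj1 : 2 ^ j ≤ n := Nat.pow_log_le_self 2 hn0
  have hj2 : n < 2 ^ (j+1) := Nat.lt_pow_succ_log_self (by norm_num) n
  have hjj : j₀ ≤ j := by
    by_contra hlt
    have hlt : j < j₀ := Nat.lt_of_not_le hlt
    have : 2 ^ (j+1) ≤ 2 ^ j₀ := Nat.pow_le_pow_right (by norm_num) (by omega)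
    omega
  have h1 := hj₀ j hjj n hj1 hj2.le
  rw [hpow] at h1
  have h2 := hdist (j - j₀)
  have hfj : f (j - j₀) = u (2 ^ j) := by
    simp only [hf]; congr 2; omega
  rw [hfj, Real.dist_eq] at h2
  have h3 : (C * ρ ^ j₀) * ρ ^ (j - j₀) = C * ρ ^ j := by
    rw [mul_assoc, ← pow_add]; congr 2; omega
  rw [h3] at h2
  have hnpos : (0:ℝ) < n := by exact_mod_cast Nat.pos_of_ne_zero hn0
  have h4 : ρ ^ j ≤ (2:ℝ) ^ c * (n:ℝ) ^ (-c) := by
    rw [← hpow]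
    have hlt : (n:ℝ) ≤ 2 * (2:ℝ) ^ j := by
      have : (n:ℝ) ≤ ((2 ^ (j+1) : ℕ) : ℝ) := by exact_mod_cast hj2.le
      rw [pow_succ] at this
      push_cast at this
      linarith
    have hpos : (0:ℝ) < (2:ℝ) ^ j := by positivity
    have e1 : (2:ℝ) ^ c * (n:ℝ) ^ (-c) = ((n:ℝ) / 2) ^ (-c) := by
      rw [Real.div_rpow hnpos.le (by norm_num), Real.rpow_neg (by norm_num : (0:ℝ) ≤ 2)]
      field_simp
    rw [e1]
    apply Real.rpow_le_rpow_of_nonpos (by positivity) (by linarith) (by linarith)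
  have h1ρ : 0 < 1 - ρ := by linarith
  calc |u n - a| ≤ |u n - u (2 ^ j)| + |u (2 ^ j) - a| := abs_sub_le _ _ _
    _ ≤ C * ρ ^ j + C * ρ ^ j / (1 - ρ) := add_le_add h1 h2
    _ = C * (1 + 1 / (1 - ρ)) * ρ ^ j := by field_simp
    _ ≤ C * (1 + 1 / (1 - ρ)) * ((2:ℝ) ^ c * (n:ℝ) ^ (-c)) := by
        apply mul_le_mul_of_nonneg_left h4
        have : 0 ≤ 1 / (1 - ρ) := by positivity
        positivity
    _ = C * (1 + 1 / (1 - ρ)) * (2:ℝ) ^ c * (n:ℝ) ^ (-c) := by ring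



/-- `|y|^n ≤ n! s^{-n} e^{s|y|}`. -/
lemma sklw_pow_le_exp (s : ℝ) (hs : 0 < s) (y : ℝ) (n : ℕ) :
    |y| ^ n ≤ (n.factorial : ℝ) * (1 / s) ^ n * Real.exp (s * |y|) := by
  have h := Real.pow_div_factorial_le_exp (s * |y|) (by positivity) n
  have hf : (0:ℝ) < n.factorial := by exact_mod_cast Nat.factorial_pos n
  rw [div_le_iff₀ hf] at h
  have : |y| ^ n = (1 / s) ^ n * (s * |y|) ^ n := by
    rw [← mul_pow]; congr 1; field_simp
  rw [this]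
  calc (1 / s) ^ n * (s * |y|) ^ n ≤ (1 / s) ^ n * (Real.exp (s * |y|) * n.factorial) := by
        apply mul_le_mul_of_nonneg_left h (by positivity)
    _ = _ := by ring

section one
variable {μ : Measure ℝ} [IsProbabilityMeasure μ] {s C₁ : ℝ}

omit [IsProbabilityMeasure μ] in
lemma sklw_int_pow (hs : 0 < s) (hi : Integrable (fun y : ℝ => Real.exp (s * |y|)) μ) (n : ℕ) :
    Integrable (fun y : ℝ => y ^ n) μ := by
  refine Integrable.mono' (hi.const_mul ((n.factorial : ℝ) * (1 / s) ^ n))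
    (by fun_prop) (Eventually.of_forall (fun y => ?_))
  rw [Real.norm_eq_abs, abs_pow]
  exact sklw_pow_le_exp s hs y n

omit [IsProbabilityMeasure μ] in
lemma sklw_int_exp (hi : Integrable (fun y : ℝ => Real.exp (s * |y|)) μ) (t : ℝ) (ht : |t| ≤ s) :
    Integrable (fun y : ℝ => Real.exp (t * y)) μ := by
  refine Integrable.mono' hi (by fun_prop) (Eventually.of_forall (fun y => ?_))
  rw [Real.norm_eq_abs, abs_of_pos (Real.exp_pos _)]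
  apply Real.exp_le_exp.mpr
  calc t * y ≤ |t * y| := le_abs_self _
    _ = |t| * |y| := abs_mul _ _
    _ ≤ s * |y| := mul_le_mul_of_nonneg_right ht (abs_nonneg _)

omit [IsProbabilityMeasure μ] in
lemma sklw_mgf_le (hi : Integrable (fun y : ℝ => Real.exp (s * |y|)) μ)
    (hC : ∫ y, Real.exp (s * |y|) ∂μ ≤ C₁) (t : ℝ) (ht : |t| ≤ s) :
    ∫ y, Real.exp (t * y) ∂μ ≤ C₁ := by
  refine le_trans (integral_mono (sklw_int_exp hi t ht) hi (fun y => ?_)) hC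
  apply Real.exp_le_exp.mpr
  calc t * y ≤ |t * y| := le_abs_self _
    _ = |t| * |y| := abs_mul _ _
    _ ≤ s * |y| := mul_le_mul_of_nonneg_right ht (abs_nonneg _)

lemma sklw_mgf_pos (hi : Integrable (fun y : ℝ => Real.exp (s * |y|)) μ) (t : ℝ) (ht : |t| ≤ s) :
    0 < ∫ y, Real.exp (t * y) ∂μ := by
  have := sklw_int_exp hi t ht
  exact integral_exp_pos this

omit [IsProbabilityMeasure μ] in
/-- Taylor expansion of the Laplace transform with explicit remainder. -/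
lemma sklw_mgf_taylor (hs : 0 < s) (hi : Integrable (fun y : ℝ => Real.exp (s * |y|)) μ)
    (hC : ∫ y, Real.exp (s * |y|) ∂μ ≤ C₁) (t : ℝ) (ht : |t| ≤ s / 2) (n : ℕ) :
    |∫ y, Real.exp (t * y) ∂μ - ∑ m ∈ Finset.range n, (∫ y, y ^ m ∂μ) * t ^ m / (m.factorial : ℝ)|
      ≤ C₁ * ((n.factorial : ℝ) * (2 * |t| / s) ^ n) := by
  have ht' : |t| ≤ s := by linarith
  have hsum : ∑ m ∈ Finset.range n, (∫ y, y ^ m ∂μ) * t ^ m / (m.factorial : ℝ)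
      = ∫ y, ∑ m ∈ Finset.range n, (t * y) ^ m / (m.factorial : ℝ) ∂μ := by
    rw [integral_finsetSum]
    · refine Finset.sum_congr rfl (fun m _ => ?_)
      rw [← integral_mul_const, ← integral_div]
      congr 1
      ext y
      rw [mul_pow]; ring
    · intro m _
      have := (sklw_int_pow hs hi m).const_mul (t ^ m / (m.factorial : ℝ))
      refine this.congr (Eventually.of_forall (fun y => ?_))
      simp only [mul_pow]; ring
  have hisum : Integrable (fun y : ℝ => ∑ m ∈ Finset.range n, (t * y) ^ m / (m.factorial : ℝ)) μ := by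
    refine integrable_finsetSum _ (fun m _ => ?_)
    have := (sklw_int_pow hs hi m).const_mul (t ^ m / (m.factorial : ℝ))
    refine this.congr (Eventually.of_forall (fun y => ?_))
    simp only [mul_pow]; ring
  rw [hsum, ← integral_sub (sklw_int_exp hi t ht') hisum]
  have hpt : ∀ y : ℝ, |Real.exp (t * y) - ∑ m ∈ Finset.range n, (t * y) ^ m / (m.factorial : ℝ)|
      ≤ ((n.factorial : ℝ) * (2 * |t| / s) ^ n) * Real.exp (s * |y|) := by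
    intro y
    refine le_trans (sklw_exp_taylor (t * y) n) ?_
    have h1 : |t * y| ^ n ≤ |t| ^ n * ((n.factorial : ℝ) * (1 / (s/2)) ^ n * Real.exp (s / 2 * |y|)) := by
      rw [abs_mul, mul_pow]
      exact mul_le_mul_of_nonneg_left (sklw_pow_le_exp (s/2) (by linarith) y n) (by positivity)
    have h2 : Real.exp |t * y| ≤ Real.exp (s / 2 * |y|) := by
      apply Real.exp_le_exp.mpr
      rw [abs_mul]
      exact mul_le_mul_of_nonneg_right ht (abs_nonneg _)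
    calc |t * y| ^ n * Real.exp |t * y|
        ≤ (|t| ^ n * ((n.factorial : ℝ) * (1 / (s/2)) ^ n * Real.exp (s / 2 * |y|)))
            * Real.exp (s / 2 * |y|) := by
          apply mul_le_mul h1 h2 (Real.exp_pos _).le (by positivity)
      _ = ((n.factorial : ℝ) * (|t| ^ n * (1 / (s/2)) ^ n))
            * (Real.exp (s / 2 * |y|) * Real.exp (s / 2 * |y|)) := by ring
      _ = ((n.factorial : ℝ) * (2 * |t| / s) ^ n) * Real.exp (s * |y|) := by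
          rw [← Real.exp_add, ← mul_pow]
          congr 2
          · field_simp
          · ring
  have hK : 0 ≤ ((n.factorial : ℝ) * (2 * |t| / s) ^ n) := by positivity
  calc |∫ y, (Real.exp (t * y) - ∑ m ∈ Finset.range n, (t * y) ^ m / (m.factorial : ℝ)) ∂μ|
      ≤ ∫ y, |Real.exp (t * y) - ∑ m ∈ Finset.range n, (t * y) ^ m / (m.factorial : ℝ)| ∂μ :=
        abs_integral_le_integral_abs
    _ ≤ ∫ y, ((n.factorial : ℝ) * (2 * |t| / s) ^ n) * Real.exp (s * |y|) ∂μ := by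
        refine integral_mono ?_ (hi.const_mul _) hpt
        exact ((sklw_int_exp hi t ht').sub hisum).abs
    _ = ((n.factorial : ℝ) * (2 * |t| / s) ^ n) * ∫ y, Real.exp (s * |y|) ∂μ := integral_const_mul _ _
    _ ≤ ((n.factorial : ℝ) * (2 * |t| / s) ^ n) * C₁ := mul_le_mul_of_nonneg_left hC hK
    _ = _ := mul_comm _ _

end one

/-- One comparison step: closeness of log-Laplace transforms at the nodes `qδ` gives closeness
of the moments up to order `k`. -/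
lemma sklw_step (k : ℕ) (A : ℝ)
    (hA : ∀ (e : Fin (k+1) → ℝ) (B : ℝ),
      (∀ i : Fin (k+1), |∑ j : Fin (k+1), e j * ((i : ℕ) : ℝ) ^ (j : ℕ)| ≤ B) →
      ∀ j, |e j| ≤ A * B)
    (μ μ' : Measure ℝ) [IsProbabilityMeasure μ] [IsProbabilityMeasure μ'] (s C₁ δ E : ℝ)
    (hs : 0 < s) (hδ : 0 < δ) (hkδ : (k:ℝ) * δ ≤ s / 2) (hE1 : E ≤ 1)
    (hi : Integrable (fun y : ℝ => Real.exp (s * |y|)) μ)
    (hC : ∫ y, Real.exp (s * |y|) ∂μ ≤ C₁)
    (hi' : Integrable (fun y : ℝ => Real.exp (s * |y|)) μ')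
    (hC' : ∫ y, Real.exp (s * |y|) ∂μ' ≤ C₁)
    (hlog : ∀ q : ℕ, 1 ≤ q → q ≤ k →
      |Real.log (∫ y, Real.exp ((q:ℝ) * δ * y) ∂μ') - Real.log (∫ y, Real.exp ((q:ℝ) * δ * y) ∂μ)| ≤ E)
    (hE0 : 0 ≤ E) (l : ℕ) (hl : l ≤ k) :
    |(∫ y, y ^ l ∂μ') - ∫ y, y ^ l ∂μ| * δ ^ l / (l.factorial : ℝ)
      ≤ A * (2 * C₁ * E + 2 * (C₁ * (((k+1).factorial : ℝ) * (2 * ((k:ℝ) * δ) / s) ^ (k+1)))) := by
  have hC₁ : 0 ≤ C₁ := le_trans (integral_nonneg (fun y => (Real.exp_pos _).le)) hC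
  set e : Fin (k+1) → ℝ := fun j =>
    ((∫ y, y ^ (j:ℕ) ∂μ') - ∫ y, y ^ (j:ℕ) ∂μ) * δ ^ (j:ℕ) / ((j:ℕ).factorial : ℝ) with he
  set B : ℝ := 2 * C₁ * E + 2 * (C₁ * (((k+1).factorial : ℝ) * (2 * ((k:ℝ) * δ) / s) ^ (k+1))) with hB
  have key : ∀ i : Fin (k+1), |∑ j : Fin (k+1), e j * ((i : ℕ) : ℝ) ^ (j : ℕ)| ≤ B := by
    intro i
    set t : ℝ := ((i:ℕ):ℝ) * δ with ht
    have hik : ((i:ℕ):ℝ) ≤ (k:ℝ) := by exact_mod_cast Nat.lt_succ_iff.mp i.2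
    have ht0 : 0 ≤ t := by positivity
    have htk : t ≤ (k:ℝ) * δ := mul_le_mul_of_nonneg_right hik hδ.le
    have htabs : |t| ≤ s / 2 := by rw [abs_of_nonneg ht0]; linarith
    have htabs' : |t| ≤ s := by linarith
    have hT := sklw_mgf_taylor hs hi hC t htabs (k+1)
    have hT' := sklw_mgf_taylor hs hi' hC' t htabs (k+1)
    have hrem : C₁ * (((k+1).factorial : ℝ) * (2 * |t| / s) ^ (k+1))
        ≤ C₁ * (((k+1).factorial : ℝ) * (2 * ((k:ℝ) * δ) / s) ^ (k+1)) := by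
      rw [abs_of_nonneg ht0]
      gcongr
    have hsum : ∑ j : Fin (k+1), e j * ((i : ℕ) : ℝ) ^ (j : ℕ)
        = (∑ m ∈ Finset.range (k+1), (∫ y, y ^ m ∂μ') * t ^ m / (m.factorial : ℝ))
          - ∑ m ∈ Finset.range (k+1), (∫ y, y ^ m ∂μ) * t ^ m / (m.factorial : ℝ) := by
      rw [← Finset.sum_sub_distrib, Finset.sum_range]
      refine Finset.sum_congr rfl (fun j _ => ?_)
      simp only [he, ht, mul_pow]
      ring
    have hM : |(∫ y, Real.exp (t * y) ∂μ') - ∫ y, Real.exp (t * y) ∂μ| ≤ 2 * C₁ * E := by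
      rcases Nat.eq_zero_or_pos (i:ℕ) with h0 | hpos
      · have : t = 0 := by simp [ht, h0]
        simp only [this, zero_mul, Real.exp_zero, integral_const, probReal_univ, smul_eq_mul,
          mul_one, sub_self, abs_zero]
        positivity
      · have hq := hlog (i:ℕ) hpos (Nat.lt_succ_iff.mp i.2)
        rw [← ht] at hq
        have hp := sklw_mgf_pos hi t htabs'
        have hp' := sklw_mgf_pos hi' t htabs'
        have hle := sklw_mgf_le hi hC t htabs'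
        set M := ∫ y, Real.exp (t * y) ∂μ with hMdef
        set M' := ∫ y, Real.exp (t * y) ∂μ' with hM'def
        set Δ := Real.log M' - Real.log M with hΔ
        have e1 : M' = M * Real.exp Δ := by
          rw [hΔ, Real.exp_sub, Real.exp_log hp, Real.exp_log hp']
          field_simp
        have hΔ1 : |Δ| ≤ 1 := le_trans hq hE1
        have h2 := Real.abs_exp_sub_one_le hΔ1
        calc |M' - M| = M * |Real.exp Δ - 1| := by
              rw [e1, ← mul_sub_one, abs_mul, abs_of_pos hp]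
          _ ≤ C₁ * (2 * |Δ|) := mul_le_mul hle h2 (abs_nonneg _) hC₁
          _ ≤ C₁ * (2 * E) := by gcongr
          _ = 2 * C₁ * E := by ring
    rw [hsum]
    set T := ∑ m ∈ Finset.range (k+1), (∫ y, y ^ m ∂μ) * t ^ m / (m.factorial : ℝ)
    set T' := ∑ m ∈ Finset.range (k+1), (∫ y, y ^ m ∂μ') * t ^ m / (m.factorial : ℝ)
    set M := ∫ y, Real.exp (t * y) ∂μ
    set M' := ∫ y, Real.exp (t * y) ∂μ'
    have : T' - T = (M' - M) - (M' - T') + (M - T) := by ring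
    rw [this]
    calc |(M' - M) - (M' - T') + (M - T)| ≤ |(M' - M) - (M' - T')| + |M - T| := abs_add_le _ _
      _ ≤ |M' - M| + |M' - T'| + |M - T| := by gcongr; exact abs_sub _ _
      _ ≤ B := by rw [hB]; linarith
  have := hA e B key ⟨l, Nat.lt_succ_iff.mpr hl⟩
  simp only [he] at this
  rw [abs_div, abs_mul, abs_of_pos (pow_pos hδ l), abs_of_pos (by positivity : (0:ℝ) < (l.factorial : ℝ))] at this
  exact this



/-- The dyadic scale `x_j = (2^j)^{-1/6}`. -/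
noncomputable def sklwX (j : ℕ) : ℝ := ((2:ℝ) ^ j) ^ (-(1/6:ℝ))

/-- The dyadic transform comparison (LL Prop. 4.4 = `red:prop-dyadic`) for a sequence of laws:
`x = (2^j)^(-1/6)`, nodes `q x^ε` with `q = 1, 2, …`; the saving `c'` does not depend on `ε`. -/
def SklwDyad (μ : ℕ → Measure ℝ) : Prop :=
  ∃ c' ε₀ : ℝ, 0 < c' ∧ 0 < ε₀ ∧ ∀ ε : ℝ, 0 < ε → ε < ε₀ → ∀ q : ℕ, 1 ≤ q → ∃ C : ℝ,
      ∀ᶠ j : ℕ in atTop, ∀ N' : ℕ, 2 ^ j ≤ N' → N' ≤ 2 ^ (j+1) →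
        |Real.log (∫ y, Real.exp ((q:ℝ) * (sklwX j) ^ ε * y) ∂(μ N'))
          - Real.log (∫ y, Real.exp ((q:ℝ) * (sklwX j) ^ ε * y) ∂(μ (2 ^ j)))|
          ≤ C * (sklwX j) ^ (ε + c')

/-- Hypotheses of the abstract top block (LL Thm 1.2 from the dyadic comparison).
`var_lo`, `var_hi` = PE Theorem 1.1; `tail` = log-concave augmentation + 1-D lemma; `dyad` = LL Prop. 4.4. -/
structure SklwHyp (μ : ℕ → Measure ℝ) : Prop where
  prob : ∀ n, IsProbabilityMeasure (μ n)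
  var_lo : ∀ η : ℝ, 0 < η → ∀ᶠ n : ℕ in atTop, (n:ℝ) ^ (-η) ≤ ∫ y, y ^ 2 ∂(μ n)
  var_hi : ∀ η : ℝ, 0 < η → ∀ᶠ n : ℕ in atTop, ∫ y, y ^ 2 ∂(μ n) ≤ (n:ℝ) ^ η
  tail : ∃ t₁ C₁ K : ℝ, 0 < t₁ ∧ 0 < K ∧ ∀ᶠ n : ℕ in atTop,
      Integrable (fun y : ℝ => Real.exp (t₁ / Real.sqrt ((∫ z, z ^ 2 ∂(μ n)) + K) * |y|)) (μ n) ∧
      ∫ y, Real.exp (t₁ / Real.sqrt ((∫ z, z ^ 2 ∂(μ n)) + K) * |y|) ∂(μ n) ≤ C₁
  dyad : SklwDyad μ

lemma sklwX_pos (j : ℕ) : 0 < sklwX j := Real.rpow_pos_of_pos (by positivity) _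

lemma sklwX_le_one (j : ℕ) : sklwX j ≤ 1 := by
  apply Real.rpow_le_one_of_one_le_of_nonpos
  · exact one_le_pow₀ (by norm_num)
  · norm_num

lemma sklwX_rpow (j : ℕ) (a : ℝ) : (sklwX j) ^ a = ((2:ℝ) ^ j) ^ (-(a/6)) := by
  unfold sklwX
  rw [← Real.rpow_mul (by positivity)]
  congr 1; ring

lemma sklwX_tendsto (a : ℝ) (ha : 0 < a) : Tendsto (fun j : ℕ => (sklwX j) ^ a) atTop (𝓝 0) := by
  have h1 : Tendsto (fun j : ℕ => ((2:ℝ) ^ j)) atTop atTop :=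
    tendsto_pow_atTop_atTop_of_one_lt (by norm_num)
  have h2 := (tendsto_rpow_neg_atTop (by positivity : 0 < a / 6)).comp h1
  refine h2.congr (fun j => ?_)
  simp only [Function.comp, sklwX_rpow]

/-- monotonicity of exponential moments in the scale -/
lemma sklw_tail_mono {ν : Measure ℝ} {s s' C : ℝ} (hss : s' ≤ s)
    (hi : Integrable (fun y : ℝ => Real.exp (s * |y|)) ν)
    (hC : ∫ y, Real.exp (s * |y|) ∂ν ≤ C) :
    Integrable (fun y : ℝ => Real.exp (s' * |y|)) ν ∧ ∫ y, Real.exp (s' * |y|) ∂ν ≤ C := by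
  have hpt : ∀ y : ℝ, Real.exp (s' * |y|) ≤ Real.exp (s * |y|) := fun y =>
    Real.exp_le_exp.mpr (mul_le_mul_of_nonneg_right hss (abs_nonneg _))
  have hi' : Integrable (fun y : ℝ => Real.exp (s' * |y|)) ν := by
    refine Integrable.mono' hi (by fun_prop) (Eventually.of_forall (fun y => ?_))
    rw [Real.norm_eq_abs, abs_of_pos (Real.exp_pos _)]
    exact hpt y
  exact ⟨hi', le_trans (integral_mono hi' hi hpt) hC⟩

variable {μ : ℕ → Measure ℝ}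

/-- subpower exponential tails -/
lemma sklw_tail_n (h : SklwHyp μ) : ∃ C₁ : ℝ, ∀ θ : ℝ, 0 < θ → ∀ᶠ n : ℕ in atTop,
    Integrable (fun y : ℝ => Real.exp ((n:ℝ) ^ (-θ) * |y|)) (μ n) ∧
      ∫ y, Real.exp ((n:ℝ) ^ (-θ) * |y|) ∂(μ n) ≤ C₁ := by
  obtain ⟨t₁, C₁, K, ht₁, hK, htail⟩ := h.tail
  refine ⟨C₁, fun θ hθ => ?_⟩
  have hinf : Tendsto (fun n : ℕ => (n:ℝ) ^ θ) atTop atTop :=
    (tendsto_rpow_atTop hθ).comp tendsto_natCast_atTop_atTop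
  filter_upwards [htail, h.var_hi θ hθ, hinf.eventually_ge_atTop K,
    hinf.eventually_ge_atTop (2 / t₁ ^ 2), eventually_gt_atTop 0] with n h1 h2 h3 h4 h5
  have hn : (0:ℝ) < n := by exact_mod_cast h5
  set v := ∫ z, z ^ 2 ∂(μ n) with hv
  have hv0 : 0 ≤ v := integral_nonneg (fun z => by positivity)
  set W := (n:ℝ) ^ θ with hW
  have hWpos : 0 < W := Real.rpow_pos_of_pos hn _
  have hsq : Real.sqrt (v + K) ≤ t₁ * W := by
    apply Real.sqrt_le_iff.mpr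
    refine ⟨by positivity, ?_⟩
    have : 2 ≤ t₁ ^ 2 * W := by
      rw [div_le_iff₀ (by positivity)] at h4
      linarith
    calc v + K ≤ 2 * W := by linarith
      _ ≤ (t₁ ^ 2 * W) * W := mul_le_mul_of_nonneg_right this hWpos.le
      _ = (t₁ * W) ^ 2 := by ring
  have hsqpos : 0 < Real.sqrt (v + K) := Real.sqrt_pos.mpr (by linarith)
  have hle : (n:ℝ) ^ (-θ) ≤ t₁ / Real.sqrt (v + K) := by
    rw [Real.rpow_neg hn.le, le_div_iff₀ hsqpos, ← hW]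
    rw [inv_mul_le_iff₀ hWpos]
    linarith
  exact sklw_tail_mono hle h1.1 h1.2

/-- subpower exponential tails, uniformly on a dyad -/
lemma sklw_tail_dyad (h : SklwHyp μ) : ∃ C₁ : ℝ, ∀ θ : ℝ, 0 < θ → ∀ᶠ j : ℕ in atTop,
    ∀ N' : ℕ, 2 ^ j ≤ N' → N' ≤ 2 ^ (j+1) →
    Integrable (fun y : ℝ => Real.exp ((sklwX j) ^ θ * |y|)) (μ N') ∧
      ∫ y, Real.exp ((sklwX j) ^ θ * |y|) ∂(μ N') ≤ C₁ := by
  obtain ⟨C₁, hC₁⟩ := sklw_tail_n h
  refine ⟨C₁, fun θ hθ => ?_⟩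
  obtain ⟨n₀, hn₀⟩ := eventually_atTop.mp (hC₁ (θ / 12) (by positivity))
  refine eventually_atTop.mpr ⟨max n₀ 1, fun j hj N' h1 h2 => ?_⟩
  have hj0 : n₀ ≤ j := le_trans (le_max_left _ _) hj
  have hj1 : 1 ≤ j := le_trans (le_max_right _ _) hj
  have hjN : n₀ ≤ N' := le_trans hj0 (le_trans (Nat.lt_two_pow_self).le h1)
  obtain ⟨hi, hC⟩ := hn₀ N' hjN
  refine sklw_tail_mono ?_ hi hC
  rw [sklwX_rpow]
  have hN'pos : (0:ℝ) < N' := by
    have : 0 < 2 ^ j := by positivity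
    exact_mod_cast lt_of_lt_of_le this h1
  have hX : (1:ℝ) ≤ (2:ℝ) ^ j := one_le_pow₀ (by norm_num)
  have hN'le : (N':ℝ) ≤ ((2:ℝ) ^ j) ^ (2:ℝ) := by
    have e1 : (N':ℝ) ≤ ((2 ^ (j+1) : ℕ) : ℝ) := by exact_mod_cast h2
    push_cast at e1
    have e2 : (2:ℝ) ≤ (2:ℝ) ^ j := by
      calc (2:ℝ) = 2 ^ 1 := by norm_num
        _ ≤ 2 ^ j := pow_le_pow_right₀ (by norm_num) hj1
    rw [Real.rpow_two]
    calc (N':ℝ) ≤ 2 ^ (j+1) := e1
      _ = 2 ^ j * 2 := pow_succ _ _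
      _ ≤ 2 ^ j * 2 ^ j := by gcongr
      _ = (2 ^ j) ^ 2 := by ring
  calc ((2:ℝ) ^ j) ^ (-(θ / 6)) = (((2:ℝ) ^ j) ^ (2:ℝ)) ^ (-(θ / 12)) := by
        rw [← Real.rpow_mul (by positivity)]; congr 1; ring
    _ ≤ (N':ℝ) ^ (-(θ / 12)) :=
        Real.rpow_le_rpow_of_nonpos hN'pos hN'le (by linarith)


/-- moments up to order `k` have power-small oscillation on dyads -/
lemma sklw_moment_dyad (h : SklwHyp μ) (k : ℕ) : ∃ c C : ℝ, 0 < c ∧ 0 ≤ C ∧ ∀ᶠ j : ℕ in atTop,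
    ∀ N' : ℕ, 2 ^ j ≤ N' → N' ≤ 2 ^ (j+1) → ∀ l ≤ k,
      |(∫ y, y ^ l ∂(μ N')) - ∫ y, y ^ l ∂(μ (2 ^ j))| ≤ C * ((2:ℝ) ^ j) ^ (-c) := by
  obtain ⟨c', ε₀, hc', hε₀, hd⟩ := h.dyad
  obtain ⟨C₁, hC₁⟩ := sklw_tail_dyad h
  obtain ⟨A, hA0, hA⟩ := sklw_vander k
  have hk1 : (0:ℝ) < (k:ℝ) + 1 := by positivity
  set ε : ℝ := min (ε₀ / 2) (c' / ((k:ℝ) + 1)) with hε
  have hε0 : 0 < ε := lt_min (by positivity) (by positivity)
  have hε1 : ε < ε₀ := lt_of_le_of_lt (min_le_left _ _) (by linarith)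
  have hεk : ε * (k:ℝ) ≤ c' := by
    have h1 : ε ≤ c' / ((k:ℝ) + 1) := min_le_right _ _
    rw [le_div_iff₀ hk1] at h1
    nlinarith
  set θ : ℝ := ε / (2 * ((k:ℝ) + 1)) with hθ
  have hθ0 : 0 < θ := by positivity
  have hθk : θ * ((k:ℝ) + 1) = ε / 2 := by rw [hθ]; field_simp
  have hθε : θ < ε := by
    have : θ * ((k:ℝ) + 1) ≥ θ := by nlinarith
    linarith
  have hd' : ∀ q : ℕ, ∃ C : ℝ, 1 ≤ q → ∀ᶠ j : ℕ in atTop, ∀ N' : ℕ, 2 ^ j ≤ N' → N' ≤ 2 ^ (j+1) →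
        |Real.log (∫ y, Real.exp ((q:ℝ) * (sklwX j) ^ ε * y) ∂(μ N'))
          - Real.log (∫ y, Real.exp ((q:ℝ) * (sklwX j) ^ ε * y) ∂(μ (2 ^ j)))|
          ≤ C * (sklwX j) ^ (ε + c') := by
    intro q
    by_cases hq : 1 ≤ q
    · obtain ⟨C, hC⟩ := hd ε hε0 hε1 q hq
      exact ⟨C, fun _ => hC⟩
    · exact ⟨0, fun h => absurd h hq⟩
  choose Cf hCf using hd'
  set Cm : ℝ := ∑ q ∈ Finset.range (k+1), |Cf q| with hCm
  have hCm0 : 0 ≤ Cm := Finset.sum_nonneg (fun _ _ => abs_nonneg _)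
  have hCfle : ∀ q ≤ k, Cf q ≤ Cm := by
    intro q hq
    refine le_trans (le_abs_self _) ?_
    exact Finset.single_le_sum (f := fun q => |Cf q|) (fun _ _ => abs_nonneg _)
      (Finset.mem_range.mpr (Nat.lt_succ_iff.mpr hq))
  have hall : ∀ᶠ j : ℕ in atTop, ∀ q ∈ Finset.Icc 1 k, ∀ N' : ℕ, 2 ^ j ≤ N' → N' ≤ 2 ^ (j+1) →
        |Real.log (∫ y, Real.exp ((q:ℝ) * (sklwX j) ^ ε * y) ∂(μ N'))
          - Real.log (∫ y, Real.exp ((q:ℝ) * (sklwX j) ^ ε * y) ∂(μ (2 ^ j)))|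
          ≤ Cf q * (sklwX j) ^ (ε + c') := by
    rw [Filter.eventually_all_finset]
    intro q hq
    exact hCf q (Finset.mem_Icc.mp hq).1
  have hE1 : ∀ᶠ j : ℕ in atTop, Cm * (sklwX j) ^ (ε + c') ≤ 1 := by
    have := (sklwX_tendsto (ε + c') (by positivity)).const_mul Cm
    rw [mul_zero] at this
    exact this.eventually_le_const (by norm_num)
  have hnode : ∀ᶠ j : ℕ in atTop, 2 * (k:ℝ) * (sklwX j) ^ (ε - θ) ≤ 1 := by
    have := (sklwX_tendsto (ε - θ) (by linarith)).const_mul (2 * (k:ℝ))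
    rw [mul_zero] at this
    exact this.eventually_le_const (by norm_num)
  set K' : ℝ := 2 * |C₁| * Cm + 2 * (|C₁| * (((k+1).factorial : ℝ) * (2 * (k:ℝ)) ^ (k+1))) with hK'
  have hK'0 : 0 ≤ K' := by positivity
  refine ⟨ε / 12, (k.factorial : ℝ) * (A * K'), by positivity, by positivity, ?_⟩
  filter_upwards [hall, hE1, hnode, hC₁ θ hθ0] with j h1 h2 h3 h4 N' hN1 hN2 l hl
  have := h.prob N'
  have := h.prob (2 ^ j)
  set x := sklwX j with hx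
  have hx0 : 0 < x := sklwX_pos j
  have hx1 : x ≤ 1 := sklwX_le_one j
  obtain ⟨hi', hC'⟩ := h4 N' hN1 hN2
  obtain ⟨hi, hC⟩ := h4 (2 ^ j) le_rfl (Nat.pow_le_pow_right (by norm_num) (by omega))
  have hC₁0 : 0 ≤ C₁ := le_trans (integral_nonneg (fun y => (Real.exp_pos _).le)) hC
  have hs : 0 < x ^ θ := Real.rpow_pos_of_pos hx0 _
  have hδ : 0 < x ^ ε := Real.rpow_pos_of_pos hx0 _
  have hδ1 : x ^ ε ≤ 1 := Real.rpow_le_one hx0.le hx1 hε0.le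
  have hsplit : x ^ ε = x ^ (ε - θ) * x ^ θ := by
    rw [← Real.rpow_add hx0]; congr 1; ring
  have hkδ : (k:ℝ) * x ^ ε ≤ x ^ θ / 2 := by
    rw [hsplit]
    have : (k:ℝ) * (x ^ (ε - θ) * x ^ θ) = (2 * (k:ℝ) * x ^ (ε - θ)) * x ^ θ / 2 := by ring
    rw [this]
    have := mul_le_mul_of_nonneg_right h3 hs.le
    linarith
  have hstep := sklw_step k A hA (μ (2 ^ j)) (μ N') (x ^ θ) C₁ (x ^ ε) (Cm * x ^ (ε + c'))
    hs hδ hkδ h2 hi hC hi' hC'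
    (fun q hq1 hq2 => le_trans (h1 q (Finset.mem_Icc.mpr ⟨hq1, hq2⟩) N' hN1 hN2)
      (mul_le_mul_of_nonneg_right (hCfle q hq2) (Real.rpow_pos_of_pos hx0 _).le))
    (by positivity) l hl
  -- the two power computations
  have hp1 : x ^ (ε + c') ≤ x ^ (ε / 2) * (x ^ ε) ^ k := by
    rw [← Real.rpow_natCast (x ^ ε) k, ← Real.rpow_mul hx0.le, ← Real.rpow_add hx0]
    apply Real.rpow_le_rpow_of_exponent_ge hx0 hx1
    linarith
  have hp2 : (2 * ((k:ℝ) * x ^ ε) / x ^ θ) ^ (k+1) = (2 * (k:ℝ)) ^ (k+1) * (x ^ (ε / 2) * (x ^ ε) ^ k) := by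
    have e1 : (x ^ θ) ^ (k+1) = x ^ (ε / 2) := by
      rw [← Real.rpow_natCast (x ^ θ) (k+1), ← Real.rpow_mul hx0.le]
      congr 1
      push_cast
      exact hθk
    have e2 : x ^ ε = x ^ (ε / 2) * x ^ (ε / 2) := by
      rw [← Real.rpow_add hx0]; congr 1; ring
    have hh : 0 < x ^ (ε / 2) := Real.rpow_pos_of_pos hx0 _
    rw [div_pow, e1, mul_pow, mul_pow, mul_pow, pow_succ (x ^ ε) k]
    rw [div_eq_iff hh.ne']
    nth_rewrite 2 [e2]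
    ring
  have hR : A * (2 * C₁ * (Cm * x ^ (ε + c')) + 2 * (C₁ * (((k+1).factorial : ℝ)
      * (2 * ((k:ℝ) * x ^ ε) / x ^ θ) ^ (k+1)))) ≤ A * K' * (x ^ (ε / 2) * (x ^ ε) ^ k) := by
    rw [hp2, hK', abs_of_nonneg hC₁0]
    have : 2 * C₁ * (Cm * x ^ (ε + c')) ≤ 2 * C₁ * (Cm * (x ^ (ε / 2) * (x ^ ε) ^ k)) := by
      gcongr
    calc A * (2 * C₁ * (Cm * x ^ (ε + c')) + 2 * (C₁ * (((k+1).factorial : ℝ)
            * ((2 * (k:ℝ)) ^ (k+1) * (x ^ (ε / 2) * (x ^ ε) ^ k)))))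
        ≤ A * (2 * C₁ * (Cm * (x ^ (ε / 2) * (x ^ ε) ^ k)) + 2 * (C₁ * (((k+1).factorial : ℝ)
            * ((2 * (k:ℝ)) ^ (k+1) * (x ^ (ε / 2) * (x ^ ε) ^ k))))) := by gcongr
      _ = _ := by ring
  have hkl : (x ^ ε) ^ k ≤ (x ^ ε) ^ l := pow_le_pow_of_le_one hδ.le hδ1 hl
  have hfin : |(∫ y, y ^ l ∂(μ N')) - ∫ y, y ^ l ∂(μ (2 ^ j))| * (x ^ ε) ^ l / (l.factorial : ℝ)
      ≤ A * K' * x ^ (ε / 2) * (x ^ ε) ^ l := by
    refine le_trans hstep (le_trans hR ?_)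
    have hh : 0 ≤ A * K' * x ^ (ε / 2) := by positivity
    calc A * K' * (x ^ (ε / 2) * (x ^ ε) ^ k) = A * K' * x ^ (ε / 2) * (x ^ ε) ^ k := by ring
      _ ≤ A * K' * x ^ (ε / 2) * (x ^ ε) ^ l := mul_le_mul_of_nonneg_left hkl hh
  have hlf : (0:ℝ) < (l.factorial : ℝ) := by exact_mod_cast Nat.factorial_pos l
  have hδl : 0 < (x ^ ε) ^ l := pow_pos hδ l
  rw [div_le_iff₀ hlf] at hfin
  have hfin2 : |(∫ y, y ^ l ∂(μ N')) - ∫ y, y ^ l ∂(μ (2 ^ j))| ≤ A * K' * x ^ (ε / 2) * (l.factorial : ℝ) := by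
    have : |(∫ y, y ^ l ∂(μ N')) - ∫ y, y ^ l ∂(μ (2 ^ j))| * (x ^ ε) ^ l
        ≤ (A * K' * x ^ (ε / 2) * (l.factorial : ℝ)) * (x ^ ε) ^ l := by
      calc _ ≤ A * K' * x ^ (ε / 2) * (x ^ ε) ^ l * (l.factorial : ℝ) := hfin
        _ = _ := by ring
    exact le_of_mul_le_mul_right this hδl
  have hfac : (l.factorial : ℝ) ≤ (k.factorial : ℝ) := by exact_mod_cast Nat.factorial_le hl
  have hxe : x ^ (ε / 2) = ((2:ℝ) ^ j) ^ (-(ε / 12)) := by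
    rw [hx, sklwX_rpow]; congr 1; ring
  rw [← hxe]
  calc _ ≤ A * K' * x ^ (ε / 2) * (l.factorial : ℝ) := hfin2
    _ ≤ A * K' * x ^ (ε / 2) * (k.factorial : ℝ) := by
        apply mul_le_mul_of_nonneg_left hfac (by positivity)
    _ = _ := by ring

/-- **Abstract top block** (LL Theorem 1.2 from the dyadic transform comparison). -/
theorem sklw_main (h : SklwHyp μ) :
    ∃ a : ℕ → ℝ,
      (∀ k : ℕ, ∃ c C : ℝ, 0 < c ∧ ∀ᶠ n : ℕ in atTop,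
        |(∫ y, y ^ k ∂(μ n)) - a k| ≤ C * (n:ℝ) ^ (-c)) ∧
      0 < a 2 ∧
      ∃ t₀ C : ℝ, 0 < t₀ ∧ ∀ᶠ n : ℕ in atTop,
        Integrable (fun y : ℝ => Real.exp (t₀ * |y|)) (μ n) ∧
        ∫ y, Real.exp (t₀ * |y|) ∂(μ n) ≤ C := by
  have hk : ∀ k : ℕ, ∃ a c C : ℝ, 0 < c ∧ ∀ᶠ n : ℕ in atTop,
        |(∫ y, y ^ k ∂(μ n)) - a| ≤ C * (n:ℝ) ^ (-c) := by
    intro k
    obtain ⟨c, C, hc, hC, hev⟩ := sklw_moment_dyad h k
    obtain ⟨a, C', ha⟩ := sklw_dyadic_limit (fun n => ∫ y, y ^ k ∂(μ n)) c C hc hC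
      (hev.mono (fun j hj N' h1 h2 => hj N' h1 h2 k le_rfl))
    exact ⟨a, c, C', hc, ha⟩
  choose a c C hc hrate using hk
  have ha2 : 0 < a 2 := by
    by_contra hneg
    have hneg : a 2 ≤ 0 := not_lt.mp hneg
    have hinf : Tendsto (fun n : ℕ => (n:ℝ) ^ (c 2 / 2)) atTop atTop :=
      (tendsto_rpow_atTop (by have := hc 2; positivity)).comp tendsto_natCast_atTop_atTop
    have hev := (hrate 2).and ((h.var_lo (c 2 / 2) (by have := hc 2; positivity)).and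
      ((hinf.eventually_gt_atTop (C 2)).and (eventually_gt_atTop 0)))
    obtain ⟨n, h1, h2, h3, h4⟩ := hev.exists
    have hn : (0:ℝ) < n := by exact_mod_cast h4
    have h5 : (∫ y, y ^ 2 ∂(μ n)) ≤ C 2 * (n:ℝ) ^ (-(c 2)) := by
      have := (abs_le.mp h1).2
      linarith
    have h6 : (n:ℝ) ^ (-(c 2 / 2)) ≤ C 2 * (n:ℝ) ^ (-(c 2)) := le_trans h2 h5
    have h7 : (n:ℝ) ^ (-(c 2)) = (n:ℝ) ^ (-(c 2 / 2)) * (n:ℝ) ^ (-(c 2 / 2)) := by
      rw [← Real.rpow_add hn]; congr 1; ring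
    have hp : 0 < (n:ℝ) ^ (-(c 2 / 2)) := Real.rpow_pos_of_pos hn _
    rw [h7, ← mul_assoc] at h6
    have h8 : 1 ≤ C 2 * (n:ℝ) ^ (-(c 2 / 2)) := by
      by_contra hlt
      have hlt : C 2 * (n:ℝ) ^ (-(c 2 / 2)) < 1 := not_le.mp hlt
      have := mul_lt_mul_of_pos_right hlt hp
      linarith
    rw [Real.rpow_neg hn.le] at h8
    have hq : 0 < (n:ℝ) ^ (c 2 / 2) := Real.rpow_pos_of_pos hn _
    have h9 : (n:ℝ) ^ (c 2 / 2) ≤ C 2 := by
      have := mul_le_mul_of_nonneg_right h8 hq.le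
      rw [one_mul, mul_assoc, inv_mul_cancel₀ hq.ne', mul_one] at this
      exact this
    linarith
  refine ⟨a, fun k => ⟨c k, C k, hc k, hrate k⟩, ha2, ?_⟩
  obtain ⟨t₁, C₁, K, ht₁, hK, htail⟩ := h.tail
  set V : ℝ := a 2 + |C 2| with hV
  have hV0 : 0 < V := by positivity
  refine ⟨t₁ / Real.sqrt (V + K), C₁, by positivity, ?_⟩
  filter_upwards [htail, hrate 2, eventually_ge_atTop 1] with n h1 h2 h3
  have hn : (1:ℝ) ≤ n := by exact_mod_cast h3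
  have hv0 : 0 ≤ ∫ z, z ^ 2 ∂(μ n) := integral_nonneg (fun z => by positivity)
  have hle1 : (n:ℝ) ^ (-(c 2)) ≤ 1 :=
    Real.rpow_le_one_of_one_le_of_nonpos hn (by have := hc 2; linarith)
  have hp0 : 0 ≤ (n:ℝ) ^ (-(c 2)) := Real.rpow_nonneg (by linarith) _
  have hvV : (∫ z, z ^ 2 ∂(μ n)) ≤ V := by
    have e1 := (abs_le.mp h2).2
    have e2 : C 2 * (n:ℝ) ^ (-(c 2)) ≤ |C 2| := by
      calc C 2 * (n:ℝ) ^ (-(c 2)) ≤ |C 2| * (n:ℝ) ^ (-(c 2)) :=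
            mul_le_mul_of_nonneg_right (le_abs_self _) hp0
        _ ≤ |C 2| * 1 := mul_le_mul_of_nonneg_left hle1 (abs_nonneg _)
        _ = |C 2| := mul_one _
    rw [hV]; linarith
  refine sklw_tail_mono ?_ h1.1 h1.2
  apply div_le_div_of_nonneg_left ht₁.le (Real.sqrt_pos.mpr (by linarith))
  exact Real.sqrt_le_sqrt (by linarith)

/-- **The moment theorem in the shape of `SkMom`** : the tail bound for all `n ≥ n₁` gives the uniform
exponential moment for all `n ≥ n₁`. -/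
theorem sklw_mom (h : SklwHyp μ) (n₁ : ℕ) {t₁ C₁ K : ℝ} (ht₁ : 0 < t₁) (hK : 0 < K)
    (htail : ∀ n : ℕ, n₁ ≤ n →
      Integrable (fun y : ℝ => Real.exp (t₁ / Real.sqrt ((∫ z, z ^ 2 ∂(μ n)) + K) * |y|)) (μ n) ∧
      ∫ y, Real.exp (t₁ / Real.sqrt ((∫ z, z ^ 2 ∂(μ n)) + K) * |y|) ∂(μ n) ≤ C₁) :
    ∃ a : ℕ → ℝ, 0 < a 2 ∧ (∀ k : ℕ, Tendsto (fun n => ∫ y, y ^ k ∂(μ n)) atTop (𝓝 (a k))) ∧
      ∃ t₀ C : ℝ, 0 < t₀ ∧ ∀ n : ℕ, n₁ ≤ n →
        Integrable (fun y : ℝ => Real.exp (t₀ * |y|)) (μ n) ∧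
        ∫ y, Real.exp (t₀ * |y|) ∂(μ n) ≤ C := by
  obtain ⟨a, hrate, ha2, -⟩ := sklw_main h
  have hlim : ∀ k : ℕ, Tendsto (fun n => ∫ y, y ^ k ∂(μ n)) atTop (𝓝 (a k)) := by
    intro k
    obtain ⟨c, C, hc, hev⟩ := hrate k
    rw [tendsto_iff_norm_sub_tendsto_zero]
    have h0 : Tendsto (fun n : ℕ => C * (n:ℝ) ^ (-c)) atTop (𝓝 0) := by
      have := ((tendsto_rpow_neg_atTop hc).comp tendsto_natCast_atTop_atTop).const_mul C
      rw [mul_zero] at this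
      exact this
    refine squeeze_zero' (Eventually.of_forall (fun n => norm_nonneg _)) ?_ h0
    filter_upwards [hev] with n hn
    rw [Real.norm_eq_abs]; exact hn
  refine ⟨a, ha2, hlim, ?_⟩
  obtain ⟨V, hV⟩ := (hlim 2).bddAbove_range
  have hV' : ∀ n, (∫ z, z ^ 2 ∂(μ n)) ≤ V := fun n => hV ⟨n, rfl⟩
  have hV0 : 0 ≤ V := le_trans (integral_nonneg (fun z => by positivity)) (hV' 0)
  refine ⟨t₁ / Real.sqrt (V + K), C₁, by positivity, fun n hn => ?_⟩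
  have hv0 : 0 ≤ ∫ z, z ^ 2 ∂(μ n) := integral_nonneg (fun z => by positivity)
  obtain ⟨h1, h2⟩ := htail n hn
  refine sklw_tail_mono ?_ h1 h2
  apply div_le_div_of_nonneg_left ht₁.le (Real.sqrt_pos.mpr (by linarith))
  exact Real.sqrt_le_sqrt (by linarith [hV' n])

/-- **Removal of the Gaussian completion in the dyadic comparison** : if the log-Laplace transforms of `μc n`
and `μ n` differ by `κ t² n^(-1/3)` (independent centred Gaussian of variance `2κ n^(-1/3)`), the comparison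
for `μc` gives the comparison for `μ`. -/
theorem sklw_dyad_transfer {μ μc : ℕ → Measure ℝ} (κ : ℝ)
    (hrel : ∀ (n : ℕ) (t : ℝ), Real.log (∫ y, Real.exp (t * y) ∂(μc n))
        = Real.log (∫ y, Real.exp (t * y) ∂(μ n)) + κ * t ^ 2 * (n:ℝ) ^ (-(1/3:ℝ)))
    (h : SklwDyad μc) : SklwDyad μ := by
  obtain ⟨c', ε₀, hc', hε₀, hd⟩ := h
  refine ⟨min c' 1, ε₀, lt_min hc' one_pos, hε₀, fun ε hε hε1 q hq => ?_⟩
  obtain ⟨C, hC⟩ := hd ε hε hε1 q hq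
  refine ⟨|C| + |κ| * (q:ℝ) ^ 2, ?_⟩
  filter_upwards [hC] with j hj N' h1 h2
  have hj' := hj N' h1 h2
  set x := sklwX j with hx
  have hx0 : 0 < x := sklwX_pos j
  have hx1 : x ≤ 1 := sklwX_le_one j
  set t : ℝ := (q:ℝ) * x ^ ε with ht
  rw [hrel N' t, hrel (2 ^ j) t] at hj'
  set a := Real.log (∫ y, Real.exp (t * y) ∂(μ N')) with ha
  set b := Real.log (∫ y, Real.exp (t * y) ∂(μ (2 ^ j))) with hb
  have hXpos : (0:ℝ) < (2:ℝ) ^ j := by positivity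
  have hN'pos : (0:ℝ) < N' := by
    have : 0 < 2 ^ j := by positivity
    exact_mod_cast lt_of_lt_of_le this h1
  have hcast : (((2 ^ j : ℕ)) : ℝ) = (2:ℝ) ^ j := by push_cast; rfl
  have hN'ge : (2:ℝ) ^ j ≤ (N':ℝ) := by rw [← hcast]; exact_mod_cast h1
  have hp1 : (N':ℝ) ^ (-(1/3:ℝ)) ≤ ((2:ℝ) ^ j) ^ (-(1/3:ℝ)) :=
    Real.rpow_le_rpow_of_nonpos hXpos hN'ge (by norm_num)
  have hp0 : 0 ≤ (N':ℝ) ^ (-(1/3:ℝ)) := (Real.rpow_pos_of_pos hN'pos _).le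
  have hx2 : ((2:ℝ) ^ j) ^ (-(1/3:ℝ)) = x ^ (2:ℝ) := by
    rw [hx, sklwX_rpow]; congr 1; norm_num
  have hdiff : |(N':ℝ) ^ (-(1/3:ℝ)) - ((2:ℝ) ^ j) ^ (-(1/3:ℝ))| ≤ x ^ (2:ℝ) := by
    rw [← hx2, abs_le]
    constructor <;> linarith
  have ht2 : t ^ 2 = (q:ℝ) ^ 2 * x ^ (2 * ε) := by
    rw [ht, mul_pow, ← Real.rpow_natCast (x ^ ε) 2, ← Real.rpow_mul hx0.le]
    congr 2; push_cast; ring
  have hmin : x ^ (ε + c') ≤ x ^ (ε + min c' 1) :=
    Real.rpow_le_rpow_of_exponent_ge hx0 hx1 (by linarith [min_le_left c' 1])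
  have hmin2 : x ^ (2 * ε) * x ^ (2:ℝ) ≤ x ^ (ε + min c' 1) := by
    rw [← Real.rpow_add hx0]
    exact Real.rpow_le_rpow_of_exponent_ge hx0 hx1 (by linarith [min_le_right c' 1])
  have hpw : 0 ≤ x ^ (ε + c') := (Real.rpow_pos_of_pos hx0 _).le
  rw [hcast] at hj'
  have hsplit : a - b = (a + κ * t ^ 2 * (N':ℝ) ^ (-(1/3:ℝ)) - (b + κ * t ^ 2 * ((2:ℝ) ^ j) ^ (-(1/3:ℝ))))
      - κ * t ^ 2 * ((N':ℝ) ^ (-(1/3:ℝ)) - ((2:ℝ) ^ j) ^ (-(1/3:ℝ))) := by ring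
  rw [hsplit]
  calc |(a + κ * t ^ 2 * (N':ℝ) ^ (-(1/3:ℝ)) - (b + κ * t ^ 2 * ((2:ℝ) ^ j) ^ (-(1/3:ℝ))))
        - κ * t ^ 2 * ((N':ℝ) ^ (-(1/3:ℝ)) - ((2:ℝ) ^ j) ^ (-(1/3:ℝ)))|
      ≤ |a + κ * t ^ 2 * (N':ℝ) ^ (-(1/3:ℝ)) - (b + κ * t ^ 2 * ((2:ℝ) ^ j) ^ (-(1/3:ℝ)))|
        + |κ * t ^ 2 * ((N':ℝ) ^ (-(1/3:ℝ)) - ((2:ℝ) ^ j) ^ (-(1/3:ℝ)))| := abs_sub _ _
    _ ≤ C * x ^ (ε + c') + |κ| * ((q:ℝ) ^ 2 * x ^ (2 * ε)) * x ^ (2:ℝ) := by
        refine add_le_add hj' ?_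
        rw [abs_mul, abs_mul, ht2, abs_of_nonneg (by positivity : 0 ≤ (q:ℝ) ^ 2 * x ^ (2 * ε))]
        exact mul_le_mul_of_nonneg_left hdiff (by positivity)
    _ ≤ |C| * x ^ (ε + min c' 1) + |κ| * (q:ℝ) ^ 2 * x ^ (ε + min c' 1) := by
        refine add_le_add ?_ ?_
        · calc C * x ^ (ε + c') ≤ |C| * x ^ (ε + c') := mul_le_mul_of_nonneg_right (le_abs_self _) hpw
            _ ≤ |C| * x ^ (ε + min c' 1) := mul_le_mul_of_nonneg_left hmin (abs_nonneg _)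
        · calc |κ| * ((q:ℝ) ^ 2 * x ^ (2 * ε)) * x ^ (2:ℝ) = |κ| * (q:ℝ) ^ 2 * (x ^ (2 * ε) * x ^ (2:ℝ)) := by ring
            _ ≤ |κ| * (q:ℝ) ^ 2 * x ^ (ε + min c' 1) := mul_le_mul_of_nonneg_left hmin2 (by positivity)
    _ = (|C| + |κ| * (q:ℝ) ^ 2) * x ^ (ε + min c' 1) := by ring

end Claimed.Agent.R286
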