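import Mathlib

set_option autoImplicit false
open MeasureTheory ProbabilityTheory Filter Topology BoundedContinuousFunction

namespace Claimed.Agent.R286.MM

/-- `exp (t x) ≤ exp (c |x|)` for `|t| ≤ c`. -/
lemma exp_mul_le_exp_abs {c t : ℝ} (ht : |t| ≤ c) (x : ℝ) :
    Real.exp (t * x) ≤ Real.exp (c * |x|) := by
  apply Real.exp_le_exp.2
  calc t * x ≤ |t * x| := le_abs_self _
    _ = |t| * |x| := abs_mul _ _
    _ ≤ c * |x| := by gcongr

lemma Ioo_subset_integrableExpSet {ν : Measure ℝ} {c : ℝ}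
    (h : Integrable (fun x => Real.exp (c * |x|)) ν) :
    Set.Ioo (-c) c ⊆ integrableExpSet id ν := by
  intro t ht
  have ht' : |t| ≤ c := abs_le.2 ⟨ht.1.le, ht.2.le⟩
  refine h.mono' (by fun_prop) (Eventually.of_forall fun x => ?_)
  simp only [id_eq, Real.norm_eq_abs, Real.abs_exp]
  exact exp_mul_le_exp_abs ht' x

lemma Ioo_subset_interior_integrableExpSet {ν : Measure ℝ} {c : ℝ}
    (h : Integrable (fun x => Real.exp (c * |x|)) ν) :
    Set.Ioo (-c) c ⊆ interior (integrableExpSet id ν) :=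
  interior_maximal (Ioo_subset_integrableExpSet h) isOpen_Ioo

lemma iteratedDeriv_complexMGF_zero {ν : Measure ℝ} {c : ℝ} (hc : 0 < c)
    (h : Integrable (fun x => Real.exp (c * |x|)) ν) (k : ℕ) :
    iteratedDeriv k (complexMGF id ν) 0 = ((∫ x, x ^ k ∂ν : ℝ) : ℂ) := by
  have h0 : (0 : ℂ).re ∈ interior (integrableExpSet id ν) :=
    Ioo_subset_interior_integrableExpSet h (by simp [hc])
  rw [iteratedDeriv_complexMGF h0, ← integral_complex_ofReal]
  congr 1
  ext x
  simp

/-- Determinacy: a probability measure on `ℝ` with a finite exponential moment is determined by its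
moments. -/
theorem eq_of_moments (ν ν' : Measure ℝ) [IsProbabilityMeasure ν] [IsProbabilityMeasure ν']
    {c : ℝ} (hc : 0 < c)
    (h : Integrable (fun x => Real.exp (c * |x|)) ν)
    (h' : Integrable (fun x => Real.exp (c * |x|)) ν')
    (hm : ∀ k : ℕ, ∫ x, x ^ k ∂ν = ∫ x, x ^ k ∂ν') : ν = ν' := by
  set S : Set ℂ := {z | z.re ∈ Set.Ioo (-c) c} with hS
  have hA : AnalyticOnNhd ℂ (complexMGF id ν) S :=
    analyticOnNhd_complexMGF.mono fun z hz => Ioo_subset_interior_integrableExpSet h hz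
  have hA' : AnalyticOnNhd ℂ (complexMGF id ν') S :=
    analyticOnNhd_complexMGF.mono fun z hz => Ioo_subset_interior_integrableExpSet h' hz
  have h0S : (0 : ℂ) ∈ S := by simp [hS, hc]
  have hpre : IsPreconnected S :=
    ((convex_Ioo (-c) c).linear_preimage Complex.reLm).isPreconnected
  have hsub : AnalyticAt ℂ (fun z => complexMGF id ν z - complexMGF id ν' z) 0 :=
    (hA 0 h0S).sub (hA' 0 h0S)
  have hder : ∀ k : ℕ, iteratedDeriv k (fun z => complexMGF id ν z - complexMGF id ν' z) 0 = 0 := by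
    intro k
    have e := iteratedDeriv_fun_sub (n := k) (x := (0:ℂ)) ((hA 0 h0S).contDiffAt (n := k))
      ((hA' 0 h0S).contDiffAt (n := k))
    rw [e, iteratedDeriv_complexMGF_zero hc h, iteratedDeriv_complexMGF_zero hc h', hm k, sub_self]
  have htop : analyticOrderAt (fun z => complexMGF id ν z - complexMGF id ν' z) 0 = ⊤ := by
    rw [ENat.eq_top_iff_forall_ge]
    intro n
    exact (natCast_le_analyticOrderAt_iff_iteratedDeriv_eq_zero hsub).2 fun i _ => hder i
  have hev : complexMGF id ν =ᶠ[𝓝 0] complexMGF id ν' := by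
    filter_upwards [analyticOrderAt_eq_top.1 htop] with z hz using sub_eq_zero.1 hz
  have hEq : Set.EqOn (complexMGF id ν) (complexMGF id ν') S :=
    hA.eqOn_of_preconnected_of_eventuallyEq hA' hpre h0S hev
  apply Measure.ext_of_charFun
  ext t
  rw [← complexMGF_id_mul_I, ← complexMGF_id_mul_I]
  exact hEq (by simp [hS, hc])

/-- The clamp of a continuous function to `[-M, M]`, as a bounded continuous function. -/
noncomputable def clampB (f : ℝ → ℝ) (hf : Continuous f) (M : ℝ) : ℝ →ᵇ ℝ :=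
  BoundedContinuousFunction.ofNormedAddCommGroup (fun x => max (-M) (min (f x) M))
    (by fun_prop) |M| (by
      intro x
      rw [Real.norm_eq_abs, abs_le]
      constructor
      · exact le_trans (neg_le_neg (le_abs_self M)) (le_max_left _ _)
      · exact max_le (le_trans (neg_le_abs M) le_rfl) (le_trans (min_le_right _ _) (le_abs_self M)))

@[simp] lemma clampB_apply (f : ℝ → ℝ) (hf : Continuous f) (M : ℝ) (x : ℝ) :
    clampB f hf M x = max (-M) (min (f x) M) := rfl

/-- `|f - clamp f| ≤ f ^ 2 / M`. -/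
lemma abs_sub_clamp_le {M : ℝ} (hM : 0 < M) (y : ℝ) :
    |y - max (-M) (min y M)| ≤ y ^ 2 / M := by
  rw [le_div_iff₀ hM]
  rcases le_total y M with h1 | h1
  · rcases le_total (-M) y with h2 | h2
    · rw [min_eq_left h1, max_eq_right h2]
      simp only [sub_self, abs_zero, zero_mul]
      positivity
    · rw [min_eq_left h1, max_eq_left h2, abs_of_nonpos (by linarith)]
      nlinarith
  · rw [min_eq_right h1, max_eq_right (by linarith), abs_of_nonneg (by linarith)]
    nlinarith

/-- Lower semicontinuity of the exponential moment along a weakly convergent net. -/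
theorem expMoment_of_tendsto {ι : Type*} {L : Filter ι} [L.NeBot]
    {μ : ι → ProbabilityMeasure ℝ} {ν : ProbabilityMeasure ℝ} (hμ : Tendsto μ L (𝓝 ν))
    {c C : ℝ}
    (hI : ∀ᶠ n in L, Integrable (fun x => Real.exp (c * |x|)) (μ n : Measure ℝ))
    (hE : ∀ᶠ n in L, ∫ x, Real.exp (c * |x|) ∂(μ n : Measure ℝ) ≤ C) :
    Integrable (fun x => Real.exp (c * |x|)) (ν : Measure ℝ) ∧
      ∫ x, Real.exp (c * |x|) ∂(ν : Measure ℝ) ≤ C := by
  have hcont : Continuous (fun x : ℝ => Real.exp (c * |x|)) := by fun_prop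
  have hC0 : 0 ≤ C := by
    obtain ⟨n, hn⟩ := hE.exists
    exact le_trans (integral_nonneg fun x => (Real.exp_pos _).le) hn
  -- the truncated integrals are bounded by `C`
  have hM : ∀ M : ℕ, ∫ x, clampB _ hcont M x ∂(ν : Measure ℝ) ≤ C := by
    intro M
    have ht := (ProbabilityMeasure.tendsto_iff_forall_integral_tendsto.1 hμ) (clampB _ hcont M)
    refine le_of_tendsto ht ?_
    filter_upwards [hI, hE] with n hIn hEn
    refine le_trans (integral_mono ((clampB _ hcont M).integrable _) hIn fun x => ?_) hEn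
    simp only [clampB_apply]
    exact max_le (le_trans (by simp) (Real.exp_pos _).le) (min_le_left _ _)
  have hnn : ∀ (M : ℕ) (x : ℝ), 0 ≤ clampB _ hcont M x := by
    intro M x
    simp only [clampB_apply]
    exact le_max_of_le_right (le_min (Real.exp_pos _).le (Nat.cast_nonneg M))
  have hL : ∀ M : ℕ, ∫⁻ x, ENNReal.ofReal (clampB _ hcont M x) ∂(ν : Measure ℝ)
      ≤ ENNReal.ofReal C := by
    intro M
    rw [← ofReal_integral_eq_lintegral_ofReal ((clampB _ hcont M).integrable _)
      (Eventually.of_forall (hnn M))]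
    exact ENNReal.ofReal_le_ofReal (hM M)
  have hlim : Tendsto (fun M : ℕ => ∫⁻ x, ENNReal.ofReal (clampB _ hcont M x) ∂(ν : Measure ℝ))
      atTop (𝓝 (∫⁻ x, ENNReal.ofReal (Real.exp (c * |x|)) ∂(ν : Measure ℝ))) := by
    apply lintegral_tendsto_of_tendsto_of_monotone
    · intro M
      exact ((clampB _ hcont M).continuous.measurable.ennreal_ofReal).aemeasurable
    · refine Eventually.of_forall fun x M N hMN => ENNReal.ofReal_le_ofReal ?_
      simp only [clampB_apply]
      have : (M : ℝ) ≤ N := by exact_mod_cast hMN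
      exact max_le (le_max_of_le_right (le_min (le_trans (by simp) (Real.exp_pos _).le)
        (le_trans (by simp) (Nat.cast_nonneg N))))
        (le_max_of_le_right (le_min (min_le_left _ _) (le_trans (min_le_right _ _) this)))
    · refine Eventually.of_forall fun x => ?_
      apply tendsto_const_nhds.congr'
      obtain ⟨N, hN⟩ := exists_nat_ge (Real.exp (c * |x|))
      filter_upwards [eventually_ge_atTop N] with M hMN
      have : Real.exp (c * |x|) ≤ M := le_trans hN (by exact_mod_cast hMN)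
      simp only [clampB_apply]
      rw [min_eq_left this, max_eq_right (le_trans (by simp) (Real.exp_pos _).le)]
  have hfin : ∫⁻ x, ENNReal.ofReal (Real.exp (c * |x|)) ∂(ν : Measure ℝ) ≤ ENNReal.ofReal C :=
    le_of_tendsto' hlim hL
  have hint : Integrable (fun x => Real.exp (c * |x|)) (ν : Measure ℝ) := by
    refine ⟨hcont.aestronglyMeasurable, ?_⟩
    rw [hasFiniteIntegral_iff_ofReal (Eventually.of_forall fun x => (Real.exp_pos _).le)]
    exact lt_of_le_of_lt hfin ENNReal.ofReal_lt_top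
  refine ⟨hint, ?_⟩
  rw [← ENNReal.ofReal_le_ofReal_iff hC0,
    ofReal_integral_eq_lintegral_ofReal hint (Eventually.of_forall fun x => (Real.exp_pos _).le)]
  exact hfin

/-- The truncation error, uniformly in the measure. -/
lemma abs_integral_sub_clamp_le (P : Measure ℝ) [IsProbabilityMeasure P] {c C A M : ℝ}
    (hM : 0 < M)
    (hI : Integrable (fun x => Real.exp (c * |x|)) P)
    (hE : ∫ x, Real.exp (c * |x|) ∂P ≤ C)
    {f : ℝ → ℝ} (hf : Continuous f) (hfA : ∀ x, |f x| ≤ A * Real.exp (c / 2 * |x|)) :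
    Integrable f P ∧ |∫ x, f x ∂P - ∫ x, clampB f hf M x ∂P| ≤ A ^ 2 * C / M := by
  have hsq : ∀ x, f x ^ 2 ≤ A ^ 2 * Real.exp (c * |x|) := by
    intro x
    have h1 : f x ^ 2 = |f x| ^ 2 := (sq_abs _).symm
    have h2 : Real.exp (c * |x|) = Real.exp (c / 2 * |x|) ^ 2 := by
      rw [← Real.exp_nat_mul]; congr 1; push_cast; ring
    rw [h1, h2, ← mul_pow]
    exact pow_le_pow_left₀ (abs_nonneg _) (hfA x) 2
  have hd : Integrable (fun x => f x - clampB f hf M x) P := by
    refine (hI.const_mul (A ^ 2 / M)).mono' ?_ (Eventually.of_forall fun x => ?_)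
    · exact (hf.sub (clampB f hf M).continuous).aestronglyMeasurable
    · rw [Real.norm_eq_abs, clampB_apply]
      refine le_trans (abs_sub_clamp_le hM _) ?_
      rw [div_mul_eq_mul_div]
      gcongr
      exact hsq x
  have hfi : Integrable f P := by
    have := hd.add ((clampB f hf M).integrable P)
    refine this.congr (Eventually.of_forall fun x => ?_)
    simp only [Pi.add_apply, sub_add_cancel]
  refine ⟨hfi, ?_⟩
  rw [← integral_sub hfi ((clampB f hf M).integrable P)]
  calc |∫ x, (f x - clampB f hf M x) ∂P| ≤ ∫ x, |f x - clampB f hf M x| ∂P :=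
        abs_integral_le_integral_abs
    _ ≤ ∫ x, A ^ 2 / M * Real.exp (c * |x|) ∂P := by
        refine integral_mono hd.abs (hI.const_mul _) fun x => ?_
        simp only [clampB_apply]
        refine le_trans (abs_sub_clamp_le hM _) ?_
        rw [div_mul_eq_mul_div]
        gcongr
        exact hsq x
    _ = A ^ 2 / M * ∫ x, Real.exp (c * |x|) ∂P := integral_const_mul _ _
    _ ≤ A ^ 2 / M * C := by gcongr
    _ = A ^ 2 * C / M := by ring

/-- Uniform integrability: integrals of continuous functions of growth `exp (c/2 |x|)` pass to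
the weak limit when the `exp (c |x|)` moments are bounded. -/
theorem tendsto_integral_of_expMoment {ι : Type*} {L : Filter ι} [L.NeBot]
    {μ : ι → ProbabilityMeasure ℝ} {ν : ProbabilityMeasure ℝ} (hμ : Tendsto μ L (𝓝 ν))
    {c C A : ℝ}
    (hI : ∀ᶠ n in L, Integrable (fun x => Real.exp (c * |x|)) (μ n : Measure ℝ))
    (hE : ∀ᶠ n in L, ∫ x, Real.exp (c * |x|) ∂(μ n : Measure ℝ) ≤ C)
    {f : ℝ → ℝ} (hf : Continuous f) (hfA : ∀ x, |f x| ≤ A * Real.exp (c / 2 * |x|)) :
    Tendsto (fun n => ∫ x, f x ∂(μ n : Measure ℝ)) L (𝓝 (∫ x, f x ∂(ν : Measure ℝ))) := by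
  obtain ⟨hIν, hEν⟩ := expMoment_of_tendsto hμ hI hE
  have hC0 : 0 ≤ C := le_trans (integral_nonneg fun x => (Real.exp_pos _).le) hEν
  rw [Metric.tendsto_nhds]
  intro ε hε
  set M : ℝ := 4 * (A ^ 2 * C) / ε + 1 with hMdef
  have hM : 0 < M := by positivity
  have hsmall : A ^ 2 * C / M < ε / 4 + ε / 8 := by
    rw [div_lt_iff₀ hM, hMdef]
    have : (ε / 4 + ε / 8) * (4 * (A ^ 2 * C) / ε + 1)
        = (A ^ 2 * C) + (A ^ 2 * C) / 2 + (ε / 4 + ε / 8) := by
      field_simp
      ring
    rw [this]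
    have : 0 ≤ A ^ 2 * C := by positivity
    linarith
  have ht := (ProbabilityMeasure.tendsto_iff_forall_integral_tendsto.1 hμ) (clampB f hf M)
  rw [Metric.tendsto_nhds] at ht
  filter_upwards [hI, hE, ht (ε / 4) (by positivity)] with n hIn hEn hn
  have h1 := (abs_integral_sub_clamp_le (μ n : Measure ℝ) hM hIn hEn hf hfA).2
  have h2 := (abs_integral_sub_clamp_le (ν : Measure ℝ) hM hIν hEν hf hfA).2
  rw [Real.dist_eq] at hn ⊢
  rw [abs_le] at h1 h2
  rw [abs_lt] at hn ⊢
  constructor <;> linarith [h1.1, h1.2, h2.1, h2.2, hn.1, hn.2]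

/-- Markov: exponential tail bound. -/
lemma measure_abs_gt_le (P : Measure ℝ) [IsProbabilityMeasure P] {c C : ℝ} (hc : 0 < c)
    (hI : Integrable (fun x => Real.exp (c * |x|)) P)
    (hE : ∫ x, Real.exp (c * |x|) ∂P ≤ C) (r : ℝ) :
    P {x | r < ‖x‖} ≤ ENNReal.ofReal (C * Real.exp (-(c * r))) := by
  have h1 := mul_meas_ge_le_integral_of_nonneg
    (Eventually.of_forall fun x => (Real.exp_pos (c * |x|)).le) hI (Real.exp (c * r))
  have h2 : P.real {x | Real.exp (c * r) ≤ Real.exp (c * |x|)} ≤ C * Real.exp (-(c * r)) := by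
    rw [Real.exp_neg, ← div_eq_mul_inv, le_div_iff₀ (Real.exp_pos _), mul_comm]
    exact le_trans h1 hE
  have h3 : {x : ℝ | r < ‖x‖} ⊆ {x | Real.exp (c * r) ≤ Real.exp (c * |x|)} := by
    intro x hx
    simp only [Set.mem_ofPred_eq, Real.norm_eq_abs] at hx ⊢
    exact Real.exp_le_exp.2 (by gcongr)
  calc P {x | r < ‖x‖} ≤ P {x | Real.exp (c * r) ≤ Real.exp (c * |x|)} := measure_mono h3
    _ = ENNReal.ofReal (P.real {x | Real.exp (c * r) ≤ Real.exp (c * |x|)}) :=
        (ofReal_measureReal (measure_ne_top _ _)).symm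
    _ ≤ _ := ENNReal.ofReal_le_ofReal h2

/-- A sequence of probability measures with eventually bounded exponential moments is tight. -/
theorem isTight_of_expMoment (μ : ℕ → ProbabilityMeasure ℝ) {c C : ℝ} (hc : 0 < c)
    (hI : ∀ᶠ n in atTop, Integrable (fun x => Real.exp (c * |x|)) (μ n : Measure ℝ))
    (hE : ∀ᶠ n in atTop, ∫ x, Real.exp (c * |x|) ∂(μ n : Measure ℝ) ≤ C) :
    IsTightMeasureSet (Set.range fun n => (μ n : Measure ℝ)) := by
  apply isTightMeasureSet_range_of_tendsto_limsup_measure_norm_gt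
  have hlim : Tendsto (fun r : ℝ => ENNReal.ofReal (C * Real.exp (-(c * r)))) atTop (𝓝 0) := by
    have h1 : Tendsto (fun r : ℝ => C * Real.exp (-(c * r))) atTop (𝓝 (C * 0)) := by
      apply Tendsto.const_mul
      apply Real.tendsto_exp_neg_atTop_nhds_zero.comp
      exact tendsto_id.const_mul_atTop hc
    have h2 := (ENNReal.continuous_ofReal.tendsto _).comp h1
    simpa [Function.comp_def] using h2
  refine tendsto_of_tendsto_of_tendsto_of_le_of_le tendsto_const_nhds hlim
    (fun _ => zero_le) fun r => ?_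
  refine limsup_le_of_le (by isBoundedDefault) ?_
  filter_upwards [hI, hE] with n hIn hEn
  exact measure_abs_gt_le _ hc hIn hEn r

lemma abs_pow_le_exp {c : ℝ} (hc : 0 < c) (k : ℕ) (x : ℝ) :
    |x ^ k| ≤ ((k.factorial : ℝ) / (c / 2) ^ k) * Real.exp (c / 2 * |x|) := by
  have h := Real.pow_div_factorial_le_exp (x := c / 2 * |x|) (by positivity) k
  rw [div_le_iff₀ (by positivity), mul_pow] at h
  rw [abs_pow, div_mul_eq_mul_div, le_div_iff₀ (by positivity)]
  linarith

/-- **Method of moments.**  If the moments of `μ n` converge and an exponential moment stays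
bounded, then `μ n` converges weakly to a probability measure with the limiting moments. -/
theorem main (μ : ℕ → ProbabilityMeasure ℝ) (a : ℕ → ℝ) {c C : ℝ} (hc : 0 < c)
    (hI : ∀ᶠ n in atTop, Integrable (fun x => Real.exp (c * |x|)) (μ n : Measure ℝ))
    (hE : ∀ᶠ n in atTop, ∫ x, Real.exp (c * |x|) ∂(μ n : Measure ℝ) ≤ C)
    (hM : ∀ k : ℕ, Tendsto (fun n => ∫ x, x ^ k ∂(μ n : Measure ℝ)) atTop (𝓝 (a k))) :
    ∃ ν : ProbabilityMeasure ℝ, Tendsto μ atTop (𝓝 ν) ∧
      (∀ k : ℕ, ∫ x, x ^ k ∂(ν : Measure ℝ) = a k) ∧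
      Integrable (fun x => Real.exp (c * |x|)) (ν : Measure ℝ) ∧
      ∫ x, Real.exp (c * |x|) ∂(ν : Measure ℝ) ≤ C := by
  have hK : IsCompact (closure (Set.range μ)) := by
    apply isCompact_closure_of_isTightMeasureSet
    convert isTight_of_expMoment μ hc hI hE using 1
    ext P
    simp
  have hmem : ∀ n, μ n ∈ closure (Set.range μ) := fun n => subset_closure ⟨n, rfl⟩
  -- properties of an arbitrary cluster point
  have hcl : ∀ ν : ProbabilityMeasure ℝ, MapClusterPt ν atTop μ →
      (∀ k : ℕ, ∫ x, x ^ k ∂(ν : Measure ℝ) = a k) ∧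
      Integrable (fun x => Real.exp (c * |x|)) (ν : Measure ℝ) ∧
      ∫ x, Real.exp (c * |x|) ∂(ν : Measure ℝ) ≤ C := by
    intro ν hν
    obtain ⟨U, hU, hUν⟩ := mapClusterPt_iff_ultrafilter.1 hν
    have hI' := hU hI
    have hE' := hU hE
    refine ⟨fun k => ?_, expMoment_of_tendsto hUν hI' hE'⟩
    have h1 := tendsto_integral_of_expMoment hUν hI' hE' (f := fun x => x ^ k) (by fun_prop)
      (abs_pow_le_exp hc k)
    exact tendsto_nhds_unique h1 ((hM k).mono_left hU)
  obtain ⟨ν, -, hν⟩ := hK.exists_mapClusterPt (f := atTop) (u := μ)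
    (by
      rw [le_principal_iff, mem_map]
      exact Eventually.of_forall hmem)
  refine ⟨ν, ?_, hcl ν hν⟩
  refine hK.tendsto_nhds_of_unique_mapClusterPt (Eventually.of_forall hmem) fun ν' _ hν' => ?_
  obtain ⟨m, i, -⟩ := hcl ν hν
  obtain ⟨m', i', -⟩ := hcl ν' hν'
  apply ProbabilityMeasure.toMeasure_injective
  exact eq_of_moments _ _ hc i' i fun k => by rw [m k, m' k]

end Claimed.Agent.R286.MM
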