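import Mathlib

/-!
# Row 286, top layer: the method of moments with an exponential moment

`sk_mm_main`: probability measures on the line with a uniformly bounded exponential moment whose moments all
converge do converge weakly; the limit has the exponential moment and the limiting moments.
`sk_mm_unique`: moment determinacy under an exponential moment.
-/

set_option autoImplicit false

namespace Claimed.Agent.R286

open MeasureTheory ProbabilityTheory Filter Topology BoundedContinuousFunction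

/-- `(-c, c)` lies in the interior of the set of exponential integrability -/
theorem sk_mm_strip {ν : Measure ℝ} {c : ℝ} (h : Integrable (fun x => Real.exp (c * |x|)) ν) {t : ℝ} (ht : |t| < c) :
    t ∈ interior (integrableExpSet id ν) := by
  have hsub : Set.Ioo (-c) c ⊆ integrableExpSet id ν := by
    intro u hu
    have hu' : |u| ≤ c := (abs_lt.2 hu).le
    refine h.mono' (by fun_prop) (ae_of_all _ fun x => ?_)
    rw [Real.norm_eq_abs, abs_of_pos (Real.exp_pos _)]
    refine Real.exp_le_exp.2 ?_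
    calc u * id x ≤ |u * x| := le_abs_self _
      _ = |u| * |x| := abs_mul _ _
      _ ≤ c * |x| := mul_le_mul_of_nonneg_right hu' (abs_nonneg _)
  exact interior_mono hsub (by rw [interior_Ioo]; exact abs_lt.1 ht)

/-- **moment determinacy**: two probability measures with a finite exponential moment and the same moments coincide -/
theorem sk_mm_unique {ν ν' : Measure ℝ} [IsProbabilityMeasure ν] [IsProbabilityMeasure ν'] {c : ℝ} (hc : 0 < c)
    (h : Integrable (fun x => Real.exp (c * |x|)) ν) (h' : Integrable (fun x => Real.exp (c * |x|)) ν')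
    (hm : ∀ k : ℕ, ∫ x, x ^ k ∂ν = ∫ x, x ^ k ∂ν') : ν = ν' := by
  set U : Set ℂ := {z | |z.re| < c} with hU
  have hUo : IsOpen U := isOpen_lt (continuous_abs.comp Complex.continuous_re) continuous_const
  have hUc : IsPreconnected U := by
    have : Convex ℝ U := by
      have e : U = Complex.reLm ⁻¹' (Set.Ioo (-c) c) := by
        ext z
        simp [hU, abs_lt]
      rw [e]
      exact (convex_Ioo _ _).linear_preimage _
    exact this.isPreconnected
  have h0 : (0 : ℂ) ∈ U := by simp [hU, hc]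
  have ha : AnalyticOnNhd ℂ (complexMGF id ν) U := fun z hz => analyticAt_complexMGF (sk_mm_strip h hz)
  have ha' : AnalyticOnNhd ℂ (complexMGF id ν') U := fun z hz => analyticAt_complexMGF (sk_mm_strip h' hz)
  have hd : ∀ n : ℕ, iteratedDeriv n (complexMGF id ν) 0 = iteratedDeriv n (complexMGF id ν') 0 := by
    intro n
    rw [iteratedDeriv_complexMGF (by simpa using sk_mm_strip h (t := 0) (by simpa using hc)),
      iteratedDeriv_complexMGF (by simpa using sk_mm_strip h' (t := 0) (by simpa using hc))]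
    simp only [id, zero_mul, Complex.exp_zero, mul_one]
    have e : ∀ m : Measure ℝ, ∫ x, ((x : ℂ)) ^ n ∂m = ((∫ x, x ^ n ∂m : ℝ) : ℂ) := by
      intro m
      rw [← integral_complex_ofReal]
      simp
    rw [e, e, hm]
  have hev : complexMGF id ν =ᶠ[𝓝 0] complexMGF id ν' := by
    have p1 := (ha 0 h0).hasFPowerSeriesAt
    have p2 := (ha' 0 h0).hasFPowerSeriesAt
    simp only [hd] at p1
    filter_upwards [p1.eventually_hasSum_sub, p2.eventually_hasSum_sub] with z h1 h2
    exact h1.unique h2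
  have hE := ha.eqOn_of_preconnected_of_eventuallyEq ha' hUc h0 hev
  refine Measure.ext_of_charFun ?_
  funext t
  rw [← complexMGF_id_mul_I, ← complexMGF_id_mul_I]
  exact hE (by simp [hU, hc])

/-- the truncated exponential weight -/
noncomputable def skTrE (c M : ℝ) : ℝ →ᵇ ℝ :=
  BoundedContinuousFunction.mkOfBound ⟨fun x => min (Real.exp (c * |x|)) M, by fun_prop⟩ (2 * |M|) (by
    intro x y
    have h : ∀ z : ℝ, |min (Real.exp (c * |z|)) M| ≤ |M| := by
      intro z
      rcases le_total (Real.exp (c * |z|)) M with h | h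
      · rw [min_eq_left h, abs_of_pos (Real.exp_pos _)]
        exact h.trans (le_abs_self _)
      · rw [min_eq_right h]
    rw [Real.dist_eq]
    calc |min (Real.exp (c * |x|)) M - min (Real.exp (c * |y|)) M| ≤ |min (Real.exp (c * |x|)) M| + |min (Real.exp (c * |y|)) M| := abs_sub _ _
      _ ≤ 2 * |M| := by linarith [h x, h y])

/-- the truncated power -/
noncomputable def skTrP (k : ℕ) (R : ℝ) : ℝ →ᵇ ℝ :=
  BoundedContinuousFunction.mkOfBound ⟨fun x => (max (-R) (min x R)) ^ k, by fun_prop⟩ (2 * |R| ^ k) (by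
    intro x y
    have h : ∀ z : ℝ, |(max (-R) (min z R)) ^ k| ≤ |R| ^ k := by
      intro z
      rw [abs_pow]
      refine pow_le_pow_left₀ (abs_nonneg _) ?_ k
      rw [abs_le]
      constructor
      · exact (neg_le_neg (le_abs_self R)).trans (le_max_left _ _)
      · refine max_le ?_ ((min_le_right _ _).trans (le_abs_self _))
        exact (neg_le_abs R)
    rw [Real.dist_eq]
    calc |(max (-R) (min x R)) ^ k - (max (-R) (min y R)) ^ k| ≤ |(max (-R) (min x R)) ^ k| + |(max (-R) (min y R)) ^ k| := abs_sub _ _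
      _ ≤ 2 * |R| ^ k := by linarith [h x, h y])

theorem sk_mm_trE_apply (c M x : ℝ) : skTrE c M x = min (Real.exp (c * |x|)) M := rfl
theorem sk_mm_trP_apply (k : ℕ) (R x : ℝ) : skTrP k R x = (max (-R) (min x R)) ^ k := rfl

/-- the exponential moment passes to a weak limit -/
theorem sk_mm_lim_exp {ι : Type} {l : Filter ι} [l.NeBot] (μ : ι → ProbabilityMeasure ℝ) (ν : ProbabilityMeasure ℝ) (c C : ℝ)
    (hexp : ∀ n, Integrable (fun x => Real.exp (c * |x|)) (μ n : Measure ℝ) ∧ ∫ x, Real.exp (c * |x|) ∂(μ n : Measure ℝ) ≤ C)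
    (hl : Tendsto μ l (𝓝 ν)) :
    Integrable (fun x => Real.exp (c * |x|)) (ν : Measure ℝ) ∧ ∫ x, Real.exp (c * |x|) ∂(ν : Measure ℝ) ≤ C := by
  have hw := ProbabilityMeasure.tendsto_iff_forall_integral_tendsto.1 hl
  have h1 : ∀ M : ℝ, ∫ x, skTrE c M x ∂(ν : Measure ℝ) ≤ C := by
    intro M
    refine le_of_tendsto (hw (skTrE c M)) (Eventually.of_forall fun n => ?_)
    refine le_trans (integral_mono ((skTrE c M).integrable _) (hexp n).1 fun x => ?_) (hexp n).2
    exact min_le_left _ _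
  have hC : 0 ≤ C := by
    obtain ⟨n⟩ : Nonempty ι := l.nonempty_of_neBot
    exact le_trans (integral_nonneg fun x => (Real.exp_pos _).le) (hexp n).2
  have h2 : ∫⁻ x, ENNReal.ofReal (Real.exp (c * |x|)) ∂(ν : Measure ℝ) ≤ ENNReal.ofReal C := by
    have hmono : Monotone fun (M : ℕ) (x : ℝ) => ENNReal.ofReal (skTrE c M x) := by
      intro M M' hMM x
      refine ENNReal.ofReal_le_ofReal ?_
      exact min_le_min le_rfl (by exact_mod_cast hMM)
    have hlim : ∀ x : ℝ, Tendsto (fun M : ℕ => ENNReal.ofReal (skTrE c M x)) atTop (𝓝 (ENNReal.ofReal (Real.exp (c * |x|)))) := by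
      intro x
      refine tendsto_const_nhds.congr' ?_
      obtain ⟨M0, hM0⟩ := exists_nat_ge (Real.exp (c * |x|))
      filter_upwards [eventually_ge_atTop M0] with M hM
      rw [sk_mm_trE_apply, min_eq_left]
      exact hM0.trans (by exact_mod_cast hM)
    have h3 := lintegral_tendsto_of_tendsto_of_monotone (μ := (ν : Measure ℝ)) (f := fun (M : ℕ) (x : ℝ) => ENNReal.ofReal (skTrE c M x))
      (F := fun x => ENNReal.ofReal (Real.exp (c * |x|))) (fun M => ((skTrE c M).continuous.measurable.ennreal_ofReal).aemeasurable)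
      (ae_of_all _ fun x M M' h => hmono h x) (ae_of_all _ hlim)
    refine le_of_tendsto h3 (Eventually.of_forall fun M => ?_)
    rw [← ofReal_integral_eq_lintegral_ofReal ((skTrE c M).integrable _) (ae_of_all _ fun x => ?_)]
    · exact ENNReal.ofReal_le_ofReal (h1 M)
    · exact le_min (Real.exp_pos _).le (Nat.cast_nonneg _)
  have hint : Integrable (fun x => Real.exp (c * |x|)) (ν : Measure ℝ) := by
    refine ⟨by fun_prop, ?_⟩
    rw [hasFiniteIntegral_iff_ofReal (ae_of_all _ fun x => (Real.exp_pos _).le)]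
    exact lt_of_le_of_lt h2 ENNReal.ofReal_lt_top
  refine ⟨hint, ?_⟩
  rw [integral_eq_lintegral_of_nonneg_ae (ae_of_all _ fun x => (Real.exp_pos _).le) (by fun_prop)]
  exact ENNReal.toReal_le_of_le_ofReal hC h2

/-- `|x|^k ≤ k! b^-k e^(b |x|)` -/
theorem sk_mm_pow_le (k : ℕ) {b : ℝ} (hb : 0 < b) (x : ℝ) : |x| ^ k ≤ (k.factorial : ℝ) / b ^ k * Real.exp (b * |x|) := by
  have h := Real.pow_div_factorial_le_exp (b * |x|) (mul_nonneg hb.le (abs_nonneg _)) k
  rw [div_le_iff₀ (by positivity), mul_pow] at h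
  rw [div_mul_eq_mul_div, le_div_iff₀ (by positivity)]
  linarith

/-- the error of the truncation of a power -/
noncomputable def skDel (k : ℕ) (c R : ℝ) : ℝ := 2 * ((k.factorial : ℝ) / (c / 2) ^ k) * Real.exp (-(c * R / 2))

theorem sk_mm_trunc (k : ℕ) {c R : ℝ} (hc : 0 < c) (hR : 0 ≤ R) (x : ℝ) : |x ^ k - skTrP k R x| ≤ skDel k c R * Real.exp (c * |x|) := by
  rw [sk_mm_trP_apply]
  have hpos : 0 ≤ skDel k c R * Real.exp (c * |x|) := by unfold skDel; positivity
  by_cases hx : |x| ≤ R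
  · obtain ⟨h1, h2⟩ := abs_le.1 hx
    rw [min_eq_left h2, max_eq_right h1, sub_self, abs_zero]
    exact hpos
  · push Not at hx
    have h1 : |(max (-R) (min x R)) ^ k| ≤ |x| ^ k := by
      rw [abs_pow]
      refine pow_le_pow_left₀ (abs_nonneg _) ?_ k
      rw [abs_le]
      constructor
      · exact le_trans (by linarith) (le_max_left _ _)
      · exact max_le (by linarith) ((min_le_right _ _).trans hx.le)
    have h2 : |x ^ k - (max (-R) (min x R)) ^ k| ≤ 2 * |x| ^ k := by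
      calc |x ^ k - (max (-R) (min x R)) ^ k| ≤ |x ^ k| + |(max (-R) (min x R)) ^ k| := abs_sub _ _
        _ ≤ 2 * |x| ^ k := by rw [abs_pow]; linarith
    have h3 := sk_mm_pow_le k (half_pos hc) x
    have h4 : Real.exp (c / 2 * |x|) ≤ Real.exp (-(c * R / 2)) * Real.exp (c * |x|) := by
      rw [← Real.exp_add]
      refine Real.exp_le_exp.2 ?_
      nlinarith
    have h5 : (0 : ℝ) ≤ (k.factorial : ℝ) / (c / 2) ^ k := by positivity
    calc |x ^ k - (max (-R) (min x R)) ^ k| ≤ 2 * |x| ^ k := h2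
      _ ≤ 2 * ((k.factorial : ℝ) / (c / 2) ^ k * Real.exp (c / 2 * |x|)) := by linarith
      _ ≤ 2 * ((k.factorial : ℝ) / (c / 2) ^ k * (Real.exp (-(c * R / 2)) * Real.exp (c * |x|))) := by
          have := mul_le_mul_of_nonneg_left h4 h5
          linarith
      _ = skDel k c R * Real.exp (c * |x|) := by unfold skDel; ring

/-- powers are integrable -/
theorem sk_mm_int_pow {m : Measure ℝ} {c : ℝ} (hc : 0 < c) (h : Integrable (fun x => Real.exp (c * |x|)) m) (k : ℕ) :
    Integrable (fun x => x ^ k) m := by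
  refine (h.const_mul ((k.factorial : ℝ) / c ^ k)).mono' (by fun_prop) (ae_of_all _ fun x => ?_)
  rw [Real.norm_eq_abs, abs_pow]
  exact sk_mm_pow_le k hc x

theorem sk_mm_trunc_int {m : Measure ℝ} [IsFiniteMeasure m] {c C R : ℝ} (hc : 0 < c) (hR : 0 ≤ R) (h : Integrable (fun x => Real.exp (c * |x|)) m)
    (hC : ∫ x, Real.exp (c * |x|) ∂m ≤ C) (k : ℕ) : |∫ x, x ^ k ∂m - ∫ x, skTrP k R x ∂m| ≤ skDel k c R * C := by
  rw [← integral_sub (sk_mm_int_pow hc h k) ((skTrP k R).integrable _)]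
  have hd : 0 ≤ skDel k c R := by unfold skDel; positivity
  calc |∫ x, (x ^ k - skTrP k R x) ∂m| ≤ ∫ x, |x ^ k - skTrP k R x| ∂m := abs_integral_le_integral_abs
    _ ≤ ∫ x, skDel k c R * Real.exp (c * |x|) ∂m :=
        integral_mono (((sk_mm_int_pow hc h k).sub ((skTrP k R).integrable _)).abs) (h.const_mul _) fun x => sk_mm_trunc k hc hR x
    _ = skDel k c R * ∫ x, Real.exp (c * |x|) ∂m := integral_const_mul _ _
    _ ≤ skDel k c R * C := mul_le_mul_of_nonneg_left hC hd

theorem sk_mm_del_tendsto (k : ℕ) {c : ℝ} (hc : 0 < c) : Tendsto (fun R : ℝ => skDel k c R) atTop (𝓝 0) := by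
  unfold skDel
  have h1 : Tendsto (fun R : ℝ => Real.exp (-(c * R / 2))) atTop (𝓝 0) := by
    refine Real.tendsto_exp_atBot.comp ?_
    refine tendsto_neg_atTop_atBot.comp ?_
    have : (fun R : ℝ => c * R / 2) = fun R => (c / 2) * R := by funext R; ring
    rw [this]
    exact tendsto_id.const_mul_atTop (half_pos hc)
  simpa using h1.const_mul (2 * ((k.factorial : ℝ) / (c / 2) ^ k))

/-- the moments pass to a weak limit -/
theorem sk_mm_lim_mom {ι : Type} {l : Filter ι} [l.NeBot] (μ : ι → ProbabilityMeasure ℝ) (ν : ProbabilityMeasure ℝ) (a : ℕ → ℝ) (c C : ℝ) (hc : 0 < c)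
    (hexp : ∀ n, Integrable (fun x => Real.exp (c * |x|)) (μ n : Measure ℝ) ∧ ∫ x, Real.exp (c * |x|) ∂(μ n : Measure ℝ) ≤ C)
    (hν : Integrable (fun x => Real.exp (c * |x|)) (ν : Measure ℝ) ∧ ∫ x, Real.exp (c * |x|) ∂(ν : Measure ℝ) ≤ C)
    (hmom : ∀ k : ℕ, Tendsto (fun n => ∫ x, x ^ k ∂(μ n : Measure ℝ)) l (𝓝 (a k)))
    (hl : Tendsto μ l (𝓝 ν)) (k : ℕ) : ∫ x, x ^ k ∂(ν : Measure ℝ) = a k := by
  have hw := ProbabilityMeasure.tendsto_iff_forall_integral_tendsto.1 hl
  have h1 : ∀ R : ℝ, 0 ≤ R → |a k - ∫ x, skTrP k R x ∂(ν : Measure ℝ)| ≤ skDel k c R * C := by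
    intro R hR
    have ht : Tendsto (fun n => |∫ x, x ^ k ∂(μ n : Measure ℝ) - ∫ x, skTrP k R x ∂(μ n : Measure ℝ)|) l
        (𝓝 |a k - ∫ x, skTrP k R x ∂(ν : Measure ℝ)|) := ((hmom k).sub (hw (skTrP k R))).abs
    exact le_of_tendsto ht (Eventually.of_forall fun n => sk_mm_trunc_int hc hR (hexp n).1 (hexp n).2 k)
  have h2 : ∀ R : ℝ, 0 ≤ R → |∫ x, x ^ k ∂(ν : Measure ℝ) - a k| ≤ 2 * C * skDel k c R := by
    intro R hR
    have h3 := sk_mm_trunc_int hc hR hν.1 hν.2 k
    have h4 := h1 R hR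
    calc |∫ x, x ^ k ∂(ν : Measure ℝ) - a k|
        = |(∫ x, x ^ k ∂(ν : Measure ℝ) - ∫ x, skTrP k R x ∂(ν : Measure ℝ)) - (a k - ∫ x, skTrP k R x ∂(ν : Measure ℝ))| := by congr 1; ring
      _ ≤ |∫ x, x ^ k ∂(ν : Measure ℝ) - ∫ x, skTrP k R x ∂(ν : Measure ℝ)| + |a k - ∫ x, skTrP k R x ∂(ν : Measure ℝ)| := abs_sub _ _
      _ ≤ 2 * C * skDel k c R := by linarith
  have h5 : |∫ x, x ^ k ∂(ν : Measure ℝ) - a k| ≤ 0 := by
    have ht : Tendsto (fun R : ℝ => 2 * C * skDel k c R) atTop (𝓝 0) := by simpa using (sk_mm_del_tendsto k hc).const_mul (2 * C)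
    refine ge_of_tendsto ht ?_
    filter_upwards [eventually_ge_atTop (0 : ℝ)] with R hR using h2 R hR
  exact sub_eq_zero.1 (abs_nonpos_iff.1 h5)

/-- tightness from a uniform exponential moment -/
theorem sk_mm_tight {ι : Type} (μ : ι → ProbabilityMeasure ℝ) (c C : ℝ) (hc : 0 < c)
    (hexp : ∀ n, Integrable (fun x => Real.exp (c * |x|)) (μ n : Measure ℝ) ∧ ∫ x, Real.exp (c * |x|) ∂(μ n : Measure ℝ) ≤ C) :
    IsTightMeasureSet {((m : ProbabilityMeasure ℝ) : Measure ℝ) | m ∈ Set.range μ} := by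
  rw [isTightMeasureSet_iff_exists_isCompact_measure_compl_le]
  intro ε hε
  -- choose `R` with `C e^(-cR) ≤ ε`
  obtain ⟨δ, hδ0, hδ⟩ : ∃ δ : ℝ, 0 < δ ∧ ENNReal.ofReal δ ≤ ε := by
    rcases eq_or_ne ε ⊤ with h | h
    · exact ⟨1, one_pos, by simp [h]⟩
    · exact ⟨ε.toReal, ENNReal.toReal_pos hε.ne' h, by rw [ENNReal.ofReal_toReal h]⟩
  have ht : Tendsto (fun R : ℝ => |C| * Real.exp (-(c * R))) atTop (𝓝 0) := by
    have h1 : Tendsto (fun R : ℝ => Real.exp (-(c * R))) atTop (𝓝 0) :=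
      Real.tendsto_exp_atBot.comp (tendsto_neg_atTop_atBot.comp (tendsto_id.const_mul_atTop hc))
    simpa using h1.const_mul |C|
  obtain ⟨R, hR⟩ := (ht.eventually (gt_mem_nhds hδ0)).exists
  refine ⟨Metric.closedBall 0 R, isCompact_closedBall _ _, ?_⟩
  rintro _ ⟨_, ⟨n, rfl⟩, rfl⟩
  have hsub : (Metric.closedBall (0 : ℝ) R)ᶜ ⊆ {x | Real.exp (c * R) ≤ Real.exp (c * |x|)} := by
    intro x hx
    simp only [Set.mem_compl_iff, Metric.mem_closedBall, dist_zero_right, Real.norm_eq_abs, not_le] at hx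
    exact Real.exp_le_exp.2 (mul_le_mul_of_nonneg_left hx.le hc.le)
  have hM := mul_meas_ge_le_integral_of_nonneg (μ := (μ n : Measure ℝ)) (ae_of_all _ fun x => (Real.exp_pos (c * |x|)).le) (hexp n).1 (Real.exp (c * R))
  have h2 : (μ n : Measure ℝ).real {x | Real.exp (c * R) ≤ Real.exp (c * |x|)} ≤ |C| * Real.exp (-(c * R)) := by
    rw [Real.exp_neg, ← div_eq_mul_inv, le_div_iff₀ (Real.exp_pos _), mul_comm]
    exact hM.trans ((hexp n).2.trans (le_abs_self _))
  calc (μ n : Measure ℝ) (Metric.closedBall (0 : ℝ) R)ᶜ ≤ (μ n : Measure ℝ) {x | Real.exp (c * R) ≤ Real.exp (c * |x|)} := measure_mono hsub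
    _ = ENNReal.ofReal ((μ n : Measure ℝ).real {x | Real.exp (c * R) ≤ Real.exp (c * |x|)}) := by
        rw [measureReal_def, ENNReal.ofReal_toReal (measure_ne_top _ _)]
    _ ≤ ENNReal.ofReal δ := ENNReal.ofReal_le_ofReal (h2.trans hR.le)
    _ ≤ ε := hδ

/-- **the method of moments** -/
theorem sk_mm_main (μ : ℕ → ProbabilityMeasure ℝ) (a : ℕ → ℝ) (c C : ℝ) (hc : 0 < c)
    (hexp : ∀ n, Integrable (fun x => Real.exp (c * |x|)) (μ n : Measure ℝ) ∧ ∫ x, Real.exp (c * |x|) ∂(μ n : Measure ℝ) ≤ C)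
    (hmom : ∀ k : ℕ, Tendsto (fun n => ∫ x, x ^ k ∂(μ n : Measure ℝ)) atTop (𝓝 (a k))) :
    ∃ ν : ProbabilityMeasure ℝ, Tendsto μ atTop (𝓝 ν) ∧ Integrable (fun x => Real.exp (c * |x|)) (ν : Measure ℝ) ∧
      ∀ k, ∫ x, x ^ k ∂(ν : Measure ℝ) = a k := by
  have hK : IsCompact (closure (Set.range μ)) := isCompact_closure_of_isTightMeasureSet (sk_mm_tight μ c C hc hexp)
  have hmem : ∀ n, μ n ∈ closure (Set.range μ) := fun n => subset_closure ⟨n, rfl⟩
  have key : ∀ ν : ProbabilityMeasure ℝ, MapClusterPt ν atTop μ →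
      Integrable (fun x => Real.exp (c * |x|)) (ν : Measure ℝ) ∧ ∀ k, ∫ x, x ^ k ∂(ν : Measure ℝ) = a k := by
    intro ν hν
    obtain ⟨U, hU, hUt⟩ := mapClusterPt_iff_ultrafilter.1 hν
    have h1 := sk_mm_lim_exp (l := (U : Filter ℕ)) μ ν c C hexp hUt
    exact ⟨h1.1, sk_mm_lim_mom (l := (U : Filter ℕ)) μ ν a c C hc hexp h1 (fun k => (hmom k).mono_left hU) hUt⟩
  obtain ⟨ν, -, hν⟩ := hK.exists_mapClusterPt_of_frequently (l := atTop) (f := μ) (Frequently.of_forall hmem)
  refine ⟨ν, ?_, key ν hν⟩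
  refine hK.tendsto_nhds_of_unique_mapClusterPt (Eventually.of_forall hmem) fun ν' _ hν' => ?_
  have h1 := key ν hν
  have h2 := key ν' hν'
  have h3 : (ν' : Measure ℝ) = (ν : Measure ℝ) := sk_mm_unique hc h2.1 h1.1 fun k => by rw [h2.2, h1.2]
  exact ProbabilityMeasure.toMeasure_injective h3

end Claimed.Agent.R286
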