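import Mathlib

/-!
# Row 286 (S0533), folder Top, file Red : LL Prop 4.5 (first half) for an ABSTRACT sequence of centred laws on the line      (helper49; prefix `sk_red_`)
MATHLIB ONLY, no cumulants, no complex analysis.
`sk_red_abs` : dyadic comparison of the log Laplace transforms at `q N^(-e)` with saving `N^(-(e+c))`  +  second moment `n^(+-eta)`
  +  `E exp(t0 |y| / sqrt(V_n + A)) <= C0`   ==>   all moments converge (power rate), `a 2 > 0`, uniform exponential moment.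
Pieces: `sk_red_interp` (coefficients from the values at the nodes `i h`), `sk_red_dyadic` (dyadic comparison => limit with rate),
`sk_red_taylor` (Taylor remainder of the Laplace transform), `sk_red_scale` (one scale), `sk_red_abs_diff` (power saving of the dyadic moment differences).
-/

set_option autoImplicit false

namespace Claimed.Agent.R286

open MeasureTheory Filter Topology Polynomial

/-- a polynomial of degree `≤ k` which is `≤ E` at the nodes `i h`, `i ≤ k`, has coefficients `|d j| h^j ≤ V E`, `V = V(k)` -/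
theorem sk_red_interp (k : ℕ) : ∃ V : ℝ, 0 ≤ V ∧ ∀ (d : ℕ → ℝ) (h E : ℝ), 0 < h →
    (∀ i ∈ Finset.range (k + 1), |∑ j ∈ Finset.range (k + 1), d j * ((i : ℝ) * h) ^ j| ≤ E) →
    ∀ j ∈ Finset.range (k + 1), |d j| * h ^ j ≤ V * E := by
  classical
  let s : Finset ℕ := Finset.range (k + 1)
  let v : ℕ → ℝ := fun i => (i : ℝ)
  refine ⟨∑ i ∈ s, ∑ j ∈ s, |(Lagrange.basis s v i).coeff j|, Finset.sum_nonneg fun i _ => Finset.sum_nonneg fun j _ => abs_nonneg _, ?_⟩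
  intro d h E hh hE j hj
  let Q : ℝ[X] := ∑ j ∈ s, C (d j * h ^ j) * X ^ j
  have hdeg : Q.degree < (s.card : ℕ) := by
    refine lt_of_le_of_lt (Polynomial.degree_sum_le _ _) ?_
    rw [Finset.sup_lt_iff (by simp [s])]
    intro i hi
    refine lt_of_le_of_lt (Polynomial.degree_C_mul_X_pow_le _ _) ?_
    have : i < k + 1 := Finset.mem_range.1 hi
    simp only [s, Finset.card_range]
    exact_mod_cast this
  have hinj : Set.InjOn v s := fun a _ b _ hab => by simpa [v] using hab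
  have heq := Lagrange.eq_interpolate hinj hdeg
  have heval : ∀ i, Q.eval (v i) = ∑ j ∈ s, d j * ((i : ℝ) * h) ^ j := by
    intro i
    simp only [Q, Polynomial.eval_finsetSum, Polynomial.eval_mul, Polynomial.eval_C, Polynomial.eval_pow, Polynomial.eval_X, v]
    refine Finset.sum_congr rfl fun j _ => ?_
    rw [mul_pow]
    ring
  have hcoef : Q.coeff j = d j * h ^ j := by
    simp only [Q, Polynomial.finsetSum_coeff, Polynomial.coeff_C_mul_X_pow]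
    rw [Finset.sum_eq_single j]
    · simp
    · intro b _ hb
      rw [if_neg (Ne.symm hb)]
    · intro hj'
      exact absurd hj hj'
  have hE0 : 0 ≤ E := (abs_nonneg _).trans (hE 0 (Finset.mem_range.2 (Nat.succ_pos k)))
  have h2 : Q.coeff j = ∑ i ∈ s, Q.eval (v i) * (Lagrange.basis s v i).coeff j := by
    conv_lhs => rw [heq]
    simp only [Lagrange.interpolate_apply, Polynomial.finsetSum_coeff, Polynomial.coeff_C_mul]
  calc |d j| * h ^ j = |Q.coeff j| := by rw [hcoef, abs_mul, abs_of_pos (pow_pos hh j)]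
    _ ≤ ∑ i ∈ s, |Q.eval (v i)| * |(Lagrange.basis s v i).coeff j| := by
        rw [h2]
        refine (Finset.abs_sum_le_sum_abs _ _).trans (le_of_eq ?_)
        exact Finset.sum_congr rfl fun i _ => abs_mul _ _
    _ ≤ ∑ i ∈ s, E * ∑ j ∈ s, |(Lagrange.basis s v i).coeff j| := by
        refine Finset.sum_le_sum fun i hi => ?_
        refine mul_le_mul ?_ ?_ (abs_nonneg _) hE0
        · rw [heval]
          exact hE i hi
        · exact Finset.single_le_sum (f := fun j => |(Lagrange.basis s v i).coeff j|) (fun _ _ => abs_nonneg _) hj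
    _ = (∑ i ∈ s, ∑ j ∈ s, |(Lagrange.basis s v i).coeff j|) * E := by
        rw [← Finset.mul_sum, mul_comm]

theorem sk_red_dy_step (u : ℕ → ℝ) (C θ : ℝ) (N1 : ℕ) (hθ : 0 < θ) (hC : 0 ≤ C) (hN1 : 1 ≤ N1)
    (h : ∀ N N' : ℕ, N1 ≤ N → N ≤ N' → N' ≤ 2 * N → |u N' - u N| ≤ C * (N : ℝ) ^ (-θ)) (r : ℕ) :
    ∀ N n : ℕ, N1 ≤ N → 2 ^ r * N ≤ n → n ≤ 2 ^ (r + 1) * N →
      |u n - u N| ≤ C * (N : ℝ) ^ (-θ) * (1 + ∑ j ∈ Finset.range r, ((2 : ℝ) ^ (-θ)) ^ j) := by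
  induction r with
  | zero =>
    intro N n hN h1 h2
    simp only [Finset.range_zero, Finset.sum_empty, add_zero, mul_one]
    exact h N n hN (by simpa using h1) (by simpa using h2)
  | succ r ih =>
    intro N n hN h1 h2
    have hNpos : 1 ≤ N := hN1.trans hN
    have hp : 1 ≤ 2 ^ r := Nat.one_le_two_pow
    have e1 : 2 ^ (r + 1) = 2 * 2 ^ r := by rw [pow_succ]; ring
    have e2 : 2 ^ (r + 1 + 1) = 4 * 2 ^ r := by rw [pow_succ, pow_succ]; ring
    rw [e1] at h1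
    rw [e2] at h2
    set P := 2 ^ r * N with hP
    have hPN : N ≤ P := by
      rw [hP]; exact Nat.le_mul_of_pos_left N (by omega)
    have h1' : 2 * P ≤ n := by rw [hP]; nlinarith
    have h2' : n ≤ 4 * P := by rw [hP]; nlinarith
    set n' := (n + 1) / 2 with hn'
    have a1 : P ≤ n' := by omega
    have a2 : n' ≤ 2 * P := by omega
    have a3 : n' ≤ n := by omega
    have a4 : n ≤ 2 * n' := by omega
    have b1 := ih N n' hN a1 (by rw [e1]; calc n' ≤ 2 * P := a2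
      _ = 2 * 2 ^ r * N := by rw [hP]; ring)
    have b2 := h n' n (hN.trans (hPN.trans a1)) a3 a4
    have hPpos : (0 : ℝ) < (P : ℝ) := by
      have : 0 < P := by omega
      exact_mod_cast this
    have b3 : (n' : ℝ) ^ (-θ) ≤ (P : ℝ) ^ (-θ) := by
      apply Real.rpow_le_rpow_of_nonpos hPpos (by exact_mod_cast a1) (by linarith)
    have b4 : (P : ℝ) ^ (-θ) = (N : ℝ) ^ (-θ) * ((2 : ℝ) ^ (-θ)) ^ r := by
      rw [hP]
      push_cast
      rw [Real.mul_rpow (by positivity) (by positivity), mul_comm]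
      congr 1
      rw [← Real.rpow_natCast, ← Real.rpow_natCast, ← Real.rpow_mul (by norm_num), ← Real.rpow_mul (by norm_num), mul_comm]
    rw [Finset.sum_range_succ]
    have : |u n - u N| ≤ |u n - u n'| + |u n' - u N| := by
      have := abs_add_le (u n - u n') (u n' - u N)
      simpa using this
    calc |u n - u N| ≤ |u n - u n'| + |u n' - u N| := this
      _ ≤ C * ((N : ℝ) ^ (-θ) * ((2 : ℝ) ^ (-θ)) ^ r) + C * (N : ℝ) ^ (-θ) * (1 + ∑ j ∈ Finset.range r, ((2 : ℝ) ^ (-θ)) ^ j) := by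
          refine add_le_add ?_ b1
          rw [← b4]
          exact b2.trans (mul_le_mul_of_nonneg_left b3 hC)
      _ = _ := by ring

theorem sk_red_dy_far (u : ℕ → ℝ) (C θ : ℝ) (N1 : ℕ) (hθ : 0 < θ) (hC : 0 ≤ C) (hN1 : 1 ≤ N1)
    (h : ∀ N N' : ℕ, N1 ≤ N → N ≤ N' → N' ≤ 2 * N → |u N' - u N| ≤ C * (N : ℝ) ^ (-θ)) :
    ∀ N n : ℕ, N1 ≤ N → N ≤ n →
      |u n - u N| ≤ C * (1 + (1 - (2 : ℝ) ^ (-θ))⁻¹) * (N : ℝ) ^ (-θ) := by
  intro N n hN hn
  have hNpos : 0 < N := by omega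
  set r := Nat.log 2 (n / N) with hr
  have hq : n / N ≠ 0 := by
    have : 1 ≤ n / N := (Nat.one_le_div_iff hNpos).2 hn
    omega
  have c1 : 2 ^ r ≤ n / N := Nat.pow_log_le_self 2 hq
  have c2 : n / N < 2 ^ (r + 1) := Nat.lt_pow_succ_log_self (by norm_num) _
  have d1 : 2 ^ r * N ≤ n := (Nat.le_div_iff_mul_le hNpos).1 c1
  have d2 : n < 2 ^ (r + 1) * N := (Nat.div_lt_iff_lt_mul hNpos).1 c2
  have key := sk_red_dy_step u C θ N1 hθ hC hN1 h r N n hN d1 d2.le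
  have hρ0 : (0 : ℝ) ≤ (2 : ℝ) ^ (-θ) := by positivity
  have hρ1 : (2 : ℝ) ^ (-θ) < 1 := Real.rpow_lt_one_of_one_lt_of_neg (by norm_num) (by linarith)
  have hs : ∑ j ∈ Finset.range r, ((2 : ℝ) ^ (-θ)) ^ j ≤ (1 - (2 : ℝ) ^ (-θ))⁻¹ := by
    rw [← tsum_geometric_of_lt_one hρ0 hρ1]
    exact Summable.sum_le_tsum _ (fun i _ => pow_nonneg hρ0 i) (summable_geometric_of_lt_one hρ0 hρ1)
  have hNθ : (0 : ℝ) ≤ (N : ℝ) ^ (-θ) := by positivity
  calc |u n - u N| ≤ C * (N : ℝ) ^ (-θ) * (1 + ∑ j ∈ Finset.range r, ((2 : ℝ) ^ (-θ)) ^ j) := key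
    _ ≤ C * (N : ℝ) ^ (-θ) * (1 + (1 - (2 : ℝ) ^ (-θ))⁻¹) := by
        refine mul_le_mul_of_nonneg_left (by linarith) (mul_nonneg hC hNθ)
    _ = _ := by ring

/-- a dyadic comparison with a power rate gives a limit, with the same power rate -/
theorem sk_red_dyadic (u : ℕ → ℝ) (C θ : ℝ) (N1 : ℕ) (hθ : 0 < θ) (hC : 0 ≤ C)
    (h : ∀ N N' : ℕ, N1 ≤ N → N ≤ N' → N' ≤ 2 * N → |u N' - u N| ≤ C * (N : ℝ) ^ (-θ)) :
    ∃ a C' : ℝ, 0 ≤ C' ∧ Tendsto u atTop (𝓝 a) ∧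
      ∀ N : ℕ, N1 ≤ N → 1 ≤ N → |u N - a| ≤ C' * (N : ℝ) ^ (-θ) := by
  have hρ1 : (2 : ℝ) ^ (-θ) < 1 := Real.rpow_lt_one_of_one_lt_of_neg (by norm_num) (by linarith)
  set K : ℝ := C * (1 + (1 - (2 : ℝ) ^ (-θ))⁻¹) with hK
  have hK0 : 0 ≤ K := by
    have : 0 ≤ (1 - (2 : ℝ) ^ (-θ))⁻¹ := inv_nonneg.2 (by linarith)
    positivity
  have far := sk_red_dy_far u C θ (max N1 1) hθ hC (le_max_right _ _)
    (fun N N' hN => h N N' ((le_max_left _ _).trans hN))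
  have hlim : Tendsto (fun N : ℕ => K * (N : ℝ) ^ (-θ)) atTop (𝓝 0) := by
    have := (tendsto_rpow_neg_atTop hθ).comp tendsto_natCast_atTop_atTop
    simpa using this.const_mul K
  have hcau : CauchySeq u := by
    rw [Metric.cauchySeq_iff']
    intro ε hε
    have ev := (hlim.eventually (gt_mem_nhds hε)).and (eventually_ge_atTop (max N1 1))
    obtain ⟨N, hN1, hN2⟩ := ev.exists
    refine ⟨N, fun n hn => ?_⟩
    rw [Real.dist_eq]
    exact lt_of_le_of_lt (far N n hN2 hn) hN1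
  obtain ⟨a, ha⟩ := cauchySeq_tendsto_of_complete hcau
  refine ⟨a, K, hK0, ha, fun N hN hN' => ?_⟩
  have h1 : Tendsto (fun n => |u n - u N|) atTop (𝓝 |a - u N|) := (ha.sub_const _).abs
  have h2 : |a - u N| ≤ K * (N : ℝ) ^ (-θ) := by
    refine le_of_tendsto h1 ?_
    filter_upwards [eventually_ge_atTop N] with n hn
    exact far N n (max_le hN hN') hn
  rwa [abs_sub_comm]

theorem sk_red_exp_rem (u : ℝ) (n : ℕ) :
    |Real.exp u - ∑ m ∈ Finset.range n, u ^ m / (m.factorial : ℝ)| ≤ |u| ^ n * Real.exp |u| := by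
  have h := Complex.norm_exp_sub_sum_le_norm_mul_exp (u : ℂ) n
  have e : Complex.exp (u : ℂ) - ∑ m ∈ Finset.range n, (u : ℂ) ^ m / (m.factorial : ℂ)
      = ((Real.exp u - ∑ m ∈ Finset.range n, u ^ m / (m.factorial : ℝ) : ℝ) : ℂ) := by
    push_cast
    rfl
  rw [e, Complex.norm_real, Complex.norm_real, Real.norm_eq_abs, Real.norm_eq_abs] at h
  exact h

theorem sk_red_pow_le (L : ℝ) (hL : 0 < L) (y : ℝ) (j : ℕ) :
    |y| ^ j ≤ L ^ j * (j.factorial : ℝ) * Real.exp (|y| / L) := by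
  have h := Real.pow_div_factorial_le_exp (x := |y| / L) (by positivity) j
  have hf : (0 : ℝ) < (j.factorial : ℝ) := by exact_mod_cast j.factorial_pos
  rw [div_le_iff₀ hf, div_pow, div_le_iff₀ (pow_pos hL j)] at h
  linarith

theorem sk_red_int_pow (ρ : Measure ℝ) (L : ℝ) (hL : 0 < L)
    (hint : Integrable (fun y => Real.exp (|y| / L)) ρ) (j : ℕ) :
    Integrable (fun y : ℝ => y ^ j) ρ := by
  refine Integrable.mono' (hint.const_mul (L ^ j * (j.factorial : ℝ))) (by fun_prop) ?_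
  refine Eventually.of_forall fun y => ?_
  rw [Real.norm_eq_abs, abs_pow]
  exact sk_red_pow_le L hL y j

theorem sk_red_exp_le (L : ℝ) (hL : 0 < L) (z : ℝ) (hz : |z| ≤ 1 / L) (y : ℝ) :
    Real.exp (z * y) ≤ Real.exp (|y| / L) := by
  apply Real.exp_le_exp.2
  calc z * y ≤ |z * y| := le_abs_self _
    _ = |z| * |y| := abs_mul _ _
    _ ≤ 1 / L * |y| := mul_le_mul_of_nonneg_right hz (abs_nonneg _)
    _ = |y| / L := by ring

theorem sk_red_int_exp (ρ : Measure ℝ) (L : ℝ) (hL : 0 < L)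
    (hint : Integrable (fun y => Real.exp (|y| / L)) ρ) (z : ℝ) (hz : |z| ≤ 1 / L) :
    Integrable (fun y : ℝ => Real.exp (z * y)) ρ := by
  refine Integrable.mono' hint (by fun_prop) ?_
  refine Eventually.of_forall fun y => ?_
  rw [Real.norm_eq_abs, abs_of_pos (Real.exp_pos _)]
  exact sk_red_exp_le L hL z hz y

/-- the Laplace transform lies in `[1, C0]` -/
theorem sk_red_M_le (ρ : Measure ℝ) (L C0 : ℝ) (hL : 0 < L)
    (hint : Integrable (fun y => Real.exp (|y| / L)) ρ) (hC0 : ∫ y, Real.exp (|y| / L) ∂ρ ≤ C0)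
    (z : ℝ) (hz : |z| ≤ 1 / L) : ∫ y, Real.exp (z * y) ∂ρ ≤ C0 :=
  (integral_mono (sk_red_int_exp ρ L hL hint z hz) hint (sk_red_exp_le L hL z hz)).trans hC0

theorem sk_red_one_le_M (ρ : Measure ℝ) [IsProbabilityMeasure ρ] (L : ℝ) (hL : 0 < L)
    (hint : Integrable (fun y => Real.exp (|y| / L)) ρ) (hmean : ∫ y, y ∂ρ = 0)
    (z : ℝ) (hz : |z| ≤ 1 / L) : 1 ≤ ∫ y, Real.exp (z * y) ∂ρ := by
  have hid : Integrable (fun y : ℝ => y) ρ := by simpa using sk_red_int_pow ρ L hL hint 1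
  have h1 : Integrable (fun y : ℝ => z * y + 1) ρ := (hid.const_mul z).add (integrable_const 1)
  have h2 : ∫ y, (z * y + 1) ∂ρ = 1 := by
    rw [integral_add (hid.const_mul z) (integrable_const 1), integral_const_mul, hmean]
    simp
  rw [← h2]
  exact integral_mono h1 (sk_red_int_exp ρ L hL hint z hz) fun y => Real.add_one_le_exp _

/-- Taylor expansion of the Laplace transform with an explicit remainder -/
theorem sk_red_taylor (ρ : Measure ℝ) (L C0 : ℝ) (hL : 0 < L)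
    (hint : Integrable (fun y => Real.exp (|y| / L)) ρ) (hC0 : ∫ y, Real.exp (|y| / L) ∂ρ ≤ C0)
    (k : ℕ) (z : ℝ) (hz : |z| ≤ 1 / (2 * L)) :
    |∫ y, Real.exp (z * y) ∂ρ - ∑ j ∈ Finset.range k, (∫ y, y ^ j ∂ρ) / (j.factorial : ℝ) * z ^ j|
      ≤ C0 * (k.factorial : ℝ) * (2 * |z| * L) ^ k := by
  have hz1 : |z| ≤ 1 / L := hz.trans (by
    apply one_div_le_one_div_of_le hL; linarith)
  have hI := sk_red_int_exp ρ L hL hint z hz1
  have hJ : ∀ j ∈ Finset.range k, Integrable (fun y : ℝ => (z * y) ^ j / (j.factorial : ℝ)) ρ := by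
    intro j _
    have := (sk_red_int_pow ρ L hL hint j).const_mul (z ^ j / (j.factorial : ℝ))
    refine this.congr (Eventually.of_forall fun y => ?_)
    simp only [mul_pow]
    ring
  have e1 : ∑ j ∈ Finset.range k, (∫ y, y ^ j ∂ρ) / (j.factorial : ℝ) * z ^ j
      = ∫ y, ∑ j ∈ Finset.range k, (z * y) ^ j / (j.factorial : ℝ) ∂ρ := by
    rw [integral_finsetSum _ hJ]
    refine Finset.sum_congr rfl fun j _ => ?_
    rw [← integral_div, ← integral_mul_const]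
    refine integral_congr_ae (Eventually.of_forall fun y => ?_)
    simp only [mul_pow]
    ring
  rw [e1, ← integral_sub hI (integrable_finsetSum _ hJ)]
  have hpt : ∀ y : ℝ, |Real.exp (z * y) - ∑ j ∈ Finset.range k, (z * y) ^ j / (j.factorial : ℝ)|
      ≤ (k.factorial : ℝ) * (2 * |z| * L) ^ k * Real.exp (|y| / L) := by
    intro y
    refine (sk_red_exp_rem (z * y) k).trans ?_
    have a1 : |z * y| ≤ |y| / (2 * L) := by
      rw [abs_mul]
      calc |z| * |y| ≤ 1 / (2 * L) * |y| := mul_le_mul_of_nonneg_right hz (abs_nonneg _)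
        _ = |y| / (2 * L) := by ring
    have a2 : |y| ^ k ≤ (2 * L) ^ k * (k.factorial : ℝ) * Real.exp (|y| / (2 * L)) :=
      sk_red_pow_le (2 * L) (by linarith) y k
    have a3 : Real.exp (|y| / L) = Real.exp (|y| / (2 * L)) * Real.exp (|y| / (2 * L)) := by
      rw [← Real.exp_add]
      congr 1
      field_simp
      ring
    calc |z * y| ^ k * Real.exp |z * y| ≤ |z * y| ^ k * Real.exp (|y| / (2 * L)) := by
          refine mul_le_mul_of_nonneg_left (Real.exp_le_exp.2 a1) (by positivity)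
      _ = |z| ^ k * |y| ^ k * Real.exp (|y| / (2 * L)) := by rw [abs_mul, mul_pow]
      _ ≤ |z| ^ k * ((2 * L) ^ k * (k.factorial : ℝ) * Real.exp (|y| / (2 * L))) * Real.exp (|y| / (2 * L)) := by
          refine mul_le_mul_of_nonneg_right ?_ (Real.exp_pos _).le
          exact mul_le_mul_of_nonneg_left a2 (by positivity)
      _ = (k.factorial : ℝ) * (2 * |z| * L) ^ k * Real.exp (|y| / L) := by
          rw [a3, mul_pow, mul_pow, mul_pow]
          ring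
  have hK : 0 ≤ (k.factorial : ℝ) * (2 * |z| * L) ^ k := by positivity
  calc |∫ y, (Real.exp (z * y) - ∑ j ∈ Finset.range k, (z * y) ^ j / (j.factorial : ℝ)) ∂ρ|
      ≤ ∫ y, |Real.exp (z * y) - ∑ j ∈ Finset.range k, (z * y) ^ j / (j.factorial : ℝ)| ∂ρ :=
        abs_integral_le_integral_abs
    _ ≤ ∫ y, (k.factorial : ℝ) * (2 * |z| * L) ^ k * Real.exp (|y| / L) ∂ρ := by
        refine integral_mono ?_ (hint.const_mul _) hpt
        exact (hI.sub (integrable_finsetSum _ hJ)).abs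
    _ = (k.factorial : ℝ) * (2 * |z| * L) ^ k * ∫ y, Real.exp (|y| / L) ∂ρ := integral_const_mul _ _
    _ ≤ (k.factorial : ℝ) * (2 * |z| * L) ^ k * C0 := mul_le_mul_of_nonneg_left hC0 hK
    _ = _ := by ring

/-- on `[1, C0]` differences are controlled by differences of logarithms -/
theorem sk_red_log_cmp (a b C0 : ℝ) (ha : 1 ≤ a) (hb : 1 ≤ b) (ha' : a ≤ C0) (hb' : b ≤ C0) :
    |a - b| ≤ C0 * |Real.log a - Real.log b| := by
  wlog hab : b ≤ a generalizing a b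
  · have := this b a hb ha hb' ha' (le_of_not_ge hab)
    rwa [abs_sub_comm, abs_sub_comm (Real.log a)]
  have hb0 : 0 < b := by linarith
  have ha0 : 0 < a := by linarith
  have h1 : Real.log b ≤ Real.log a := Real.log_le_log hb0 hab
  rw [abs_of_nonneg (by linarith), abs_of_nonneg (by linarith)]
  -- log a - log b = log (a/b) ≥ 1 - b/a
  have h2 : 1 - b / a ≤ Real.log a - Real.log b := by
    have := Real.one_sub_inv_le_log_of_pos (div_pos ha0 hb0)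
    rw [Real.log_div ha0.ne' hb0.ne', inv_div] at this
    exact this
  have h3 : a - b = a * (1 - b / a) := by field_simp
  have h4 : 0 ≤ 1 - b / a := by
    rw [sub_nonneg, div_le_one ha0]; exact hab
  calc a - b = a * (1 - b / a) := h3
    _ ≤ C0 * (1 - b / a) := mul_le_mul_of_nonneg_right ha' h4
    _ ≤ C0 * (Real.log a - Real.log b) := mul_le_mul_of_nonneg_left h2 (by linarith)

/-- one scale: closeness of the log Laplace transforms at the nodes `i h` gives closeness of the moments -/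
theorem sk_red_scale (k : ℕ) : ∃ V : ℝ, 0 ≤ V ∧ ∀ (ρ ρ' : Measure ℝ) [IsProbabilityMeasure ρ]
    [IsProbabilityMeasure ρ'] (L C0 h δ : ℝ), 0 < L → 0 < h → 0 ≤ δ → 2 * ((k : ℝ) * h) * L ≤ 1 →
    Integrable (fun y => Real.exp (|y| / L)) ρ → ∫ y, Real.exp (|y| / L) ∂ρ ≤ C0 →
    Integrable (fun y => Real.exp (|y| / L)) ρ' → ∫ y, Real.exp (|y| / L) ∂ρ' ≤ C0 →
    ∫ y, y ∂ρ = 0 → ∫ y, y ∂ρ' = 0 →
    (∀ i ∈ Finset.range (k + 1), 1 ≤ i →
      |Real.log (∫ y, Real.exp ((i : ℝ) * h * y) ∂ρ') - Real.log (∫ y, Real.exp ((i : ℝ) * h * y) ∂ρ)| ≤ δ) →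
    ∀ j ∈ Finset.range (k + 1), |∫ y, y ^ j ∂ρ' - ∫ y, y ^ j ∂ρ| * h ^ j
      ≤ V * (C0 * δ + 2 * (C0 * ((k + 1).factorial : ℝ) * (2 * ((k : ℝ) * h) * L) ^ (k + 1))) := by
  obtain ⟨V, hV, hI⟩ := sk_red_interp k
  refine ⟨(k.factorial : ℝ) * V, by positivity, ?_⟩
  intro ρ ρ' _ _ L C0 h δ hL hh hδ hkh i1 b1 i2 b2 m1 m2 hlog j hj
  set T : ℝ := C0 * ((k + 1).factorial : ℝ) * (2 * ((k : ℝ) * h) * L) ^ (k + 1) with hT
  have hC0 : 1 ≤ C0 := by
    have := sk_red_one_le_M ρ L hL i1 m1 0 (by simp; positivity)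
    exact this.trans (sk_red_M_le ρ L C0 hL i1 b1 0 (by simp; positivity))
  have hT0 : 0 ≤ T := by
    rw [hT]
    have : 0 ≤ 2 * ((k : ℝ) * h) * L := by positivity
    positivity
  let d : ℕ → ℝ := fun j => (∫ y, y ^ j ∂ρ' - ∫ y, y ^ j ∂ρ) / (j.factorial : ℝ)
  have hz : ∀ i ∈ Finset.range (k + 1), |(i : ℝ) * h| ≤ 1 / (2 * L) ∧ |(i : ℝ) * h| ≤ (k : ℝ) * h := by
    intro i hi
    have hik : (i : ℝ) ≤ (k : ℝ) := by
      exact_mod_cast Nat.lt_succ_iff.1 (Finset.mem_range.1 hi)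
    have a1 : |(i : ℝ) * h| ≤ (k : ℝ) * h := by
      rw [abs_of_nonneg (by positivity)]
      exact mul_le_mul_of_nonneg_right hik hh.le
    refine ⟨a1.trans ?_, a1⟩
    rw [le_div_iff₀ (by positivity)]
    linarith
  have hE : ∀ i ∈ Finset.range (k + 1),
      |∑ j ∈ Finset.range (k + 1), d j * ((i : ℝ) * h) ^ j| ≤ C0 * δ + 2 * T := by
    intro i hi
    obtain ⟨z1, z2⟩ := hz i hi
    have z3 : |(i : ℝ) * h| ≤ 1 / L := z1.trans (by
      apply one_div_le_one_div_of_le hL; linarith)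
    have t1 := sk_red_taylor ρ L C0 hL i1 b1 (k + 1) ((i : ℝ) * h) z1
    have t2 := sk_red_taylor ρ' L C0 hL i2 b2 (k + 1) ((i : ℝ) * h) z1
    have hmono : C0 * ((k + 1).factorial : ℝ) * (2 * |(i : ℝ) * h| * L) ^ (k + 1) ≤ T := by
      rw [hT]
      refine mul_le_mul_of_nonneg_left ?_ (by positivity)
      refine pow_le_pow_left₀ (by positivity) ?_ _
      refine mul_le_mul_of_nonneg_right ?_ hL.le
      linarith
    have hM : |∫ y, Real.exp ((i : ℝ) * h * y) ∂ρ' - ∫ y, Real.exp ((i : ℝ) * h * y) ∂ρ| ≤ C0 * δ := by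
      rcases Nat.eq_zero_or_pos i with h0 | h0
      · subst h0
        simp only [Nat.cast_zero, zero_mul, Real.exp_zero, integral_const, probReal_univ, smul_eq_mul, mul_one, sub_self, abs_zero]
        positivity
      · refine (sk_red_log_cmp _ _ C0 (sk_red_one_le_M ρ' L hL i2 m2 _ z3) (sk_red_one_le_M ρ L hL i1 m1 _ z3)
          (sk_red_M_le ρ' L C0 hL i2 b2 _ z3) (sk_red_M_le ρ L C0 hL i1 b1 _ z3)).trans ?_
        refine mul_le_mul_of_nonneg_left ?_ (by linarith)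
        exact hlog i hi h0
    have e : ∑ j ∈ Finset.range (k + 1), d j * ((i : ℝ) * h) ^ j
        = (∑ j ∈ Finset.range (k + 1), (∫ y, y ^ j ∂ρ') / (j.factorial : ℝ) * ((i : ℝ) * h) ^ j)
          - ∑ j ∈ Finset.range (k + 1), (∫ y, y ^ j ∂ρ) / (j.factorial : ℝ) * ((i : ℝ) * h) ^ j := by
      rw [← Finset.sum_sub_distrib]
      refine Finset.sum_congr rfl fun j _ => ?_
      simp only [d]
      ring
    rw [e]
    have t1' := t1.trans hmono
    have t2' := t2.trans hmono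
    rw [abs_le] at t1' t2' hM ⊢
    constructor <;> linarith [t1'.1, t1'.2, t2'.1, t2'.2, hM.1, hM.2]
  have key := hI d h (C0 * δ + 2 * T) hh hE j hj
  have hjk : (j.factorial : ℝ) ≤ (k.factorial : ℝ) := by
    exact_mod_cast Nat.factorial_le (Nat.lt_succ_iff.1 (Finset.mem_range.1 hj))
  have hjf : (0 : ℝ) < (j.factorial : ℝ) := by exact_mod_cast j.factorial_pos
  have hd : |∫ y, y ^ j ∂ρ' - ∫ y, y ^ j ∂ρ| = (j.factorial : ℝ) * |d j| := by
    simp only [d]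
    rw [abs_div, abs_of_pos hjf]
    field_simp
  have hE0 : 0 ≤ V * (C0 * δ + 2 * T) := by positivity
  calc |∫ y, y ^ j ∂ρ' - ∫ y, y ^ j ∂ρ| * h ^ j = (j.factorial : ℝ) * (|d j| * h ^ j) := by rw [hd]; ring
    _ ≤ (j.factorial : ℝ) * (V * (C0 * δ + 2 * T)) := mul_le_mul_of_nonneg_left key hjf.le
    _ ≤ (k.factorial : ℝ) * (V * (C0 * δ + 2 * T)) := mul_le_mul_of_nonneg_right hjk hE0
    _ = _ := by ring

/-- enlarging the scale keeps the exponential moment -/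
theorem sk_red_exp_mono (ρ : Measure ℝ) (t0 s L C0 : ℝ) (ht0 : 0 < t0) (hs : 0 < s) (hL : s / t0 ≤ L)
    (hint : Integrable (fun y => Real.exp (t0 * |y| / s)) ρ) (hC0 : ∫ y, Real.exp (t0 * |y| / s) ∂ρ ≤ C0) :
    Integrable (fun y => Real.exp (|y| / L)) ρ ∧ ∫ y, Real.exp (|y| / L) ∂ρ ≤ C0 := by
  have hL0 : 0 < L := lt_of_lt_of_le (div_pos hs ht0) hL
  have hpt : ∀ y : ℝ, Real.exp (|y| / L) ≤ Real.exp (t0 * |y| / s) := by
    intro y
    apply Real.exp_le_exp.2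
    rw [div_le_div_iff₀ hL0 hs]
    rw [div_le_iff₀ ht0] at hL
    calc |y| * s ≤ |y| * (L * t0) := mul_le_mul_of_nonneg_left hL (abs_nonneg _)
      _ = t0 * |y| * L := by ring
  have hi : Integrable (fun y => Real.exp (|y| / L)) ρ := by
    refine Integrable.mono' hint (by fun_prop) (Eventually.of_forall fun y => ?_)
    rw [Real.norm_eq_abs, abs_of_pos (Real.exp_pos _)]
    exact hpt y
  exact ⟨hi, (integral_mono hi hint hpt).trans hC0⟩

/-- the moments through order `k` have dyadic differences with a power saving -/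
theorem sk_red_abs_diff (ρ : ℕ → Measure ℝ) [∀ n, IsProbabilityMeasure (ρ n)]
    (hmean : ∀ n, ∫ y, y ∂ρ n = 0)
    (h1 : ∃ c e0 : ℝ, 0 < c ∧ 0 < e0 ∧ ∀ e : ℝ, 0 < e → e ≤ e0 → ∀ q : ℝ, 0 < q →
      ∃ (C : ℝ) (N0 : ℕ), ∀ N N' : ℕ, N0 ≤ N → N ≤ N' → N' ≤ 2 * N →
        |Real.log (∫ y, Real.exp (q * (N : ℝ) ^ (-e) * y) ∂ρ N')
          - Real.log (∫ y, Real.exp (q * (N : ℝ) ^ (-e) * y) ∂ρ N)| ≤ C * (N : ℝ) ^ (-(e + c)))
    (h2 : ∀ η : ℝ, 0 < η → ∃ n0 : ℕ, ∀ n : ℕ, n0 ≤ n → ∫ y, y ^ 2 ∂ρ n ≤ (n : ℝ) ^ η)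
    (h3 : ∃ t0 C0 A : ℝ, 0 < t0 ∧ 0 < A ∧ ∀ n : ℕ,
      Integrable (fun y => Real.exp (t0 * |y| / Real.sqrt (∫ y, y ^ 2 ∂ρ n + A))) (ρ n) ∧
      ∫ y, Real.exp (t0 * |y| / Real.sqrt (∫ y, y ^ 2 ∂ρ n + A)) ∂ρ n ≤ C0)
    (k : ℕ) :
    ∃ (C θ : ℝ) (N1 : ℕ), 0 < θ ∧ 0 ≤ C ∧ ∀ N N' : ℕ, N1 ≤ N → N ≤ N' → N' ≤ 2 * N →
      ∀ j ∈ Finset.range (k + 1), |∫ y, y ^ j ∂ρ N' - ∫ y, y ^ j ∂ρ N| ≤ C * (N : ℝ) ^ (-θ) := by
  obtain ⟨c, e0, hc, he0, h1⟩ := h1
  obtain ⟨t0, C0, A, ht0, hA, h3⟩ := h3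
  obtain ⟨V, hV, hS⟩ := sk_red_scale k
  have hk1 : (0 : ℝ) < (k : ℝ) + 1 := by positivity
  set e : ℝ := min e0 (c / (2 * ((k : ℝ) + 1))) with he
  have he_pos : 0 < e := lt_min he0 (by positivity)
  have he_le : e ≤ e0 := min_le_left _ _
  have he_c : e * ((k : ℝ) + 1) ≤ c / 2 := by
    have : e ≤ c / (2 * ((k : ℝ) + 1)) := min_le_right _ _
    calc e * ((k : ℝ) + 1) ≤ c / (2 * ((k : ℝ) + 1)) * ((k : ℝ) + 1) := mul_le_mul_of_nonneg_right this hk1.le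
      _ = c / 2 := by field_simp
  set η : ℝ := e / ((k : ℝ) + 1) with hη
  have hη_pos : 0 < η := div_pos he_pos hk1
  have hη_k : η * ((k : ℝ) + 1) = e := by rw [hη]; field_simp
  have hη_e : η ≤ e := by
    rw [hη]; exact div_le_self he_pos.le (by linarith [(Nat.cast_nonneg k : (0 : ℝ) ≤ k)])
  obtain ⟨n0, hn0⟩ := h2 η hη_pos
  set θ : ℝ := min (c / 2) (e / 2) with hθ
  have hθ_pos : 0 < θ := lt_min (by positivity) (by positivity)
  -- the finitely many test coefficients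
  have hch : ∀ i : ℕ, ∃ (C : ℝ) (N0 : ℕ), 1 ≤ i → ∀ N N' : ℕ, N0 ≤ N → N ≤ N' → N' ≤ 2 * N →
        |Real.log (∫ y, Real.exp ((i : ℝ) * (N : ℝ) ^ (-e) * y) ∂ρ N')
          - Real.log (∫ y, Real.exp ((i : ℝ) * (N : ℝ) ^ (-e) * y) ∂ρ N)| ≤ C * (N : ℝ) ^ (-(e + c)) := by
    intro i
    rcases Nat.eq_zero_or_pos i with h0 | h0
    · exact ⟨0, 0, fun h => by omega⟩
    · obtain ⟨C, N0, h⟩ := h1 e he_pos he_le (i : ℝ) (by exact_mod_cast h0)
      exact ⟨C, N0, fun _ => h⟩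
  choose Cf Nf hf using hch
  set Cm : ℝ := ∑ i ∈ Finset.range (k + 1), |Cf i| with hCm
  set Nm : ℕ := ∑ i ∈ Finset.range (k + 1), Nf i with hNm
  have hCm0 : 0 ≤ Cm := Finset.sum_nonneg fun _ _ => abs_nonneg _
  set B : ℝ := Real.sqrt ((2 : ℝ) ^ η + A) / t0 with hB
  have hB0 : 0 < B := div_pos (Real.sqrt_pos.2 (by positivity)) ht0
  -- the threshold for the radius
  have hsm : ∀ᶠ N : ℕ in atTop, 2 * (k : ℝ) * B * (N : ℝ) ^ (-(e - η / 2)) ≤ 1 := by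
    have hpos : 0 < e - η / 2 := by linarith
    have := ((tendsto_rpow_neg_atTop hpos).comp tendsto_natCast_atTop_atTop).const_mul (2 * (k : ℝ) * B)
    rw [mul_zero] at this
    exact (this.eventually (gt_mem_nhds one_pos)).mono fun N hN => le_of_lt hN
  obtain ⟨N2, hN2⟩ := eventually_atTop.1 hsm
  set K : ℝ := V * (C0 * Cm + 2 * (C0 * ((k + 1).factorial : ℝ) * (2 * (k : ℝ) * B) ^ (k + 1))) with hK
  have hC0 : 1 ≤ C0 := by
    have hs : 0 < Real.sqrt (∫ y, y ^ 2 ∂ρ 0 + A) := Real.sqrt_pos.2 (by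
      have : 0 ≤ ∫ y, y ^ 2 ∂ρ 0 := integral_nonneg fun y => by positivity
      linarith)
    obtain ⟨i1, b1⟩ := sk_red_exp_mono (ρ 0) t0 _ _ C0 ht0 hs le_rfl (h3 0).1 (h3 0).2
    have hL := div_pos hs ht0
    have := sk_red_one_le_M (ρ 0) _ hL i1 (hmean 0) 0 (by simp; positivity)
    exact this.trans (sk_red_M_le (ρ 0) _ C0 hL i1 b1 0 (by simp; positivity))
  have hK0 : 0 ≤ K := by positivity
  refine ⟨K, θ, max (max n0 Nm) (max N2 1), hθ_pos, hK0, ?_⟩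
  intro N N' hN hNN' hN'2 j hj
  have hNn0 : n0 ≤ N := (le_max_left _ _).trans ((le_max_left _ _).trans hN)
  have hNNm : Nm ≤ N := (le_max_right _ _).trans ((le_max_left _ _).trans hN)
  have hNN2 : N2 ≤ N := (le_max_left _ _).trans ((le_max_right _ _).trans hN)
  have hN1 : 1 ≤ N := (le_max_right _ _).trans ((le_max_right _ _).trans hN)
  set X : ℝ := (N : ℝ) with hX
  have hX1 : 1 ≤ X := by rw [hX]; exact_mod_cast hN1
  have hX0 : 0 < X := by linarith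
  set L : ℝ := B * X ^ (η / 2) with hL
  have hL0 : 0 < L := by positivity
  set h : ℝ := X ^ (-e) with hh
  have hh0 : 0 < h := by positivity
  have hh1 : h ≤ 1 := Real.rpow_le_one_of_one_le_of_nonpos hX1 (by linarith)
  -- the scale dominates both standard deviations
  have hscale : ∀ n : ℕ, N ≤ n → n ≤ 2 * N →
      Integrable (fun y => Real.exp (|y| / L)) (ρ n) ∧ ∫ y, Real.exp (|y| / L) ∂ρ n ≤ C0 := by
    intro n hn1 hn2
    have hv0 : 0 ≤ ∫ y, y ^ 2 ∂ρ n := integral_nonneg fun y => by positivity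
    have hs : 0 < Real.sqrt (∫ y, y ^ 2 ∂ρ n + A) := Real.sqrt_pos.2 (by linarith)
    refine sk_red_exp_mono (ρ n) t0 _ L C0 ht0 hs ?_ (h3 n).1 (h3 n).2
    have hv : ∫ y, y ^ 2 ∂ρ n ≤ (2 : ℝ) ^ η * X ^ η := by
      refine (hn0 n (hNn0.trans hn1)).trans ?_
      rw [← Real.mul_rpow (by norm_num) hX0.le]
      refine Real.rpow_le_rpow (by positivity) ?_ hη_pos.le
      rw [hX]
      exact_mod_cast hn2
    have hXη : 1 ≤ X ^ η := Real.one_le_rpow hX1 hη_pos.le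
    have hv2 : ∫ y, y ^ 2 ∂ρ n + A ≤ ((2 : ℝ) ^ η + A) * X ^ η := by nlinarith
    have hsq : Real.sqrt (X ^ η) = X ^ (η / 2) := by
      rw [Real.sqrt_eq_rpow, ← Real.rpow_mul hX0.le]
      congr 1
      ring
    calc Real.sqrt (∫ y, y ^ 2 ∂ρ n + A) / t0 ≤ Real.sqrt (((2 : ℝ) ^ η + A) * X ^ η) / t0 :=
          div_le_div_of_nonneg_right (Real.sqrt_le_sqrt hv2) ht0.le
      _ = L := by
          rw [Real.sqrt_mul (by positivity), hsq, hL, hB]
          ring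
  obtain ⟨i1, b1⟩ := hscale N le_rfl (by omega)
  obtain ⟨i2, b2⟩ := hscale N' hNN' hN'2
  have hkhL : 2 * ((k : ℝ) * h) * L = 2 * (k : ℝ) * B * X ^ (-(e - η / 2)) := by
    rw [hh, hL]
    have : X ^ (-(e - η / 2)) = X ^ (-e) * X ^ (η / 2) := by
      rw [← Real.rpow_add hX0]
      congr 1
      ring
    rw [this]
    ring
  have hrad : 2 * ((k : ℝ) * h) * L ≤ 1 := by
    rw [hkhL]
    exact hN2 N hNN2
  set δ : ℝ := Cm * X ^ (-(e + c)) with hδ
  have hδ0 : 0 ≤ δ := by positivity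
  have hlog : ∀ i ∈ Finset.range (k + 1), 1 ≤ i →
      |Real.log (∫ y, Real.exp ((i : ℝ) * h * y) ∂ρ N') - Real.log (∫ y, Real.exp ((i : ℝ) * h * y) ∂ρ N)| ≤ δ := by
    intro i hi h1i
    have hNf : Nf i ≤ N := (Finset.single_le_sum (f := Nf) (fun _ _ => Nat.zero_le _) hi).trans hNNm
    refine (hf i h1i N N' hNf hNN' hN'2).trans ?_
    refine mul_le_mul_of_nonneg_right ?_ (by positivity)
    exact (le_abs_self _).trans (Finset.single_le_sum (f := fun i => |Cf i|) (fun _ _ => abs_nonneg _) hi)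
  have key := hS (ρ N) (ρ N') L C0 h δ hL0 hh0 hδ0 hrad i1 b1 i2 b2 (hmean N) (hmean N') hlog j hj
  have hjk : j ≤ k := Nat.lt_succ_iff.1 (Finset.mem_range.1 hj)
  have hpow : h ^ k ≤ h ^ j := pow_le_pow_of_le_one hh0.le hh1 hjk
  have hhk : h ^ k = X ^ (-(e * (k : ℝ))) := by
    rw [hh, ← Real.rpow_natCast, ← Real.rpow_mul hX0.le]
    congr 1
    ring
  have hD0 : 0 ≤ |∫ y, y ^ j ∂ρ N' - ∫ y, y ^ j ∂ρ N| := abs_nonneg _
  have key2 : |∫ y, y ^ j ∂ρ N' - ∫ y, y ^ j ∂ρ N| * X ^ (-(e * (k : ℝ)))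
      ≤ V * (C0 * δ + 2 * (C0 * ((k + 1).factorial : ℝ) * (2 * ((k : ℝ) * h) * L) ^ (k + 1))) := by
    rw [← hhk]
    exact (mul_le_mul_of_nonneg_left hpow hD0).trans key
  -- the two exponents
  have x1 : X ^ (-(e + c)) ≤ X ^ (-θ) * X ^ (-(e * (k : ℝ))) := by
    rw [← Real.rpow_add hX0]
    refine Real.rpow_le_rpow_of_exponent_le hX1 ?_
    have : θ ≤ c / 2 := min_le_left _ _
    have hek : e * (k : ℝ) + e ≤ c / 2 := by
      have := he_c
      rw [mul_add, mul_one] at this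
      exact this
    linarith
  have x2 : (2 * ((k : ℝ) * h) * L) ^ (k + 1) ≤ (2 * (k : ℝ) * B) ^ (k + 1) * (X ^ (-θ) * X ^ (-(e * (k : ℝ)))) := by
    rw [hkhL, mul_pow]
    refine mul_le_mul_of_nonneg_left ?_ (by positivity)
    rw [← Real.rpow_natCast, ← Real.rpow_mul hX0.le, ← Real.rpow_add hX0]
    refine Real.rpow_le_rpow_of_exponent_le hX1 ?_
    have : θ ≤ e / 2 := min_le_right _ _
    push_cast
    have h5 : -(e - η / 2) * ((k : ℝ) + 1) = -(e * (k : ℝ)) - e / 2 := by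
      linear_combination (1 / 2 : ℝ) * hη_k
    rw [h5]
    linarith
  have hY : 0 < X ^ (-(e * (k : ℝ))) := by positivity
  have key3 : |∫ y, y ^ j ∂ρ N' - ∫ y, y ^ j ∂ρ N| * X ^ (-(e * (k : ℝ)))
      ≤ (K * X ^ (-θ)) * X ^ (-(e * (k : ℝ))) := by
    refine key2.trans ?_
    have y1 : C0 * δ ≤ C0 * (Cm * (X ^ (-θ) * X ^ (-(e * (k : ℝ))))) := by
      rw [hδ]
      exact mul_le_mul_of_nonneg_left (mul_le_mul_of_nonneg_left x1 hCm0) (by linarith)
    have y2 : C0 * ((k + 1).factorial : ℝ) * (2 * ((k : ℝ) * h) * L) ^ (k + 1)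
        ≤ C0 * ((k + 1).factorial : ℝ) * ((2 * (k : ℝ) * B) ^ (k + 1) * (X ^ (-θ) * X ^ (-(e * (k : ℝ))))) :=
      mul_le_mul_of_nonneg_left x2 (by positivity)
    calc V * (C0 * δ + 2 * (C0 * ((k + 1).factorial : ℝ) * (2 * ((k : ℝ) * h) * L) ^ (k + 1)))
        ≤ V * (C0 * (Cm * (X ^ (-θ) * X ^ (-(e * (k : ℝ))))) + 2 * (C0 * ((k + 1).factorial : ℝ) * ((2 * (k : ℝ) * B) ^ (k + 1) * (X ^ (-θ) * X ^ (-(e * (k : ℝ))))))) := by
          refine mul_le_mul_of_nonneg_left ?_ hV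
          linarith
      _ = (K * X ^ (-θ)) * X ^ (-(e * (k : ℝ))) := by rw [hK]; ring
  exact le_of_mul_le_mul_right key3 hY

/-- LL Prop 4.5 (first half), for an abstract sequence of centred laws on the line -/
theorem sk_red_abs (ρ : ℕ → Measure ℝ) [∀ n, IsProbabilityMeasure (ρ n)]
    (hmean : ∀ n, ∫ y, y ∂ρ n = 0)
    (h1 : ∃ c e0 : ℝ, 0 < c ∧ 0 < e0 ∧ ∀ e : ℝ, 0 < e → e ≤ e0 → ∀ q : ℝ, 0 < q →
      ∃ (C : ℝ) (N0 : ℕ), ∀ N N' : ℕ, N0 ≤ N → N ≤ N' → N' ≤ 2 * N →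
        |Real.log (∫ y, Real.exp (q * (N : ℝ) ^ (-e) * y) ∂ρ N')
          - Real.log (∫ y, Real.exp (q * (N : ℝ) ^ (-e) * y) ∂ρ N)| ≤ C * (N : ℝ) ^ (-(e + c)))
    (h2 : ∀ η : ℝ, 0 < η → ∃ n0 : ℕ, ∀ n : ℕ, n0 ≤ n →
      (n : ℝ) ^ (-η) ≤ ∫ y, y ^ 2 ∂ρ n ∧ ∫ y, y ^ 2 ∂ρ n ≤ (n : ℝ) ^ η)
    (h3 : ∃ t0 C0 A : ℝ, 0 < t0 ∧ 0 < A ∧ ∀ n : ℕ,
      Integrable (fun y => Real.exp (t0 * |y| / Real.sqrt (∫ y, y ^ 2 ∂ρ n + A))) (ρ n) ∧
      ∫ y, Real.exp (t0 * |y| / Real.sqrt (∫ y, y ^ 2 ∂ρ n + A)) ∂ρ n ≤ C0) :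
    ∃ a : ℕ → ℝ, 0 < a 2 ∧ (∀ k : ℕ, Tendsto (fun n => ∫ y, y ^ k ∂ρ n) atTop (𝓝 (a k))) ∧
      (∀ k : ℕ, ∃ (C θ : ℝ), 0 < θ ∧ ∀ n : ℕ, 1 ≤ n → |∫ y, y ^ k ∂ρ n - a k| ≤ C * (n : ℝ) ^ (-θ)) ∧
      ∃ t1 C1 : ℝ, 0 < t1 ∧ ∀ n : ℕ, Integrable (fun y => Real.exp (t1 * |y|)) (ρ n) ∧
        ∫ y, Real.exp (t1 * |y|) ∂ρ n ≤ C1 := by
  have h2' : ∀ η : ℝ, 0 < η → ∃ n0 : ℕ, ∀ n : ℕ, n0 ≤ n → ∫ y, y ^ 2 ∂ρ n ≤ (n : ℝ) ^ η := by
    intro η hη
    obtain ⟨n0, h⟩ := h2 η hη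
    exact ⟨n0, fun n hn => (h n hn).2⟩
  have hk : ∀ k : ℕ, ∃ (a C θ : ℝ) (N1 : ℕ), 0 < θ ∧ 0 ≤ C ∧
      Tendsto (fun n => ∫ y, y ^ k ∂ρ n) atTop (𝓝 a) ∧
      ∀ N : ℕ, N1 ≤ N → 1 ≤ N → |∫ y, y ^ k ∂ρ N - a| ≤ C * (N : ℝ) ^ (-θ) := by
    intro k
    obtain ⟨C, θ, N1, hθ, hC, h⟩ := sk_red_abs_diff ρ hmean h1 h2' h3 k
    obtain ⟨a, C', hC', ha, hr⟩ := sk_red_dyadic (fun n => ∫ y, y ^ k ∂ρ n) C θ N1 hθ hC
      (fun N N' x y z => h N N' x y z k (Finset.mem_range.2 (Nat.lt_succ_self k)))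
    exact ⟨a, C', θ, N1, hθ, hC', ha, hr⟩
  choose a C θ N1 hθ hC ha hr using hk
  have hV0 : ∀ n, 0 ≤ ∫ y, y ^ 2 ∂ρ n := fun n => integral_nonneg fun y => by positivity
  have ha2 : 0 ≤ a 2 := ge_of_tendsto' (ha 2) hV0
  have ha2' : 0 < a 2 := by
    rcases ha2.lt_or_eq with h | h
    · exact h
    exfalso
    obtain ⟨n0, hn0⟩ := h2 (θ 2 / 2) (by have := hθ 2; positivity)
    have hinf : Tendsto (fun N : ℕ => (N : ℝ) ^ (θ 2 / 2)) atTop atTop :=
      (tendsto_rpow_atTop (by have := hθ 2; positivity)).comp tendsto_natCast_atTop_atTop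
    have ev := (hinf.eventually (eventually_gt_atTop (C 2))).and
      (eventually_ge_atTop (max (max n0 (N1 2)) 1))
    obtain ⟨N, hN1, hN2⟩ := ev.exists
    have b1 : n0 ≤ N := (le_max_left _ _).trans ((le_max_left _ _).trans hN2)
    have b2 : N1 2 ≤ N := (le_max_right _ _).trans ((le_max_left _ _).trans hN2)
    have b3 : 1 ≤ N := (le_max_right _ _).trans hN2
    have hX0 : (0 : ℝ) < (N : ℝ) := by exact_mod_cast b3
    have c1 := (hn0 N b1).1
    have c2 := hr 2 N b2 b3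
    rw [← h, sub_zero, abs_of_nonneg (hV0 N)] at c2
    have c3 : (N : ℝ) ^ (-(θ 2 / 2)) ≤ C 2 * (N : ℝ) ^ (-θ 2) := c1.trans c2
    have c4 : (N : ℝ) ^ (-(θ 2 / 2)) = (N : ℝ) ^ (θ 2 / 2) * (N : ℝ) ^ (-θ 2) := by
      rw [← Real.rpow_add hX0]
      congr 1
      ring
    rw [c4] at c3
    have c5 := le_of_mul_le_mul_right c3 (by positivity)
    linarith
  refine ⟨a, ha2', ha, ?_, ?_⟩
  · -- the rate, for all `n ≥ 1`
    intro k
    -- enlarge the constant on the finitely many small sizes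
    set D : ℝ := ∑ n ∈ Finset.range (N1 k), |∫ y, y ^ k ∂ρ n - a k| * (n : ℝ) ^ (θ k) with hD
    refine ⟨C k + D, θ k, hθ k, fun n hn => ?_⟩
    have hX0 : (0 : ℝ) < (n : ℝ) := by exact_mod_cast hn
    have hD0 : 0 ≤ D := Finset.sum_nonneg fun _ _ => by positivity
    have hp : 0 < (n : ℝ) ^ (-θ k) := by positivity
    rcases le_or_gt (N1 k) n with h | h
    · refine (hr k n h hn).trans ?_
      exact mul_le_mul_of_nonneg_right (by linarith) hp.le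
    · have h5 : |∫ y, y ^ k ∂ρ n - a k| * (n : ℝ) ^ (θ k) ≤ D :=
        Finset.single_le_sum (f := fun n : ℕ => |∫ y, y ^ k ∂ρ n - a k| * (n : ℝ) ^ (θ k))
          (fun _ _ => by positivity) (Finset.mem_range.2 h)
      have h6 : (n : ℝ) ^ (θ k) * (n : ℝ) ^ (-θ k) = 1 := by
        rw [← Real.rpow_add hX0]; simp
      calc |∫ y, y ^ k ∂ρ n - a k| = |∫ y, y ^ k ∂ρ n - a k| * (n : ℝ) ^ (θ k) * (n : ℝ) ^ (-θ k) := by
            rw [mul_assoc, h6, mul_one]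
        _ ≤ D * (n : ℝ) ^ (-θ k) := mul_le_mul_of_nonneg_right h5 hp.le
        _ ≤ (C k + D) * (n : ℝ) ^ (-θ k) := mul_le_mul_of_nonneg_right (by linarith [hC k]) hp.le
  · obtain ⟨t0, C0, A, ht0, hA, h3⟩ := h3
    obtain ⟨B, hB⟩ := (ha 2).bddAbove_range
    have hB' : ∀ n, ∫ y, y ^ 2 ∂ρ n ≤ B := fun n => hB ⟨n, rfl⟩
    have hB0 : 0 ≤ B := (hV0 0).trans (hB' 0)
    set S : ℝ := Real.sqrt (B + A) with hS
    have hS0 : 0 < S := Real.sqrt_pos.2 (by linarith)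
    refine ⟨t0 / S, C0, div_pos ht0 hS0, fun n => ?_⟩
    have hs : 0 < Real.sqrt (∫ y, y ^ 2 ∂ρ n + A) := Real.sqrt_pos.2 (by linarith [hV0 n])
    have hle : Real.sqrt (∫ y, y ^ 2 ∂ρ n + A) / t0 ≤ S / t0 :=
      div_le_div_of_nonneg_right (Real.sqrt_le_sqrt (by linarith [hB' n])) ht0.le
    have := sk_red_exp_mono (ρ n) t0 _ (S / t0) C0 ht0 hs hle (h3 n).1 (h3 n).2
    have e : (fun y : ℝ => Real.exp (|y| / (S / t0))) = fun y : ℝ => Real.exp (t0 / S * |y|) := by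
      funext y
      congr 1
      field_simp
    rwa [e] at this


end Claimed.Agent.R286
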