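import Claimed.Agent.R286.Top.Boot
import Claimed.Agent.R286.Top.Disc

/-!
# Row 286 (S0533), unit TOP, file SEG: FINITE SUMS OF ABSOLUTELY CONTINUOUS FUNCTIONS      (helper220; prefix `sk_sg_`)      Mathlib only, sorry free

* `sk_sg_ac_sum`    finite sums of absolutely continuous functions
* `sk_sg_ae_all`    a.e. differentiability of finitely many absolutely continuous functions at once
-/

set_option autoImplicit false

namespace Claimed.Agent.R286

open MeasureTheory Set

theorem sk_sg_ac_sum {ι : Type} (S : Finset ι) {f : ι → ℝ → ℝ} {a b : ℝ} (h : ∀ i ∈ S, AbsolutelyContinuousOnInterval (f i) a b) :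
    AbsolutelyContinuousOnInterval (fun t => ∑ i ∈ S, f i t) a b := by
  classical
  induction S using Finset.induction_on with
  | empty =>
    simp only [Finset.sum_empty]
    exact (contDiffOn_const (c := (0 : ℝ))).absolutelyContinuousOnInterval
  | insert i S hi ih =>
    have h1 := (h i (Finset.mem_insert_self i S)).fun_add (ih fun j hj => h j (Finset.mem_insert_of_mem hj))
    have e : (fun t => ∑ j ∈ insert i S, f j t) = fun t => f i t + ∑ j ∈ S, f j t := by
      funext t
      rw [Finset.sum_insert hi]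
    rw [e]
    exact h1

theorem sk_sg_ae_all {ι : Type} (S : Finset ι) {f : ι → ℝ → ℝ} {a b : ℝ} (hab : a ≤ b) (h : ∀ i ∈ S, AbsolutelyContinuousOnInterval (f i) a b) :
    ∀ᵐ t, t ∈ Icc a b → ∀ i ∈ S, DifferentiableAt ℝ (f i) t := by
  have h1 : ∀ i ∈ S, ∀ᵐ t, t ∈ Icc a b → DifferentiableAt ℝ (f i) t := by
    intro i hi
    have := (h i hi).ae_differentiableAt
    rwa [uIcc_of_le hab] at this
  have h2 : ∀ᵐ t, ∀ i ∈ S, t ∈ Icc a b → DifferentiableAt ℝ (f i) t := (Finset.eventually_all S).2 h1
  filter_upwards [h2] with t ht htI i hi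
  exact ht i hi htI

end Claimed.Agent.R286
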