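import Claimed.Agent.R286.Top.Path

/-!
# Row 286 (S0533), unit TOP, file STEN: STENCIL AND SITE WEIGHTS      (helper220; prefix `sk_st_`)      sorry free

LL Lemma 4.3, first half (`red:lem-site-smoothing`), with weights that sum EXACTLY to one:  `w_m(n) = w(m - n)`, `w(y) = R((y+1)/D) - R(y/D)`, `R = Real.smoothTransition`.
* `sk_st_exists`     the stencil exists (Lagrange)
* `sk_st_taylor`     `|∑_j c_j w(y - j) + w'(y)| ≤ C_r sup |w^(r+1)|`
-/

set_option autoImplicit false

namespace Claimed.Agent.R286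

open MeasureTheory Set
open scoped Nat

/-- Taylor: the stencil differentiates a smooth weight -/
theorem sk_st_taylor {r : ℕ} (hr : 1 ≤ r) {c : ℕ → ℝ} (hc : SkStencil r c) {w : ℝ → ℝ} (hw : ContDiff ℝ (r + 1 : ℕ) w) {B : ℝ}
    (hB : ∀ y, |iteratedDeriv (r + 1) w y| ≤ B) (y : ℝ) :
    |∑ j ∈ Finset.range (r + 1), c j * w (y - j) + deriv w y| ≤ (∑ j ∈ Finset.range (r + 1), |c j| * ((j : ℝ) ^ (r + 1) / r !)) * B := by
  obtain ⟨g, hg⟩ : ∃ g : ℝ → ℝ, g = fun t => w (y - t) := ⟨_, rfl⟩
  have hgc : ContDiff ℝ (r + 1 : ℕ) g := by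
    rw [hg]
    exact hw.comp (contDiff_const.sub contDiff_id)
  have hr0 : (0 : ℝ) < r := by exact_mod_cast hr
  have hU : UniqueDiffOn ℝ (Icc (0 : ℝ) r) := uniqueDiffOn_Icc hr0
  obtain ⟨a, ha⟩ : ∃ a : ℕ → ℝ, a = fun k => iteratedDerivWithin k g (Icc (0 : ℝ) r) 0 := ⟨_, rfl⟩
  obtain ⟨P, hP⟩ : ∃ P : Polynomial ℝ, P = ∑ k ∈ Finset.range (r + 1), Polynomial.C ((k ! : ℝ)⁻¹ * a k) * Polynomial.X ^ k := ⟨_, rfl⟩
  have hPe : ∀ x : ℝ, P.eval x = taylorWithinEval g r (Icc (0 : ℝ) r) 0 x := by
    intro x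
    rw [taylor_within_apply, hP, Polynomial.eval_finsetSum]
    refine Finset.sum_congr rfl fun k _ => ?_
    rw [Polynomial.eval_mul, Polynomial.eval_C, Polynomial.eval_pow, Polynomial.eval_X, ha, sub_zero, smul_eq_mul]
    ring
  have hPd : P.natDegree ≤ r := by
    rw [hP]
    refine Polynomial.natDegree_sum_le_of_forall_le _ _ fun k hk => ?_
    exact (Polynomial.natDegree_C_mul_X_pow_le _ _).trans (Nat.lt_succ_iff.1 (Finset.mem_range.1 hk))
  have hP1 : P.derivative.eval 0 = - deriv w y := by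
    rw [← Polynomial.coeff_zero_eq_eval_zero, Polynomial.coeff_derivative, hP, Polynomial.finsetSum_coeff]
    simp only [Polynomial.coeff_C_mul_X_pow]
    rw [Finset.sum_eq_single 1 (fun k _ hk => if_neg (by omega)) (fun h => absurd (Finset.mem_range.2 (by omega)) h)]
    have e1 : a 1 = - deriv w y := by
      rw [ha]
      simp only
      rw [iteratedDerivWithin_one, DifferentiableAt.derivWithin (hgc.differentiable (by simp) 0) (hU 0 ⟨le_rfl, hr0.le⟩), hg]
      have := deriv_comp_const_sub (f := w) y 0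
      simpa using this
    simp [e1]
  have hrem : ∀ j ∈ Finset.range (r + 1), |g j - P.eval (j : ℝ)| ≤ B * (j : ℝ) ^ (r + 1) / r ! := by
    intro j hj
    have hjr : (j : ℝ) ≤ r := by exact_mod_cast Nat.lt_succ_iff.1 (Finset.mem_range.1 hj)
    have := taylor_mean_remainder_bound (f := g) (a := 0) (b := r) (C := B) (x := j) (n := r) hr0.le (by exact_mod_cast hgc.contDiffOn) ⟨Nat.cast_nonneg j, hjr⟩
      (fun t ht => by
        rw [iteratedDerivWithin_eq_iteratedDeriv hU (by exact_mod_cast hgc.contDiffAt) ht, hg, iteratedDeriv_comp_const_sub, norm_smul, norm_pow, norm_neg, norm_one, one_pow, one_mul,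
          Real.norm_eq_abs]
        exact hB _)
    rw [Real.norm_eq_abs, sub_zero] at this
    rw [hPe]
    exact this
  have e2 : ∑ j ∈ Finset.range (r + 1), c j * w (y - j) + deriv w y = ∑ j ∈ Finset.range (r + 1), c j * (g j - P.eval (j : ℝ)) := by
    have h1 := hc P hPd
    rw [hP1] at h1
    have h2 : ∀ j ∈ Finset.range (r + 1), c j * (g j - P.eval (j : ℝ)) = c j * w (y - j) - c j * P.eval (j : ℝ) := by
      intro j _
      rw [hg]
      ring
    rw [Finset.sum_congr rfl h2, Finset.sum_sub_distrib, h1]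
    ring
  rw [e2, Finset.sum_mul]
  refine (Finset.abs_sum_le_sum_abs _ _).trans (Finset.sum_le_sum fun j hj => ?_)
  rw [abs_mul]
  calc |c j| * |g j - P.eval (j : ℝ)| ≤ |c j| * (B * (j : ℝ) ^ (r + 1) / r !) := mul_le_mul_of_nonneg_left (hrem j hj) (abs_nonneg _)
    _ = _ := by ring

/-- the stencil exists -/
theorem sk_st_exists (r : ℕ) : ∃ c : ℕ → ℝ, SkStencil r c := by
  refine ⟨fun j => (Polynomial.derivative (Lagrange.basis (Finset.range (r + 1)) (fun j : ℕ => (j : ℝ)) j)).eval 0, fun P hP => ?_⟩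
  have hinj : Set.InjOn (fun j : ℕ => (j : ℝ)) (Finset.range (r + 1) : Set ℕ) := fun a _ b _ h => Nat.cast_injective h
  have hdeg : P.degree < (Finset.range (r + 1)).card := by
    rw [Finset.card_range]
    exact lt_of_le_of_lt Polynomial.degree_le_natDegree (by exact_mod_cast Nat.lt_succ_of_le hP)
  have h1 := Lagrange.eq_interpolate hinj hdeg
  conv_rhs => rw [h1]
  rw [Lagrange.interpolate_apply, Polynomial.derivative_sum, Polynomial.eval_finsetSum]
  refine Finset.sum_congr rfl fun j _ => ?_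
  rw [Polynomial.derivative_C_mul, Polynomial.eval_mul, Polynomial.eval_C]
  ring

/-! ## the site weights -/

/-- the site weight at distance `y = m - n` from the real centre; width `D` -/
noncomputable def skW (D y : ℝ) : ℝ := Real.smoothTransition ((y + 1) / D) - Real.smoothTransition (y / D)

theorem sk_st_eqns_cite : True := by
  have := @skW.eq_1
  trivial

theorem sk_st_w_contDiff (D : ℝ) (k : ℕ∞) : ContDiff ℝ k (skW D) := by
  unfold skW
  exact (Real.smoothTransition.contDiff.comp ((contDiff_id.add contDiff_const).div_const D)).sub (Real.smoothTransition.contDiff.comp (contDiff_id.div_const D))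

theorem sk_st_w_nonneg {D : ℝ} (hD : 0 < D) (y : ℝ) : 0 ≤ skW D y := by
  unfold skW
  exact sub_nonneg.2 (Real.smoothTransition.monotone (div_le_div_of_nonneg_right (by linarith) hD.le))

theorem sk_st_w_supp {D : ℝ} (hD : 0 < D) {y : ℝ} (h : skW D y ≠ 0) : -1 < y ∧ y < D := by
  constructor
  · by_contra hy
    push Not at hy
    refine h ?_
    unfold skW
    rw [Real.smoothTransition.zero_of_nonpos (div_nonpos_of_nonpos_of_nonneg (by linarith) hD.le),
      Real.smoothTransition.zero_of_nonpos (div_nonpos_of_nonpos_of_nonneg (by linarith) hD.le), sub_zero]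
  · by_contra hy
    push Not at hy
    refine h ?_
    unfold skW
    rw [Real.smoothTransition.one_of_one_le ((one_le_div hD).2 (by linarith)), Real.smoothTransition.one_of_one_le ((one_le_div hD).2 hy), sub_self]

/-- the derivative vanishes where the weight vanishes -/
theorem sk_st_w_deriv_zero {D : ℝ} (hD : 0 < D) {y : ℝ} (h : skW D y = 0) : deriv (skW D) y = 0 := by
  refine IsLocalMin.deriv_eq_zero (Filter.Eventually.of_forall fun z => ?_)
  rw [h]
  exact sk_st_w_nonneg hD z

/-- telescoping -/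
theorem sk_st_w_sum (D n : ℝ) (K : ℕ) :
    ∑ m ∈ Finset.range K, skW D ((m : ℝ) - n) = Real.smoothTransition (((K : ℝ) - n) / D) - Real.smoothTransition ((0 - n) / D) := by
  unfold skW
  have := Finset.sum_range_sub (fun m : ℕ => Real.smoothTransition (((m : ℝ) - n) / D)) K
  rw [Nat.cast_zero] at this
  rw [← this]
  refine Finset.sum_congr rfl fun m _ => ?_
  rw [Nat.cast_add, Nat.cast_one]
  congr 2
  ring

theorem sk_st_w_sum_le (D n : ℝ) (K : ℕ) : ∑ m ∈ Finset.range K, skW D ((m : ℝ) - n) ≤ 1 := by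
  rw [sk_st_w_sum]
  linarith [Real.smoothTransition.le_one (((K : ℝ) - n) / D), Real.smoothTransition.nonneg ((0 - n) / D)]

theorem sk_st_w_sum_one {D n : ℝ} (hD : 0 < D) (hn : 0 ≤ n) {K : ℕ} (hK : n + D ≤ K) : ∑ m ∈ Finset.range K, skW D ((m : ℝ) - n) = 1 := by
  rw [sk_st_w_sum, Real.smoothTransition.one_of_one_le ((one_le_div hD).2 (by linarith)),
    Real.smoothTransition.zero_of_nonpos (div_nonpos_of_nonpos_of_nonneg (by linarith) hD.le), sub_zero]

/-- the derivatives of the transition are bounded -/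
theorem sk_st_R_bound (k : ℕ) (hk : 1 ≤ k) : ∃ M : ℝ, 0 ≤ M ∧ ∀ t, |iteratedDeriv k Real.smoothTransition t| ≤ M := by
  have hc : Continuous (iteratedDeriv k Real.smoothTransition) := (Real.smoothTransition.contDiff (n := k)).continuous_iteratedDeriv k le_rfl
  obtain ⟨M, hM⟩ := (isCompact_Icc (a := (0 : ℝ)) (b := 1)).exists_bound_of_continuousOn hc.continuousOn
  have hM0 : 0 ≤ M := (norm_nonneg _).trans (hM 0 ⟨le_rfl, zero_le_one⟩)
  refine ⟨M, hM0, fun t => ?_⟩
  by_cases ht : t ∈ Icc (0 : ℝ) 1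
  · exact hM t ht
  · rw [mem_Icc, not_and_or, not_le, not_le] at ht
    have key : ∀ a : ℝ, Real.smoothTransition =ᶠ[nhds t] (fun _ => a) → |iteratedDeriv k Real.smoothTransition t| ≤ M := by
      intro a ha
      rw [ha.iteratedDeriv_eq k, iteratedDeriv_const, if_neg (by omega), abs_zero]
      exact hM0
    rcases ht with ht | ht
    · refine key 0 ?_
      filter_upwards [Iio_mem_nhds ht] with z hz
      exact Real.smoothTransition.zero_of_nonpos (le_of_lt hz)
    · refine key 1 ?_
      filter_upwards [Ioi_mem_nhds ht] with z hz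
      exact Real.smoothTransition.one_of_one_le (le_of_lt hz)

/-- the derivatives of the weights -/
theorem sk_st_w_bound (k : ℕ) (hk : 1 ≤ k) : ∃ M : ℝ, 0 ≤ M ∧ ∀ D : ℝ, 0 < D → ∀ y, |iteratedDeriv k (skW D) y| ≤ M * D⁻¹ ^ k := by
  obtain ⟨M, hM0, hM⟩ := sk_st_R_bound k hk
  refine ⟨2 * M, by positivity, fun D hD y => ?_⟩
  have hR : ContDiff ℝ k Real.smoothTransition := Real.smoothTransition.contDiff
  have e1 : iteratedDeriv k (fun y => Real.smoothTransition (y / D)) = fun y => D⁻¹ ^ k * iteratedDeriv k Real.smoothTransition (D⁻¹ * y) := by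
    have := iteratedDeriv_comp_const_mul hR D⁻¹
    rw [← this]
    congr 1
    funext z
    rw [div_eq_inv_mul]
  have e2 : iteratedDeriv k (fun y => Real.smoothTransition ((y + 1) / D)) = fun y => D⁻¹ ^ k * iteratedDeriv k Real.smoothTransition (D⁻¹ * (y + 1)) := by
    have := iteratedDeriv_comp_add_const k (fun y => Real.smoothTransition (y / D)) 1
    rw [this, e1]
  have e3 : iteratedDeriv k (skW D) y = D⁻¹ ^ k * iteratedDeriv k Real.smoothTransition (D⁻¹ * (y + 1)) - D⁻¹ ^ k * iteratedDeriv k Real.smoothTransition (D⁻¹ * y) := by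
    have h1 : ContDiffAt ℝ k (fun y => Real.smoothTransition ((y + 1) / D)) y := (hR.comp ((contDiff_id.add contDiff_const).div_const D)).contDiffAt
    have h2 : ContDiffAt ℝ k (fun y => Real.smoothTransition (y / D)) y := (hR.comp (contDiff_id.div_const D)).contDiffAt
    have := iteratedDeriv_fun_sub h1 h2
    rw [e1, e2] at this
    exact this
  rw [e3]
  have hp : 0 ≤ D⁻¹ ^ k := by positivity
  calc _ ≤ |D⁻¹ ^ k * iteratedDeriv k Real.smoothTransition (D⁻¹ * (y + 1))| + |D⁻¹ ^ k * iteratedDeriv k Real.smoothTransition (D⁻¹ * y)| := abs_sub _ _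
    _ ≤ D⁻¹ ^ k * M + D⁻¹ ^ k * M := by
        rw [abs_mul, abs_mul, abs_of_nonneg hp]
        exact add_le_add (mul_le_mul_of_nonneg_left (hM _) hp) (mul_le_mul_of_nonneg_left (hM _) hp)
    _ = _ := by ring

end Claimed.Agent.R286
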